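import Vale.Agent.P016Z.Vor.Pre

/-!
P016, block VOR: the two finite Fourier expansions.
-/

namespace Vale.Agent.P016Z.Vor

open NumberField Vale.Agent.P016Z.TH
open scoped ComplexConjugate

/-- Fourier expansion with respect to a character which need not be primitive -/
theorem gen_fourier {A : Type} [CommRing A] (m : A) [Finite (Rs m)] {e : A → ℂ}
    (he : ∀ x y, e (x + y) = e x * e y) (hm : ∀ x, m ∣ x → e x = 1) {g : A → ℂ}
    (hg : ∀ x y, (∀ t, e (t * (x - y)) = 1) → g x = g y) :
    ∃ b : A → ℂ, ∀ x, g x = rsum m fun y => b y * e (x * y) := by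
  classical
  have hp : ∀ k, PerM m fun t => e (t * k) := fun k s t h => by
    have := he (t * k) ((s - t) * k)
    rw [hm _ (h.mul_right k), mul_one] at this
    simp only [← this]
    congr 1
    ring
  have h1 : ∀ k, rsum m (fun t => e (t * k)) = if ∀ t, e (t * k) = 1 then (Nq m : ℂ) else 0 := by
    intro k
    split_ifs with h
    · rw [rsum_congr (h' := fun _ => 1) h, rsum_const, mul_one]
    · by_contra hne
      refine h fun x => ?_
      have h1 := rsum_comp_add x (hp k)
      simp only [add_mul, he] at h1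
      rw [rsum_mul_const] at h1
      exact mul_left_cancel₀ hne (h1.trans (mul_one _).symm)
  set I : A → ℂ := fun k => if ∀ t, e (t * k) = 1 then (Nq m : ℂ) else 0 with hI
  have hIp : PerM m I := fun s t h => by
    have : ∀ x, e (x * s) = e (x * t) := fun x => by
      rw [mul_comm x, mul_comm x]; exact hp x s t h
    simp only [hI, this]
  have hN : (Nq m : ℂ) ≠ 0 := by exact_mod_cast (Nat.card_pos (α := Rs m)).ne'
  have h0 : rsum m I ≠ 0 := by
    have := Fintype.ofFinite (Rs m)
    rw [rsum_eq_sum]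
    simp only [hI]
    rw [← Finset.sum_filter, Finset.sum_const, nsmul_eq_mul]
    refine mul_ne_zero (Nat.cast_ne_zero.2 (Finset.card_ne_zero.2 ⟨rs m 0, ?_⟩)) hN
    refine Finset.mem_filter.2 ⟨Finset.mem_univ _, fun t => hm _ (Dvd.dvd.mul_left ?_ t)⟩
    rw [← rs_eq_zero, rs_out, map_zero]
  refine ⟨fun y => (rsum m I)⁻¹ * rsum m fun t => g t * e (-(t * y)), fun x => ?_⟩
  have h2 : ∀ y, ((rsum m I)⁻¹ * rsum m fun t => g t * e (-(t * y))) * e (x * y) =
      (rsum m I)⁻¹ * rsum m fun t => g t * e (y * (x - t)) := fun y => by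
    rw [mul_assoc, ← rsum_mul_const]
    congr 1
    refine rsum_congr fun t => ?_
    rw [mul_assoc, ← he]; congr 2; ring
  simp only [h2]
  rw [rsum_const_mul, rsum_comm]
  simp only [rsum_const_mul, h1]
  have h3 : (rsum m fun t => g t * if ∀ s, e (s * (x - t)) = 1 then (Nq m : ℂ) else 0) =
      g x * rsum m I := by
    have h4 := rsum_comp_neg (hIp.comp_add x)
    rw [rsum_comp_add x hIp] at h4
    rw [← h4, ← rsum_const_mul]
    refine rsum_congr fun t => ?_
    simp only [hI, neg_add_eq_sub]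
    split_ifs with h
    · rw [hg x t h]
    · rw [mul_zero, mul_zero]
  rw [h3, mul_left_comm, inv_mul_cancel₀ h0, mul_one]

variable (K : Type) [Field K] [NumberField K] [Dat K]

theorem sExp : SExp K := by
  classical
  intro φ k0 j hφ
  obtain ⟨i, hi⟩ := exists_V φ⁻¹
  have hQ := QK_ne K
  have hD := lv_ne (K := K) j
  set n : ℕ := k0 + j + i + 3 with hn
  set m : 𝓞 K := (Q K : 𝓞 K) ^ n with hm
  have hmK : (m : K) = (Q K : K) ^ n := by simp [hm]
  have hm0 : (m : K) ≠ 0 := by rw [hmK]; exact pow_ne_zero _ hQ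
  have : Finite (Rs m) := Ideal.finiteQuotientOfFreeOfNeBot _ (by
    rw [Ne, Ideal.span_singleton_eq_bot]
    exact fun h => hm0 (by rw [h]; rfl))
  have := Fintype.ofFinite (Rs m)
  have key : ∀ x y : 𝓞 K, (∀ t : 𝓞 K, eT (((t * (x - y) : 𝓞 K) : K) / m) = 1) →
      Fine k0 φ (x / TH.lv K j) → Fine k0 φ (y / TH.lv K j) := by
    intro x y h hx
    have h1 : IsIntegral ℤ ((Q K : K) * (((x : K) - y) / m)) :=
      isIntegral_mul_of_dvd Dat.disc_dvd (isIntegral_discr_mul fun t => by
        have := ee_eq_one_iff.1 (h t)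
        push_cast at this
        rwa [mul_div_assoc] at this)
    have h2 : V (-((1 : ℕ) : ℤ)) (((x : K) - y) / m) :=
      V_neg_iff.2 (by rw [pow_one]; exact mem_Si_of_isIntegral h1)
    have h3 : V (n : ℤ) (m : K) := V_nat_iff.2 (by rw [← hmK, div_self hm0]; exact one_mem _)
    have h4 : V (-((j : ℤ) + 1)) (TH.lv K j)⁻¹ :=
      V_neg_lv_iff.2 (by rw [mul_inv_cancel₀ hD]; exact one_mem _)
    have h5 := (((h2.mul h3).mul h4).mul' hi (l := (k0 : ℤ) + 1) (by omega))
    have e : (y : K) / TH.lv K j / φ - 1 =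
        ((x : K) / TH.lv K j / φ - 1) - ((x : K) - y) / m * m * (TH.lv K j)⁻¹ * φ⁻¹ := by
      field_simp
      ring
    rw [Fine, e]
    exact V.sub hx h5
  obtain ⟨b, hb⟩ := gen_fourier m (e := fun x : 𝓞 K => eT ((x : K) / m))
    (fun x y => by rw [← eT_add, ← add_div]; push_cast; rfl)
    (fun x h => by
      obtain ⟨y, rfl⟩ := h
      refine eT_of_int ?_
      push_cast
      rw [mul_div_cancel_left₀ _ hm0]
      exact RingOfIntegers.isIntegral_coe y)
    (g := fun x => if Fine k0 φ (x / TH.lv K j) then 1 else 0) (fun x y h => by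
      have : Fine k0 φ (x / TH.lv K j) ↔ Fine k0 φ (y / TH.lv K j) :=
        ⟨key x y h, key y x fun t => by rw [← h (-t)]; congr 3; ring⟩
      simp only [this])
  set s : Rs m → K := fun y => TH.lv K j * ((Quotient.out y : 𝓞 K) : K) / m with hs
  refine ⟨Finset.univ.image s, fun z => ∑ y with s y = z, b y.out, fun z hz => ?_, fun ν hν => ?_⟩
  · obtain ⟨y, -, rfl⟩ := Finset.mem_image.1 hz
    simp only [hs, hmK]
    exact div_Q_pow_mem_R (mul_mem (pow_mem (natCast_mem _ _) _) (coe_mem_Loc _)) _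
  · have h1 := hb ⟨_, hν⟩
    change (if Fine k0 φ (TH.lv K j * ν / TH.lv K j) then 1 else 0) = _ at h1
    rw [mul_div_cancel_left₀ _ hD] at h1
    rw [h1, rsum_eq_sum, ← Finset.sum_fiberwise_of_maps_to (g := s) (t := Finset.univ.image s)
      fun y hy => Finset.mem_image_of_mem s hy]
    refine Finset.sum_congr rfl fun z _ => ?_
    rw [Finset.sum_mul]
    refine Finset.sum_congr rfl fun y hy => ?_
    rw [← (Finset.mem_filter.1 hy).2]
    congr 2
    change TH.lv K j * ν * ((Quotient.out y : 𝓞 K) : K) / m = _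
    simp only [hs]
    ring

theorem rExp : RExp K := by
  classical
  intro c h' f _ hc hh hf h1
  have hN : (Nr c : ℂ) ≠ 0 := by exact_mod_cast (Nr_pos hc).ne'
  set b : R K → ℂ := fun y => (Nr c : ℂ)⁻¹ * fhat c f (-(y * h')) with hb
  have h2 : ∀ ν : R K, f ν = ∑ x : Rs c, b x.out * E c (ν * (x.out * h')) := fun ν => by
    have hp : PerM c fun y => fhat c f y * E c (-(ν * y)) := fun x y h => by
      have e1 : fhat c f x = fhat c f y := rsum_congr fun t => by
        rw [E_per' hc (t * x) (t * y) (by rw [← mul_sub]; exact h.mul_left t)]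
      simp only [e1]
      rw [E_per' hc (-(ν * x)) (-(ν * y)) (by
        rw [neg_sub_neg, ← mul_sub]; exact (dvd_sub_comm.1 h).mul_left ν)]
    have h3 := rsum_comp_mul (hh.neg_left) hp
    rw [fourier_inv hc hf, rsum_eq_sum] at h3
    rw [← inv_mul_cancel_left₀ hN (f ν), ← h3, Finset.mul_sum]
    refine Finset.sum_congr rfl fun x _ => ?_
    simp only [hb, mul_assoc]
    congr 3 <;> ring
  refine ⟨fun x => b x.out, ?_, h2⟩
  have h3 : ∑ x : Rs c, b x.out * conj (b x.out) =
      (Nr c : ℂ)⁻¹ * ∑ t : Rs c, f t.out * conj (f t.out) := by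
    have h4 : ∀ x : Rs c, conj (b x.out) =
        (Nr c : ℂ)⁻¹ * ∑ t : Rs c, conj (f t.out) * E c (t.out * (x.out * h')) := fun x => by
      simp only [hb, fhat, rsum_eq_sum, map_mul, map_inv₀, map_natCast, map_sum, mul_neg, E_neg,
        Complex.conj_conj]
    simp only [h4, Finset.mul_sum]
    rw [Finset.sum_comm]
    refine Finset.sum_congr rfl fun t _ => ?_
    have h5 := congrArg (fun z => (Nr c : ℂ)⁻¹ * (z * conj (f t.out))) (h2 t.out)
    rw [h5, Finset.sum_mul, Finset.mul_sum]
    exact Finset.sum_congr rfl fun x _ => by ring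
  have h5 : ∑ x : Rs c, ‖b x.out‖ ^ 2 = (Nr c : ℝ)⁻¹ * ∑ t : Rs c, ‖f t.out‖ ^ 2 := by
    simp only [Complex.mul_conj'] at h3
    apply Complex.ofReal_injective
    push_cast
    exact h3
  have h6 : (0 : ℝ) < Nr c := by exact_mod_cast Nr_pos hc
  rw [h5, inv_mul_le_iff₀ h6, mul_one]
  refine (Finset.sum_le_card_nsmul _ _ 1 fun t _ => pow_le_one₀ (norm_nonneg _) (h1 _)).trans ?_
  rw [Finset.card_univ, ← Nat.card_eq_fintype_card, nsmul_eq_mul, mul_one]
  exact le_rfl

end Vale.Agent.P016Z.Vor
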