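import Vale.Agent.P016Z.Vor.Defs
import Mathlib.NumberTheory.NumberField.Units.DirichletTheorem

/-!
P016, block VOR: the integers generating a given ideal of `R`, modulo `G0`.
-/

namespace Vale.Agent.P016Z.Vor

open NumberField Finset

namespace FibAux

variable {K : Type} [Field K] [NumberField K] [Dat K]

variable (K) in
/-- the primes of `Si` -/
noncomputable def T : Finset (Si K) := by
  classical exact (UniqueFactorizationMonoid.factors (Q K : Si K)).toFinset

theorem prime_T {p : Si K} (hp : p ∈ T K) : Prime p := by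
  classical
  exact UniqueFactorizationMonoid.prime_of_factor _ (Multiset.mem_toFinset.1 hp)

theorem exists_exp (x : Si K) : x ≠ 0 → ∃ e : T K → ℕ, Associated x (∏ p : T K, (p : Si K) ^ e p) := by
  classical
  induction x using UniqueFactorizationMonoid.induction_on_prime with
  | h₁ => exact fun h => (h rfl).elim
  | h₂ x hx => exact fun _ => ⟨0, by simpa using associated_one_iff_isUnit.2 hx⟩
  | h₃ a p ha hp ih =>
    intro _
    obtain ⟨e, he⟩ := ih ha
    obtain ⟨q, hq, hu⟩ := UniqueFactorizationMonoid.exists_mem_factors_of_dvd Q_Si_ne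
      hp.irreducible (prime_dvd_Q hp)
    have hq' : q ∈ T K := Multiset.mem_toFinset.2 hq
    refine ⟨Pi.single ⟨q, hq'⟩ 1 + e, ?_⟩
    simp only [Pi.add_apply, pow_add, prod_mul_distrib]
    rw [prod_eq_single (⟨q, hq'⟩ : T K) (fun b _ hb => by rw [Pi.single_eq_of_ne hb, pow_zero])
      (fun h => (h (mem_univ _)).elim), Pi.single_eq_same, pow_one]
    exact hu.mul_mul he

theorem two_le_Ns {p : Si K} (hp : Prime p) : 2 ≤ Ns p := by
  have := finite_Rs_Si hp.ne_zero
  have h1 : Ns p ≠ 0 := Nat.card_pos.ne'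
  have h2 : Ns p ≠ 1 := fun h => hp.not_isUnit (Nq_eq_one_iff.1 h)
  omega

theorem le_Ns_prod (s : Finset (T K)) (e : T K → ℕ) :
    ∏ p ∈ s, 2 ^ e p ≤ Ns (∏ p ∈ s, (p : Si K) ^ e p) := by
  classical
  have hpow : ∀ (a : Si K) (k : ℕ), Ns (a ^ k) = Ns a ^ k := by
    intro a k
    induction k with
    | zero => simp [Nq_one]
    | succ k ih => rw [pow_succ, pow_succ, ← ih]; exact Nq_mul _ _
  induction s using Finset.induction_on with
  | empty => simp [Nq_one]
  | insert a s ha ih =>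
    rw [prod_insert ha, prod_insert ha, Ns, Nq_mul]
    refine Nat.mul_le_mul ?_ ih
    change _ ≤ Ns _
    rw [hpow]
    exact Nat.pow_le_pow_left (two_le_Ns (prime_T a.2)) _

theorem sum_geom {ι : Type} [Fintype ι] {r : ℝ} (h0 : 0 ≤ r) (h1 : r < 1) (E : Finset (ι → ℕ)) :
    ∑ e ∈ E, ∏ p, r ^ e p ≤ (1 - r)⁻¹ ^ Fintype.card ι := by
  classical
  obtain ⟨B, hB⟩ : ∃ B : ℕ, ∀ e ∈ E, ∀ p, e p < B :=
    ⟨(∑ e ∈ E, ∑ p, e p) + 1, fun e he p => Nat.lt_succ_of_le
      ((single_le_sum (f := e) (fun _ _ => Nat.zero_le _) (mem_univ p)).trans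
        (single_le_sum (f := fun e : ι → ℕ => ∑ p, e p) (fun _ _ => Nat.zero_le _) he))⟩
  calc ∑ e ∈ E, ∏ p, r ^ e p ≤ ∑ e ∈ Fintype.piFinset fun _ : ι => range B, ∏ p, r ^ e p :=
        sum_le_sum_of_subset_of_nonneg
          (fun e he => Fintype.mem_piFinset.2 fun p => mem_range.2 (hB e he p))
          fun _ _ _ => by positivity
    _ = ∏ _p : ι, ∑ j ∈ range B, r ^ j := (prod_univ_sum _ fun _ j => r ^ j).symm
    _ ≤ ∏ _p : ι, (1 - r)⁻¹ := by
        gcongr
        rw [← tsum_geometric_of_lt_one h0 h1]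
        exact (summable_geometric_of_lt_one h0 h1).sum_le_tsum _ fun _ _ => by positivity
    _ = _ := by rw [prod_const, card_univ]

variable (K) in
/-- the classes of the units of the integers modulo `G0` -/
noncomputable def fU (k : ℕ) : (𝓞 K)ˣ →* Kˣ ⧸ G0 K k :=
  (QuotientGroup.mk' _).comp (Units.map (algebraMap (𝓞 K) K).toMonoidHom)

theorem pow_mem_G0 (k : ℕ) (u : (𝓞 K)ˣ) :
    Units.map (algebraMap (𝓞 K) K).toMonoidHom u ^ ((P K k).relIndex (Su K) * 6) ∈ G0 K k := by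
  set x : Kˣ := Units.map (algebraMap (𝓞 K) K).toMonoidHom u with hx
  have e : ((x : K))⁻¹ = ((u⁻¹ : (𝓞 K)ˣ) : 𝓞 K) := by
    rw [← Units.val_inv_eq_inv_val, hx, ← map_inv]; rfl
  have h1 : x ∈ Ru K := ⟨coe_mem_Loc _, by rw [e]; exact coe_mem_Loc _⟩
  have h2 : x ∈ Su K := ⟨coe_mem_Loc _, by rw [e]; exact coe_mem_Loc _⟩
  rw [pow_mul]
  exact ⟨_, ⟨pow_mem h1 _, Subgroup.pow_relIndex_mem _ h2⟩, rfl⟩

theorem finite_fU (k : ℕ) : Finite (fU K k).range := by
  have : Group.FG (𝓞 K)ˣ := Group.fg_iff_monoid_fg.2 inferInstance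
  refine CommGroup.finite_of_fg_isMulTorsion _ ?_
  rintro ⟨_, u, rfl⟩
  refine isOfFinOrder_iff_pow_eq_one.2 ⟨(P K k).relIndex (Su K) * 6,
    Nat.mul_pos (Nat.pos_of_ne_zero (relIndex_P_ne k)) (by norm_num), Subtype.ext ?_⟩
  change (QuotientGroup.mk (Units.map (algebraMap (𝓞 K) K).toMonoidHom u) : Kˣ ⧸ G0 K k) ^ _ = 1
  rw [← QuotientGroup.mk_pow, QuotientGroup.eq_one_iff]
  exact pow_mem_G0 k u

theorem card_le (k : ℕ) (F : Finset (𝓞 K)) (h0 : ∀ x ∈ F, x ≠ 0)
    (h1 : ∀ x ∈ F, ∀ y ∈ F, Associated (toR x) (toR y) ∧ Associated (toSi x) (toSi y))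
    (h2 : ∀ x ∈ F, ∀ y ∈ F, ∀ u ∈ G0 K k, (x : K) = (u : K) * (y : K) → x = y) :
    F.card ≤ Nat.card (fU K k).range := by
  have := finite_fU (K := K) k
  have := Fintype.ofFinite (fU K k).range
  rcases F.eq_empty_or_nonempty with rfl | ⟨y, hy⟩
  · simp
  have hK : ∀ x ∈ F, (x : K) ≠ 0 := fun x hx => by exact_mod_cast h0 x hx
  have hd : ∀ x ∈ F, ∀ y ∈ F, x ∣ y := by
    intro x hx y hy
    have a1 : toR x ≠ 0 := fun h => hK x hx (congrArg (fun t : R K => (t : K)) h)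
    have a2 : toSi x ≠ 0 := fun h => hK x hx (congrArg (fun t : Si K => (t : K)) h)
    refine ⟨⟨_, isIntegral_of_mem ((dvd_iff_div_mem a1).1 (h1 x hx y hy).1.dvd)
      ((dvd_iff_div_mem_Si a2).1 (h1 x hx y hy).2.dvd)⟩, RingOfIntegers.ext ?_⟩
    change (y : K) = (x : K) * ((y : K) / (x : K))
    have := hK x hx
    field_simp
  have hu : ∀ x ∈ F, ∃ u : (𝓞 K)ˣ, y * u = x := fun x hx =>
    associated_of_dvd_dvd (hd y hy x hx) (hd x hx y hy)
  choose! u hu using hu
  rw [Nat.card_eq_fintype_card, ← card_univ]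
  refine card_le_card_of_injOn (fun x => ⟨fU K k (u x), u x, rfl⟩) (fun _ _ => mem_univ _) ?_
  intro x hx x' hx' h
  have h3 : fU K k (u x') = fU K k (u x) := (congrArg Subtype.val h).symm
  refine h2 x hx x' hx' _ (QuotientGroup.eq.1 h3) ?_
  have h4 : ((u x' : 𝓞 K) : K) ≠ 0 := by exact_mod_cast (u x').ne_zero
  have h5 : (y : K) * ((u x : 𝓞 K) : K) = x := by exact_mod_cast hu x hx
  have h6 : (y : K) * ((u x' : 𝓞 K) : K) = x' := by exact_mod_cast hu x' hx'
  rw [← h5, ← h6]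
  simp only [Units.val_mul, Units.val_inv_eq_inv_val, Units.coe_map]
  change (y : K) * ((u x : 𝓞 K) : K) =
    (((u x' : 𝓞 K) : K))⁻¹ * ((u x : 𝓞 K) : K) * ((y : K) * ((u x' : 𝓞 K) : K))
  field_simp

end FibAux

open FibAux in
theorem fibStmt (K : Type) [Field K] [NumberField K] [Dat K] : FibStmt K := by
  classical
  intro k δ hδ
  set r : ℝ := 2 ^ (-δ) with hr
  have r0 : 0 ≤ r := by positivity
  have r1 : r < 1 := Real.rpow_lt_one_of_one_lt_of_neg (by norm_num) (by linarith)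
  refine ⟨Nat.card (fU K k).range * (1 - r)⁻¹ ^ Fintype.card (T K), fun m F hF hG => ?_⟩
  choose! e he using exists_exp (K := K)
  have hne : ∀ x ∈ F, toSi x ≠ 0 := fun x hx h =>
    (by exact_mod_cast (hF x hx).1 : (x : K) ≠ 0) (congrArg (fun t : Si K => (t : K)) h)
  have h1 : ∀ x ∈ F, (Ns (toSi x) : ℝ) ^ (-δ) ≤ ∏ p, r ^ e (toSi x) p := by
    intro x hx
    have h2 : ((∏ p, 2 ^ e (toSi x) p : ℕ) : ℝ) ≤ Ns (toSi x) := by
      rw [Ns, Nq_congr (he _ (hne x hx))]
      exact_mod_cast le_Ns_prod univ _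
    calc (Ns (toSi x) : ℝ) ^ (-δ) ≤ ((∏ p, 2 ^ e (toSi x) p : ℕ) : ℝ) ^ (-δ) :=
          Real.rpow_le_rpow_of_nonpos (by positivity) h2 (by linarith)
      _ = _ := by
          push_cast
          rw [← Real.finsetProd_rpow _ _ fun _ _ => by positivity]
          refine prod_congr rfl fun p _ => ?_
          rw [hr, ← Real.rpow_natCast, ← Real.rpow_mul (by norm_num), mul_comm,
            Real.rpow_mul (by norm_num), Real.rpow_natCast]
  refine (sum_le_sum h1).trans ?_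
  rw [← sum_fiberwise_of_maps_to (s := F) (t := F.image fun x => e (toSi x))
    (g := fun x => e (toSi x)) (fun x hx => mem_image_of_mem _ hx)]
  calc _ ≤ ∑ a ∈ F.image fun x => e (toSi x), (Nat.card (fU K k).range : ℝ) * ∏ p, r ^ a p := by
        refine sum_le_sum fun a _ => ?_
        rw [sum_congr rfl (g := fun _ => ∏ p, r ^ a p)
          (fun x hx => by rw [(mem_filter.1 hx).2]), sum_const, nsmul_eq_mul]
        gcongr
        refine card_le k _ (fun x hx => (hF x (mem_filter.1 hx).1).1) (fun x hx y hy => ?_)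
          fun x hx y hy => hG x (mem_filter.1 hx).1 y (mem_filter.1 hy).1
        obtain ⟨a1, a2⟩ := mem_filter.1 hx
        obtain ⟨b1, b2⟩ := mem_filter.1 hy
        refine ⟨(hF x a1).2.trans (hF y b1).2.symm, (he _ (hne x a1)).trans ?_⟩
        rw [a2, ← b2]
        exact (he _ (hne y b1)).symm
    _ ≤ _ := by
        rw [← mul_sum]
        gcongr
        exact sum_geom r0 r1 _

end Vale.Agent.P016Z.Vor
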