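import Vale.Agent.P016Z.Vor.Defs2
import Vale.Agent.P016Z.Vor.Fib

/-!
P016, block VOR: decomposition in fine classes.
-/

namespace Vale.Agent.P016Z.Vor

open NumberField Vale.Agent.P016Z.TH

variable {K : Type} [Field K] [NumberField K] [Dat K]

namespace Lf

theorem fine_ne {k : ℕ} {φ x : K} (h : Fine k φ x) : x ≠ 0 :=
  (div_ne_zero_iff.1 (V.inv_of_sub_one h (by omega)).2).1

theorem fine_iff {k : ℕ} {φ x : Kˣ} : Fine k (φ : K) (x : K) ↔ x / φ ∈ P K k := by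
  rw [mem_P_iff, Units.val_div_eq_div_val, Fine]

theorem fine_mul {k : ℕ} {φ x : K} {u : Kˣ} (hu : u ∈ P K k) (h : Fine k φ x) :
    Fine k φ (u * x) := by
  rw [Fine, mul_div_assoc]
  exact V.mul_sub_one (mem_P_iff.1 hu) h (by omega)

theorem mem_of_fine {k : ℕ} {φ x : K} {u : Kˣ} (h : Fine k φ x) (h' : Fine k φ (u * x)) :
    u ∈ P K k := by
  have h1 := V.mul_sub_one h' (V.inv_sub_one h (by omega)) (by omega)
  rwa [mul_div_assoc, mul_inv_cancel_right₀ (V.inv_of_sub_one h (by omega)).2, ← mem_P_iff] at h1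

theorem fin_supp {F : M K → ℂ} (hF : FinS F) {p : M K → Prop} [DecidablePred p] (h0 : ¬ p 0) :
    (Function.support fun m => if p m then F m else 0).Finite := by
  obtain ⟨B, hB⟩ := hF
  refine (Ab.Hn (M K) B).finite_toSet.subset fun m hm => ?_
  obtain ⟨h1, h2⟩ := ite_ne_right_iff.1 hm
  exact Ab.mem_Hn.2 ⟨not_lt.1 fun h => h2 (hB m h), fun h => h0 (h ▸ h1)⟩

theorem not_fineM (k : ℕ) (φ : K) : ¬ FineM k φ 0 := fun ⟨_, h1, h2⟩ =>
  fine_ne h2 (by rw [mkM_eq_zero.1 h1]; rfl)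

theorem fineM_iff {k : ℕ} {φ : Kˣ} {x : R K} (hx : (x : K) ≠ 0) :
    FineM k (φ : K) (mkM x) ↔
      (QuotientGroup.mk φ : Kˣ ⧸ (U K ⊔ P K k)) = QuotientGroup.mk (Units.mk0 _ hx) := by
  rw [QuotientGroup.eq]
  constructor
  · rintro ⟨y, h1, h2⟩
    obtain ⟨η, hη, e⟩ := mkM_eq.1 h1
    refine Subgroup.mem_sup.2 ⟨η, hη, Units.mk0 _ (fine_ne h2) / φ, fine_iff.1 h2, ?_⟩
    ext
    simp only [Units.val_mul, Units.val_div_eq_div_val, Units.val_mk0, Units.val_inv_eq_inv_val, e]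
    ring
  · intro h
    obtain ⟨η, hη, p, hp, e⟩ := Subgroup.mem_sup.1 h
    refine ⟨⟨((η⁻¹ * Units.mk0 _ hx : Kˣ) : K), mul_mem (inv_mem hη).1.1 x.2⟩,
      mkM_eq.2 ⟨η, hη, by simp⟩, (fine_iff (x := η⁻¹ * Units.mk0 _ hx)).2 ?_⟩
    rwa [div_eq_mul_inv, mul_assoc, mul_comm (Units.mk0 _ hx), ← e, inv_mul_cancel_left]

theorem finite_W (k0 k : ℕ) : Finite {q : Kˣ ⧸ G0 K k // q.out ∈ Ru K ⊓ P K k0} := by
  have := FibAux.finite_fU (K := K) k
  refine Finite.of_injective (fun q => (⟨q.1, ?_⟩ : (FibAux.fU K k).range))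
    fun a b h => Subtype.ext (Subtype.mk.inj h)
  obtain ⟨h1, h2⟩ := q.2
  have h3 := P_le_Su _ h2
  refine ⟨⟨⟨_, isIntegral_of_mem h1.1 h3.1⟩, ⟨_, isIntegral_of_mem h1.2 h3.2⟩,
    RingOfIntegers.ext (mul_inv_cancel₀ (Units.ne_zero _)),
    RingOfIntegers.ext (inv_mul_cancel₀ (Units.ne_zero _))⟩, ?_⟩
  refine Eq.trans ?_ (QuotientGroup.out_eq' q.1)
  exact congrArg QuotientGroup.mk (Units.ext rfl)

end Lf

open Lf

variable (K)

theorem left1 : Left1 K := by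
  classical
  intro k0 hk0
  have := Fintype.ofFinite (Kˣ ⧸ (U K ⊔ P K k0))
  choose g hg1 hg2 using fun c : Kˣ ⧸ (U K ⊔ P K k0) => exists_R_mem_P c.out k0
  have hg : ∀ c, (QuotientGroup.mk (g c) : Kˣ ⧸ (U K ⊔ P K k0)) = c := fun c => by
    rw [← QuotientGroup.out_eq' c, eq_comm, QuotientGroup.eq, QuotientGroup.out_eq', mul_comm,
      ← div_eq_mul_inv]
    exact Subgroup.mem_sup_right (hg2 c)
  let r : Kˣ ⧸ (U K ⊔ P K k0) → R K := fun c => ⟨g c, hg1 c⟩
  have hr : Function.Injective r := fun a b h => by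
    rw [← hg a, ← hg b, show g a = g b from Units.ext (congrArg Subtype.val h)]
  refine ⟨(Finset.univ.filter fun c => cl (g c : K) ∈ J0 K).image r, fun φ hφ => ?_, fun F hF => ?_⟩
  · obtain ⟨c, -, rfl⟩ := Finset.mem_image.1 hφ
    exact fun h => (g c).ne_zero (congrArg Subtype.val h)
  rw [← Summable.tsum_finsetSum fun φ _ =>
    summable_of_hasFiniteSupport (fin_supp hF (not_fineM k0 _))]
  refine tsum_congr fun m => ?_
  rw [Finset.sum_image fun a _ b _ h => hr h]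
  obtain ⟨x, rfl⟩ := mkM_surj m
  by_cases hx : x = 0
  · rw [hx, map_zero, if_neg fun h => h.ne_zero rfl]
    exact (Finset.sum_eq_zero fun c _ => if_neg (not_fineM k0 _)).symm
  have hx' := coe_ne_zero hx
  have h1 : ∀ c, FineM k0 (r c : K) (mkM x) ↔ c = QuotientGroup.mk (Units.mk0 _ hx') := fun c => by
    rw [← hg c, ← fineM_iff, hg]
  have h2 : cl (g (QuotientGroup.mk (Units.mk0 _ hx')) : K) = cl (x : K) :=
    (cl_eq_iff (y := Units.mk0 _ hx')).2
      (sup_le inf_le_right (P_le_H hk0) (QuotientGroup.eq.1 (hg _)))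
  simp only [h1, Finset.sum_ite_eq', Finset.mem_filter, Finset.mem_univ, true_and, h2, prim_mkM,
    hx, ne_eq, not_false_eq_true]

theorem left2 : Left2 K := by
  classical
  intro k0 j k φ hk0 hk hφ hV
  have hG : G0 K k ≤ Ru K ⊓ P K k0 := (G0_le k).trans (inf_le_inf_left _ (P_mono hk))
  have hU : Ru K ⊓ P K k0 ≤ U K := inf_le_inf_left _ (P_le_H hk0)
  set W := {q : Kˣ ⧸ G0 K k // q.out ∈ Ru K ⊓ P K k0} with hW
  have hmk : ∀ η ∈ Ru K ⊓ P K k0, ∃ w : W, ∃ g ∈ G0 K k, w.1.out = η * g := fun η hη => by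
    obtain ⟨⟨g, hg⟩, h⟩ := QuotientGroup.mk_out_eq_mul (G0 K k) η
    exact ⟨⟨QuotientGroup.mk η, h ▸ mul_mem hη (hG hg)⟩, g, hg, h⟩
  have : Finite W := finite_W k0 k
  have : Nonempty W := ⟨(hmk 1 (one_mem _)).choose⟩
  have := Fintype.ofFinite W
  refine ⟨Fintype.card W, Fintype.card_pos, fun F hF => ?_⟩
  choose x hx1 hx2 using fun a : {m : M K // FineM k0 (φ : K) m} => a.2
  have h1 : ∀ z : {m : M K // FineM k0 (φ : K) m} × W, ∃ e : Ix (G0 K k) (TH.lv K j),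
      ∃ u ∈ G0 K k, rp e = u * (z.2.1.out * x z.1) := fun z => by
    have h2 := fine_mul z.2.2.2 (hx2 z.1)
    refine exists_rp (G0_int k) (fine_ne h2) (isIntegral_lv_of (mul_mem z.2.2.1.1 (x z.1).2) ?_)
    have h3 := (V.of_sub_one h2 (by omega)).mul' hV (zero_add _).ge
    rwa [div_mul_cancel₀ _ (coe_ne_zero hφ)] at h3
  choose e u hu he using h1
  have h2 : ∀ z, Fine k0 (φ : K) (rp (e z)) := fun z =>
    he z ▸ fine_mul (hG (hu z)).2 (fine_mul z.2.2.2 (hx2 z.1))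
  have h3 : ∀ z, mkM (rR (e z)) = z.1.1 := fun z => by
    rw [← hx1 z.1, eq_comm]
    exact mkM_eq.2 ⟨_, mul_mem (G0_le_U k (hu z)) (hU z.2.2), by
      rw [coe_rR, he, Units.val_mul, mul_assoc]⟩
  have h4 : Function.Injective e := by
    rintro ⟨a, w⟩ ⟨a', w'⟩ h
    obtain rfl : a = a' := Subtype.ext ((h3 _).symm.trans ((congrArg _ (congrArg _ h)).trans (h3 _)))
    have h5 := (he _).symm.trans ((congrArg rp h).trans (he _))
    rw [← mul_assoc, ← mul_assoc] at h5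
    have h6 : u (a, w) * w.1.out = u (a, w') * w'.1.out :=
      Units.ext (mul_right_cancel₀ (fine_ne (hx2 a)) h5)
    congr 1
    refine Subtype.ext ?_
    rw [← QuotientGroup.out_eq' w.1, ← QuotientGroup.out_eq' w'.1, QuotientGroup.eq,
      show w.1.out⁻¹ * w'.1.out = (u (a, w'))⁻¹ * u (a, w) by
        rw [inv_mul_eq_iff_eq_mul, mul_left_comm, mul_comm w.1.out, h6, inv_mul_cancel_left]]
    exact mul_mem (inv_mem (hu _)) (hu _)
  rw [← h4.tsum_eq fun y hy => ?_]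
  · have h5 := tsum_subtype {m : M K | FineM k0 (φ : K) m} F
    have h6 : Summable fun a : {m : M K // FineM k0 (φ : K) m} => ‖F a.1‖ :=
      ((summable_of_hasFiniteSupport (fin_supp hF (not_fineM k0 (φ : K)))).norm.subtype
        {m : M K | FineM k0 (φ : K) m}).congr fun a => by
          simp only [Function.comp, if_pos (show FineM k0 (φ : K) a.1 from a.2)]
    have h7 := tsum_mul_tsum_of_summable_norm h6 (g := fun _ : W => (1 : ℂ)) Summable.of_finite
    simp only [h2, h3, if_true]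
    simp only [mul_one, tsum_fintype, Finset.sum_const, Finset.card_univ, nsmul_eq_mul] at h7
    rw [← h7, mul_comm]
    congr 1
    exact (h5.trans (tsum_congr fun m => by simp [Set.indicator_apply])).symm
  · have h5 := (ite_ne_right_iff.1 hy).1
    let a : {m : M K // FineM k0 (φ : K) m} := ⟨mkM (rR y), rR y, rfl, h5⟩
    obtain ⟨η, hη, h6⟩ := mkM_eq.1 (hx1 a)
    rw [coe_rR] at h6
    obtain ⟨w, g, hg, h7⟩ := hmk η ⟨hη.1, mem_of_fine (hx2 a) (h6 ▸ h5)⟩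
    refine ⟨(a, w), eq_of_rp (mul_mem (hu (a, w)) hg) ?_⟩
    rw [he, h7, h6]
    push_cast
    ring

end Vale.Agent.P016Z.Vor
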