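import Vale.Agent.P016Z.Vor.Fib
import Vale.Agent.P016Z.Pois.Units

/-!
P016, block VOR: balanced representatives modulo `G0`.
-/

namespace Vale.Agent.P016Z.Vor

open NumberField Finset Pois

theorem balStmt (K : Type) [Field K] [NumberField K] [Dat K] : BalStmt K := by
  intro k
  set D : ℕ := (P K k).relIndex (Su K) * 6 with hD
  have hD0 : (0 : ℝ) < D := by
    exact_mod_cast Nat.mul_pos (Nat.pos_of_ne_zero (relIndex_P_ne (K := K) k)) (by norm_num)
  set B : ℝ := ∑ i, ∑ j, |gen (cmK K) (some i) j| with hB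
  have hr : (0 : ℝ) < Fintype.card (io K) := by exact_mod_cast Fintype.card_pos
  refine ⟨Real.exp (Fintype.card (io K) * (D * B)), fun x hx => ?_⟩
  obtain ⟨n, hn, -⟩ := (fd_F0 (cmK K)).2 ((D : ℝ)⁻¹ • lg (cmK K) x)
  set z : io K → ℝ := (D : ℝ)⁻¹ • lg (cmK K) x - lam (cmK K) n with hz
  refine ⟨_, FibAux.pow_mem_G0 k (un K (-n)), fun j => ?_⟩
  have e1 : ((Units.map (algebraMap (𝓞 K) K).toMonoidHom (un K (-n)) ^ D : Kˣ) : K) =
      uK (un K (-n) ^ D) := by rw [← map_pow]; rfl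
  have e2 : lg (cmK K) (uK (un K (-n) ^ D)) = (D : ℝ) • lam (cmK K) (-n) := by
    change lgH (cmK K) (Additive.ofMul (un K (-n) ^ D)) = _
    rw [ofMul_pow, map_nsmul, Nat.cast_smul_eq_nsmul]
    rfl
  have e3 : lg (cmK K) (uK (un K (-n) ^ D) * x) = (D : ℝ) • z := by
    rw [lg_mul _ (uK_ne _) hx, e2, lam_neg, hz, smul_sub, smul_inv_smul₀ hD0.ne', smul_neg]
    abel
  have hx0 : 0 < TH.nm x := (cmK K).nm_pos hx
  have e4 : ∑ j, z j = (D : ℝ)⁻¹ * Real.log (TH.nm x) := by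
    simp only [hz, Pi.sub_apply, Pi.smul_apply, smul_eq_mul, sum_sub_distrib, sum_lam, sub_zero,
      ← mul_sum, sum_lg _ hx]
  have h5 : z j ≤ (D : ℝ)⁻¹ * Real.log (TH.nm x) * (Fintype.card (io K) : ℝ)⁻¹ + B := by
    have h := congrFun ((ub (cmK K)).sum_repr z) j
    rw [Fintype.sum_option, ub_none, e4] at h
    simp only [Pi.add_apply, Pi.smul_apply, smul_eq_mul, Finset.sum_apply, ub_apply] at h
    rw [← h]
    refine add_le_add le_rfl (sum_le_sum fun i _ => ?_)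
    obtain ⟨a1, a2⟩ := hn i
    calc _ ≤ (ub (cmK K)).repr z (some i) * |gen (cmK K) (some i) j| := by
          gcongr; exact le_abs_self _
      _ ≤ |gen (cmK K) (some i) j| := mul_le_of_le_one_left (abs_nonneg _) a2.le
      _ ≤ _ := single_le_sum (f := fun j => |gen (cmK K) (some i) j|) (fun _ _ => abs_nonneg _)
          (mem_univ j)
  rw [← hD, e1, TH.ab, ← exp_lg _ (mul_ne_zero (uK_ne _) hx), e3, ← Real.exp_nat_mul,
    ← Real.exp_log hx0, ← Real.exp_add, Real.exp_le_exp, Pi.smul_apply, smul_eq_mul]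
  calc (Fintype.card (io K) : ℝ) * (D * z j) ≤ Fintype.card (io K) *
        (D * ((D : ℝ)⁻¹ * Real.log (TH.nm x) * (Fintype.card (io K) : ℝ)⁻¹ + B)) := by gcongr
    _ = _ := by field_simp; ring

end Vale.Agent.P016Z.Vor
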