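import Vale.Agent.P016Z.Vor.Defs
import Vale.Agent.P016Z.Ab.Ar

/-!
P016, block VOR: the quadratic large sieve for coefficients with the shape of the cubic theta
coefficients, over the abstract context.
-/

namespace Vale.Agent.P016Z.Vor

open Finset
open Vale.Agent.P016Z.Ab
open Vale.Agent.P026Z.Vor (norm_sum_sq_le_weight)

namespace ShapeAux

variable {M : Type} [CommMonoidWithZero M] [Ar M] {κ : Type} {π : κ → M} {nn cT : κ → ℝ}

theorem card_fiber {δ C K : ℝ} (hδ : 0 < δ) (hK : 1 ≤ K)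
    (h0 : ∀ k, π k ≠ 0 ∧ (N (π k) : ℝ) ≤ nn k ∧ 0 ≤ cT k) {m : M} {F : Finset κ}
    (hF : ∀ k ∈ F, π k = m ∧ nn k ≤ K) (hC : ∑ k ∈ F, (nn k / N m) ^ (-δ) ≤ C) :
    (F.card : ℝ) ≤ C * K ^ δ := by
  have hKδ : 0 < K ^ δ := by positivity
  have h1 : ∀ k ∈ F, (K ^ δ)⁻¹ ≤ (nn k / N m) ^ (-δ) := by
    intro k hk
    obtain ⟨e, hk2⟩ := hF k hk
    have hm : (1 : ℝ) ≤ N m := e ▸ one_le_N (h0 k).1
    have hn : (1 : ℝ) ≤ nn k := (one_le_N (h0 k).1).trans (h0 k).2.1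
    rw [← Real.rpow_neg (by linarith)]
    refine Real.rpow_le_rpow_of_nonpos (by positivity) ?_ (by linarith)
    exact (div_le_self (by linarith) hm).trans hk2
  have h2 := card_nsmul_le_sum F _ _ h1
  rw [nsmul_eq_mul, ← div_eq_mul_inv] at h2
  rw [← div_le_iff₀ hKδ]
  exact h2.trans hC

theorem sum_sq_le {b : κ → M} {C : ℝ} (hb : ∀ k, cT k ≠ 0 → b k ≠ 0)
    (hA : ∀ (m : M) (L : ℝ) (F : Finset κ), 1 ≤ L →
      (∀ k ∈ F, cT k ≠ 0 ∧ b k = m ∧ nn k ≤ L) → (∑ k ∈ F, cT k ^ 2) * (N m : ℝ) ^ 2 ≤ C * L) :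
    ∃ C' : ℝ, 0 ≤ C' ∧ ∀ (L : ℝ) (F : Finset κ), 1 ≤ L → (∀ k ∈ F, nn k ≤ L) →
      ∑ k ∈ F, cT k ^ 2 ≤ C' * L := by
  classical
  have hC : 0 ≤ C := by simpa using hA 1 1 ∅ le_rfl (by simp)
  have hs := summable_N_rpow (M := M) (s := 2) (by norm_num)
  refine ⟨C * ∑' z : M, (N z : ℝ) ^ (-(2 : ℝ)),
    mul_nonneg hC (tsum_nonneg fun _ => by positivity), fun L F hL hF => ?_⟩
  set s := F.filter (fun k => cT k ≠ 0) with hs'
  have h1 : ∑ k ∈ F, cT k ^ 2 = ∑ k ∈ s, cT k ^ 2 := by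
    rw [hs', sum_filter]
    refine sum_congr rfl fun k _ => ?_
    split_ifs with h
    · rfl
    · rw [not_not.1 h]; simp
  rw [h1, ← sum_fiberwise_of_maps_to (s := s) (t := s.image b) (g := b)
    (fun k hk => mem_image_of_mem _ hk)]
  calc _ ≤ ∑ m ∈ s.image b, C * L * (N m : ℝ) ^ (-(2 : ℝ)) := by
        refine sum_le_sum fun m hm => ?_
        obtain ⟨k, hk, rfl⟩ := mem_image.1 hm
        have h2 := one_le_N (hb k (mem_filter.1 hk).2)
        rw [Real.rpow_neg (by positivity), Real.rpow_two, ← div_eq_mul_inv,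
          le_div_iff₀ (by positivity)]
        refine hA _ L _ hL fun l hl => ?_
        obtain ⟨a1, a2⟩ := mem_filter.1 hl
        exact ⟨(mem_filter.1 a1).2, a2, hF l (mem_filter.1 a1).1⟩
    _ = C * (∑ m ∈ s.image b, (N m : ℝ) ^ (-(2 : ℝ))) * L := by rw [← mul_sum]; ring
    _ ≤ _ := by
        gcongr
        exact hs.sum_le_tsum _ fun _ _ => by positivity

theorem summable_one (h0 : ∀ k, π k ≠ 0 ∧ (N (π k) : ℝ) ≤ nn k ∧ 0 ≤ cT k) {C : ℝ}
    (hC : ∀ (m : M) (F : Finset κ), (∀ k ∈ F, π k = m) →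
      ∑ k ∈ F, (nn k / N m) ^ (-(3 / 2) : ℝ) ≤ C) :
    Summable fun k => nn k ^ (-(3 / 2) : ℝ) := by
  classical
  have hC' : 0 ≤ C := by simpa using hC 1 ∅ (by simp)
  have hs := summable_N_rpow (M := M) (s := 3 / 2) (by norm_num)
  have hnn : ∀ k, (1 : ℝ) ≤ nn k := fun k => (one_le_N (h0 k).1).trans (h0 k).2.1
  refine summable_of_sum_le (c := C * ∑' z : M, (N z : ℝ) ^ (-(3 / 2) : ℝ))
    (fun k => by have := hnn k; positivity) fun s => ?_
  rw [← sum_fiberwise_of_maps_to (s := s) (t := s.image π) (g := π)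
    (fun k hk => mem_image_of_mem _ hk)]
  calc _ = ∑ m ∈ s.image π, (N m : ℝ) ^ (-(3 / 2) : ℝ) *
          ∑ k ∈ s with π k = m, (nn k / N m) ^ (-(3 / 2) : ℝ) := by
        refine sum_congr rfl fun m _ => ?_
        rw [mul_sum]
        refine sum_congr rfl fun k hk => ?_
        have h1 := hnn k
        have h2 : (0 : ℝ) < N m := (mem_filter.1 hk).2 ▸ N_pos' (h0 k).1
        rw [← Real.mul_rpow h2.le (by positivity), mul_div_cancel₀ _ h2.ne']
    _ ≤ ∑ m ∈ s.image π, (N m : ℝ) ^ (-(3 / 2) : ℝ) * C := by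
        gcongr with m _
        exact hC m _ fun k hk => (mem_filter.1 hk).2
    _ = C * ∑ m ∈ s.image π, (N m : ℝ) ^ (-(3 / 2) : ℝ) := by rw [← sum_mul, mul_comm]
    _ ≤ _ := by
        gcongr
        exact hs.sum_le_tsum _ fun _ _ => by positivity

theorem summable_sq (hnn : ∀ k, 1 ≤ nn k) {C : ℝ} (hC0 : 0 ≤ C)
    (hC : ∀ (L : ℝ) (F : Finset κ), 1 ≤ L → (∀ k ∈ F, nn k ≤ L) → ∑ k ∈ F, cT k ^ 2 ≤ C * L) :
    Summable fun k => cT k ^ 2 * nn k ^ (-(3 / 2) : ℝ) := by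
  classical
  set r : ℝ := 2 ^ (-(1 / 2) : ℝ) with hr
  have r0 : 0 ≤ r := by positivity
  have r1 : r < 1 := Real.rpow_lt_one_of_one_lt_of_neg (by norm_num) (by norm_num)
  refine summable_of_sum_le (c := 2 * C * ∑' j : ℕ, r ^ j)
    (fun k => by have := hnn k; positivity) fun s => ?_
  rw [← sum_fiberwise_of_maps_to (s := s) (t := s.image fun k => lv (nn k))
    (g := fun k => lv (nn k)) (fun k hk => mem_image_of_mem _ hk)]
  calc _ ≤ ∑ j ∈ s.image fun k => lv (nn k), 2 * C * r ^ j := by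
        refine sum_le_sum fun j _ => ?_
        have h1 : (1 : ℝ) ≤ 2 ^ j := one_le_pow₀ (by norm_num)
        calc _ ≤ ∑ k ∈ s with lv (nn k) = j, cT k ^ 2 * ((2 : ℝ) ^ j) ^ (-(3 / 2) : ℝ) := by
              refine sum_le_sum fun k hk => mul_le_mul_of_nonneg_left ?_ (sq_nonneg _)
              refine Real.rpow_le_rpow_of_nonpos (by positivity) ?_ (by norm_num)
              rw [← (mem_filter.1 hk).2]
              exact (lv_bounds (hnn k)).1
          _ ≤ C * (2 * 2 ^ j) * ((2 : ℝ) ^ j) ^ (-(3 / 2) : ℝ) := by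
              rw [← sum_mul]
              gcongr
              refine hC _ _ (by linarith) fun k hk => ?_
              rw [← (mem_filter.1 hk).2]
              exact (lv_bounds (hnn k)).2
          _ = 2 * C * (((2 : ℝ) ^ j) ^ (1 : ℝ) * ((2 : ℝ) ^ j) ^ (-(3 / 2) : ℝ)) := by
              rw [Real.rpow_one]; ring
          _ = _ := by
              rw [← Real.rpow_add (by positivity), hr, Real.rpow_pow_comm (by norm_num)]
              norm_num
    _ ≤ _ := by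
        rw [← mul_sum]
        gcongr
        exact (summable_geometric_of_lt_one r0 r1).sum_le_tsum _ fun _ _ => by positivity

/-- the decomposition along the cube part -/
theorem exists_fibers {n b : κ → M} (h0 : ∀ k, π k ≠ 0 ∧ (N (π k) : ℝ) ≤ nn k ∧ 0 ≤ cT k)
    {δ C0 C1 : ℝ} (hδ : 0 < δ) (hC1 : ∀ (m : M) (F : Finset κ), (∀ k ∈ F, π k = m) →
      ∑ k ∈ F, (nn k / N m) ^ (-δ) ≤ C1)
    (hnb : ∀ k, cT k ≠ 0 → Squarefree (n k) ∧ π k = n k * b k ^ 3)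
    (hA : ∀ (m : M) (L : ℝ) (F : Finset κ), 1 ≤ L →
      (∀ k ∈ F, cT k ≠ 0 ∧ b k = m ∧ nn k ≤ L) → (∑ k ∈ F, cT k ^ 2) * (N m : ℝ) ^ 2 ≤ C0 * L)
    (K : ℝ) (s : Finset κ) (β : κ → ℂ) (hK : 1 ≤ K) (hs : ∀ k ∈ s, nn k ≤ K ∧ ‖β k‖ ≤ cT k) :
    ∃ (V : M → Finset M) (c : M → M → ℂ),
      (∀ b ∈ Hn M K, (∀ v ∈ V b, Squarefree v ∧ (N v : ℝ) ≤ K) ∧
        ∑ v ∈ V b, ‖c b v‖ ^ 2 ≤ C1 * K ^ δ * (C0 * K) / (N b : ℝ) ^ 2) ∧
      ∀ F : M → ℂ, ∑ k ∈ s, β k * F (π k) = ∑ b ∈ Hn M K, ∑ v ∈ V b, c b v * F (v * b ^ 3) := by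
  classical
  have hC1' : 0 ≤ C1 := by simpa using hC1 1 ∅ (by simp)
  set s' := s.filter (fun k => cT k ≠ 0) with hs'
  have hcf : ∀ k ∈ s', cT k ≠ 0 := fun k hk => (mem_filter.1 hk).2
  have hone : ∀ k ∈ s', b k ≠ 0 ∧ (N (n k) : ℝ) ≤ K ∧ (N (b k) : ℝ) ≤ K := by
    intro k hk
    obtain ⟨-, e⟩ := hnb k (hcf k hk)
    have h1 : (N (π k) : ℝ) ≤ K := (h0 k).2.1.trans (hs k (mem_filter.1 hk).1).1
    refine ⟨fun h => (h0 k).1 (by rw [e, h]; simp),
      (N_le_of_dvd (h0 k).1 ⟨_, e⟩).trans h1, (N_le_of_dvd (h0 k).1 ?_).trans h1⟩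
    rw [e]
    exact Dvd.dvd.mul_left (dvd_pow_self _ (by norm_num)) _
  refine ⟨fun b' => (s'.filter (fun k => b k = b')).image n,
    fun b' v => ∑ k ∈ (s'.filter (fun k => b k = b')).filter (fun k => n k = v), β k, ?_, ?_⟩
  · intro b' hb'
    have hb1 : (1 : ℝ) ≤ N b' := one_le_N (mem_Hn.1 hb').2
    refine ⟨fun v hv => ?_, ?_⟩
    · obtain ⟨k, hk, rfl⟩ := mem_image.1 hv
      have hk1 := (mem_filter.1 hk).1
      exact ⟨(hnb k (hcf k hk1)).1, (hone k hk1).2.1⟩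
    have hc : ∀ v ∈ (s'.filter (fun k => b k = b')).image n,
        ‖∑ k ∈ (s'.filter (fun k => b k = b')).filter (fun k => n k = v), β k‖ ^ 2 ≤
          C1 * K ^ δ * ∑ k ∈ (s'.filter (fun k => b k = b')).filter (fun k => n k = v),
            cT k ^ 2 := by
      intro v _
      set F := (s'.filter (fun k => b k = b')).filter (fun k => n k = v) with hFd
      have hFm : ∀ k ∈ F, k ∈ s' ∧ b k = b' ∧ n k = v := fun k hk =>
        ⟨(mem_filter.1 (mem_filter.1 hk).1).1, (mem_filter.1 (mem_filter.1 hk).1).2,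
          (mem_filter.1 hk).2⟩
      have hπ : ∀ k ∈ F, π k = v * b' ^ 3 := by
        intro k hk
        obtain ⟨a1, a2, a3⟩ := hFm k hk
        rw [(hnb k (hcf k a1)).2, a2, a3]
      have hcard : (F.card : ℝ) ≤ C1 * K ^ δ := card_fiber hδ hK h0
        (fun k hk => ⟨hπ k hk, (hs k (mem_filter.1 (hFm k hk).1).1).1⟩) (hC1 _ F hπ)
      calc ‖∑ k ∈ F, β k‖ ^ 2 ≤ (∑ k ∈ F, ‖β k‖) ^ 2 := by gcongr; exact norm_sum_le _ _
        _ ≤ F.card * ∑ k ∈ F, ‖β k‖ ^ 2 := sq_sum_le_card_mul_sum_sq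
        _ ≤ _ := by
            gcongr with k hk
            exact (hs k (mem_filter.1 (hFm k hk).1).1).2
    refine (sum_le_sum hc).trans ?_
    rw [← mul_sum, sum_fiberwise_of_maps_to (g := n) (fun k hk => mem_image_of_mem _ hk),
      mul_div_assoc]
    gcongr
    rw [le_div_iff₀ (by positivity)]
    refine hA _ K _ hK fun k hk => ?_
    obtain ⟨a1, a2⟩ := mem_filter.1 hk
    exact ⟨hcf k a1, a2, (hs k (mem_filter.1 a1).1).1⟩
  · intro F
    have h1 : ∑ k ∈ s, β k * F (π k) = ∑ k ∈ s', β k * F (π k) := by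
      rw [hs', sum_filter]
      refine sum_congr rfl fun k hk => ?_
      split_ifs with h
      · rfl
      · have h3 := (hs k hk).2
        rw [not_not.1 h] at h3
        rw [norm_le_zero_iff.1 h3, zero_mul]
    rw [h1, ← sum_fiberwise_of_maps_to (s := s') (t := Hn M K) (g := b)
      (fun k hk => mem_Hn.2 ⟨(hone k hk).2.2, (hone k hk).1⟩)]
    refine sum_congr rfl fun b' _ => ?_
    rw [← sum_fiberwise_of_maps_to (s := s'.filter (fun k => b k = b'))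
      (t := (s'.filter (fun k => b k = b')).image n) (g := n) (fun k hk => mem_image_of_mem _ hk)]
    refine sum_congr rfl fun v _ => ?_
    rw [sum_mul]
    refine sum_congr rfl fun k hk => ?_
    obtain ⟨a1, a3⟩ := mem_filter.1 hk
    obtain ⟨a1, a2⟩ := mem_filter.1 a1
    rw [(hnb k (hcf k a1)).2, a2, a3]

end ShapeAux

open ShapeAux in
theorem shapeStmt : ShapeStmt := by
  intro M _ _ _ ρ κ π n b nn cT hQ hmul hle h0 hF hnb ⟨C0, hA⟩
  have hnn : ∀ k, (1 : ℝ) ≤ nn k := fun k => (one_le_N (h0 k).1).trans (h0 k).2.1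
  refine ⟨?_, fun ε hε => ?_⟩
  · obtain ⟨C, hC⟩ := hF (3 / 2) (by norm_num)
    obtain ⟨C', hC', h⟩ := sum_sq_le
      (fun k hk h => (h0 k).1 (by rw [(hnb k hk).2, h]; simp)) hA
    refine ((summable_sq hnn hC' h).add (summable_one h0 hC)).of_nonneg_of_le
      (fun k => mul_nonneg (h0 k).2.2 (by have := hnn k; positivity)) fun k => ?_
    have := hnn k
    rw [← add_one_mul]
    gcongr
    nlinarith [sq_nonneg (cT k - 1)]
  have hδ : 0 < ε / 4 := by positivity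
  obtain ⟨C1, hC1⟩ := hF _ hδ
  have hC0' : 0 ≤ C0 := by simpa using hA 1 1 ∅ le_rfl (by simp)
  have hC1' : 0 ≤ C1 := by simpa using hC1 1 ∅ (by simp)
  obtain ⟨C2, hC2, h2⟩ := sum_inv_N_le M hδ
  obtain ⟨C3, hC3, h3⟩ := hQ (ε / 4) hδ
  refine ⟨C2 ^ 2 * (C3 * (C1 * C0)) + 1, by positivity, fun Y T hY hT K s β hK hs => ?_⟩
  obtain ⟨V, c, hV, hsum⟩ := exists_fibers h0 hδ hC1 hnb hA K s β hK hs
  set W : ℝ := ∑ b ∈ Hn M K, (N b : ℝ)⁻¹ with hW
  have hWle : W ≤ C2 * K ^ (ε / 4) := h2 K (by linarith)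
  have hW0 : 0 ≤ W := sum_nonneg fun _ _ => by positivity
  have hNp : ∀ b ∈ Hn M K, (1 : ℝ) ≤ N b := fun b hb => one_le_N (mem_Hn.1 hb).2
  set B : ℝ := C3 * (K * Y) ^ (ε / 4) * (K + Y) * (C1 * K ^ (ε / 4) * (C0 * K)) with hB
  have hfiber : ∀ b ∈ Hn M K, ∑ h ∈ T, ‖∑ v ∈ V b, c b v * ρ h (v * b ^ 3)‖ ^ 2
      ≤ B / (N b : ℝ) ^ 2 := by
    intro b hb
    have hN := hNp b hb
    have h4 := h3 K Y T (V b) (c b) hK hY hT (hV b hb).1
    calc ∑ h ∈ T, ‖∑ v ∈ V b, c b v * ρ h (v * b ^ 3)‖ ^ 2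
        ≤ ∑ h ∈ T, ‖∑ v ∈ V b, c b v * ρ h v‖ ^ 2 := by
          refine sum_le_sum fun h hh => ?_
          have e : ∑ v ∈ V b, c b v * ρ h (v * b ^ 3) =
              ρ h (b ^ 3) * ∑ v ∈ V b, c b v * ρ h v := by
            rw [mul_sum]
            refine sum_congr rfl fun v _ => ?_
            rw [hmul h _ _ (hT h hh).1]; ring
          rw [e, norm_mul]
          gcongr
          exact mul_le_of_le_one_left (norm_nonneg _) (hle h _ (hT h hh).1)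
      _ ≤ C3 * (K * Y) ^ (ε / 4) * (K + Y) * (C1 * K ^ (ε / 4) * (C0 * K) / (N b : ℝ) ^ 2) :=
          h4.trans (by gcongr; exact (hV b hb).2)
      _ = _ := by rw [hB]; ring
  have hB0 : 0 ≤ B := by positivity
  calc ∑ h ∈ T, ‖∑ k ∈ s, β k * ρ h (π k)‖ ^ 2
      ≤ ∑ h ∈ T, W * ∑ b ∈ Hn M K, ‖∑ v ∈ V b, c b v * ρ h (v * b ^ 3)‖ ^ 2 / (N b : ℝ)⁻¹ := by
        refine sum_le_sum fun h _ => ?_
        rw [hsum (ρ h)]
        exact norm_sum_sq_le_weight _ _ _ fun p hp => by have := hNp p hp; positivity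
    _ = W * ∑ b ∈ Hn M K, (∑ h ∈ T, ‖∑ v ∈ V b, c b v * ρ h (v * b ^ 3)‖ ^ 2) / (N b : ℝ)⁻¹ := by
        rw [← mul_sum, sum_comm]
        congr 1
        refine sum_congr rfl fun p _ => ?_
        rw [sum_div]
    _ ≤ W * ∑ b ∈ Hn M K, B * (N b : ℝ)⁻¹ := by
        gcongr with p hp
        have hN := hNp p hp
        calc _ ≤ B / (N p : ℝ) ^ 2 / (N p : ℝ)⁻¹ := by gcongr; exact hfiber p hp
          _ = _ := by field_simp
    _ = W ^ 2 * B := by rw [← mul_sum, ← hW]; ring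
    _ ≤ (C2 * K ^ (ε / 4)) ^ 2 * B := by gcongr
    _ = C2 ^ 2 * (C3 * (C1 * C0)) * ((K ^ (ε / 4)) ^ 3 * (K * Y) ^ (ε / 4)) * (K + Y) * K := by
        rw [hB]; ring
    _ ≤ C2 ^ 2 * (C3 * (C1 * C0)) * (K * Y) ^ ε * (K + Y) * K := by
        have h6 : K ^ (ε / 4) ≤ (K * Y) ^ (ε / 4) :=
          Real.rpow_le_rpow (by linarith) (le_mul_of_one_le_right (by linarith) hY) hδ.le
        have h7 : ((K * Y) ^ (ε / 4)) ^ 3 * (K * Y) ^ (ε / 4) = (K * Y) ^ ε := by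
          rw [← pow_succ, ← Real.rpow_natCast, ← Real.rpow_mul (by positivity)]
          congr 1; push_cast; ring
        rw [← h7]
        gcongr
    _ ≤ _ := by gcongr; linarith

end Vale.Agent.P016Z.Vor
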