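import Vale.Agent.P016Z.Vor.MainT
import Vale.Agent.P016Z.Vor.Shape
import Vale.Agent.P016Z.Vor.Fib
import Vale.Agent.P016Z.Vor.Bal

/-!
P016, block VOR: the large sieve and the convergence for theta coefficients.
-/

namespace Vale.Agent.P016Z.Vor

open NumberField Vale.Agent.P016Z.TH

set_option linter.unusedSectionVars false

variable {K : Type} [Field K] [NumberField K] [Dat K]

namespace ShAux

theorem rho_mul (A : SymA K) {h : M K} (hh : h ≠ 0) (x y : M K) :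
    A.rhoM h (x * y) = A.rhoM h x * A.rhoM h y := by
  obtain ⟨h, rfl⟩ := mkM_surj h
  obtain ⟨x, rfl⟩ := mkM_surj x
  obtain ⟨y, rfl⟩ := mkM_surj y
  have h0 := mkM_ne_zero.1 hh
  rw [← map_mul, A.rhoM_mkM h0, A.rhoM_mkM h0, A.rhoM_mkM h0, A.x6_mul _ _ _ h0, mul_pow]

theorem rho_le (A : SymA K) {h : M K} (hh : h ≠ 0) (x : M K) : ‖A.rhoM h x‖ ≤ 1 := by
  obtain ⟨h, rfl⟩ := mkM_surj h
  obtain ⟨x, rfl⟩ := mkM_surj x
  have h0 := mkM_ne_zero.1 hh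
  rw [A.rhoM_mkM h0, norm_pow]
  exact pow_le_one₀ (norm_nonneg _) (A.norm_x6_le h0 x)

variable {G : Subgroup Kˣ} {j : ℕ}

/-- the integer attached to an index -/
noncomputable def yI (x : Ix G (TH.lv K j)) : 𝓞 K := ⟨TH.lv K j * rp x, rp_int x⟩

theorem coe_yI (x : Ix G (TH.lv K j)) : (yI x : K) = TH.lv K j * rp x := rfl

theorem yI_ne (x : Ix G (TH.lv K j)) : yI x ≠ 0 := fun h =>
  mul_ne_zero (lv_ne j) (rp_ne x) (by rw [← coe_yI, h]; rfl)

theorem rR_ne (x : Ix G (TH.lv K j)) : rR x ≠ 0 := fun h => rp_ne x (by rw [← coe_rR, h]; rfl)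

theorem assoc_yI (x : Ix G (TH.lv K j)) : Associated (toR (yI x)) (rR x) := by
  have e : toR (yI x) = (Q K : R K) ^ (j + 1) * rR x := Subtype.ext (by
    rw [coe_toR, coe_yI]
    push_cast
    rfl)
  rw [e]
  exact associated_unit_mul_left _ _ (isUnit_Q.pow _)

theorem nn_eq (x : Ix G (TH.lv K j)) : nn x = (Nr (rR x) : ℝ) * Ns (toSi (yI x)) := by
  have h := nm_eq_mul (yI_ne x)
  rw [show Nr (toR (yI x)) = Nr (rR x) from Nq_congr (assoc_yI x)] at h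
  exact h

theorem Nr_le_nn (x : Ix G (TH.lv K j)) : (Nr (rR x) : ℝ) ≤ nn x := by
  have h1 := one_le_nn (lv_ne (K := K) j) x
  rw [nn_eq] at h1 ⊢
  have h2 : Ns (toSi (yI x)) ≠ 0 := fun h => by
    rw [h] at h1
    norm_num at h1
  have h3 : (1 : ℝ) ≤ Ns (toSi (yI x)) := by exact_mod_cast Nat.pos_of_ne_zero h2
  exact le_mul_of_one_le_right (Nat.cast_nonneg _) h3

theorem fib (k : ℕ) (δ : ℝ) (hδ : 0 < δ) : ∃ C : ℝ, ∀ (m : M K)
    (F : Finset (Ix (G0 K k) (TH.lv K j))), (∀ x ∈ F, mkM (rR x) = m) →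
      ∑ x ∈ F, (nn x / Ab.N m) ^ (-δ) ≤ C := by
  classical
  obtain ⟨C, hC⟩ := fibStmt K k δ hδ
  refine ⟨C, fun m F hF => ?_⟩
  have key : ∀ x y : Ix (G0 K k) (TH.lv K j), ∀ u ∈ G0 K k,
      (yI x : K) = (u : K) * (yI y : K) → x = y := by
    intro x y u hu h
    refine eq_of_rp hu (mul_left_cancel₀ (lv_ne (K := K) j) ?_)
    rw [coe_yI, coe_yI] at h
    rw [h]
    ring
  have hinj : Function.Injective (yI : Ix (G0 K k) (TH.lv K j) → 𝓞 K) := fun x y h =>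
    key x y 1 (one_mem _) (by rw [h]; simp)
  have h1 := hC (rep m) (F.image yI) (fun y hy => ?_) (fun y hy y' hy' u hu h => ?_)
  · rw [Finset.sum_image fun x _ y _ h => hinj h] at h1
    refine le_trans (le_of_eq (Finset.sum_congr rfl fun x hx => ?_)) h1
    have h2 : (0 : ℝ) < Nr (rR x) := by exact_mod_cast Nr_pos (rR_ne x)
    rw [← hF x hx, N_mkM, nn_eq, mul_div_cancel_left₀ _ h2.ne']
  · obtain ⟨x, hx, rfl⟩ := Finset.mem_image.1 hy
    refine ⟨yI_ne x, (assoc_yI x).trans ?_⟩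
    rw [← hF x hx]
    exact associated_rep _
  · obtain ⟨x, -, rfl⟩ := Finset.mem_image.1 hy
    obtain ⟨x', -, rfl⟩ := Finset.mem_image.1 hy'
    rw [key x x' u hu h]

theorem exists_near (j : ℕ) : ∃ C : ℝ, 0 ≤ C ∧ ∀ β : R K, β ≠ 0 →
    ∃ l ∈ P K j, (β : K) / (l : K) ∈ R K ∧ (Nr β : ℝ) ≤ C * nm (l : K) := by
  classical
  obtain ⟨F, hF, h⟩ := exists_fine (K := K) j
  set g : Kˣ → ℝ := fun f => if h : (f : K) ∈ R K then (Nr (⟨f, h⟩ : R K) : ℝ) else 0 with hg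
  have g0 : ∀ f, 0 ≤ g f := fun f => by
    simp only [hg]
    split_ifs <;> positivity
  refine ⟨∑ f ∈ F, g f, Finset.sum_nonneg fun f _ => g0 f, fun β hβ => ?_⟩
  obtain ⟨η, hη, f, hf, l, hl, e⟩ := h (Units.mk0 (β : K) (coe_ne_zero hβ))
  have e1 : (β : K) = (η : K) ^ 6 * f * l := by
    have := congrArg (fun t : Kˣ => (t : K)) e
    simpa using this
  have hfR := hF f hf
  refine ⟨l, hl, ?_, ?_⟩
  · rw [e1, mul_div_cancel_right₀ _ l.ne_zero]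
    exact mul_mem (pow_mem hη.1 6) hfR
  · have h1 : (f : K) * l ∈ R K := by
      have : (f : K) * l = ((η : K)⁻¹) ^ 6 * β := by
        rw [e1]
        have := η.ne_zero
        field_simp
      rw [this]
      exact mul_mem (pow_mem hη.2 6) β.2
    have h2 : Associated (⟨(f : K) * l, h1⟩ : R K) β :=
      associated_iff_Ru.2 ⟨η ^ 6, pow_mem hη 6, by
        rw [e1]
        push_cast
        ring⟩
    have hf0 : (⟨f, hfR⟩ : R K) ≠ 0 := fun h0 => f.ne_zero (congrArg Subtype.val h0)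
    have h3 : Fine j ((⟨f, hfR⟩ : R K) : K) ((⟨(f : K) * l, h1⟩ : R K) : K) := by
      change V _ ((f : K) * l / f - 1)
      rw [mul_div_cancel_left₀ _ f.ne_zero]
      exact mem_P_iff.1 hl
    have h4 := h3.nm_eq hf0
    rw [show Nr (⟨(f : K) * l, h1⟩ : R K) = Nr β from Nq_congr h2] at h4
    change nm ((f : K) * l) = nm (f : K) / _ * _ at h4
    have h5 : (0 : ℝ) < Nr (⟨f, hfR⟩ : R K) := by exact_mod_cast Nr_pos hf0
    have h6 := nm_pos' f.ne_zero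
    have h7 : (Nr β : ℝ) = Nr (⟨f, hfR⟩ : R K) * nm (l : K) := by
      rw [nm_mul'] at h4
      field_simp at h4
      linarith
    have h8 : (Nr (⟨f, hfR⟩ : R K) : ℝ) ≤ ∑ f ∈ F, g f := by
      refine le_trans (le_of_eq ?_) (Finset.single_le_sum (fun f _ => g0 f) hf)
      simp only [hg, dif_pos hfR]
    rw [h7]
    exact mul_le_mul_of_nonneg_right h8 (nm_pos' l.ne_zero).le

/-- the Rankin–Selberg bound modulo units -/
theorem rs_mod {τ : K → ℂ} {k : ℕ} (E : Ex τ j) (hjk : j ≤ k) : ∃ C : ℝ, 0 ≤ C ∧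
    ∀ {ι : Type} (F : Finset ι) (ν : ι → K) (Λ : ℝ), 0 ≤ Λ →
      (∀ x ∈ F, ν x ≠ 0 ∧ τ (ν x) ≠ 0 ∧ nm (ν x) ≤ Λ) →
      (∀ x ∈ F, ∀ y ∈ F, ∀ u ∈ G0 K k, ν x = u * ν y → x = y) →
      ∑ x ∈ F, ‖τ (ν x)‖ ^ 2 * nm (ν x) ^ (1 / 3 : ℝ) ≤ C * Λ := by
  classical
  obtain ⟨C, hC⟩ := E.rs
  obtain ⟨B, hB⟩ := balStmt K k
  have hD := nm_pos' (lv_ne (K := K) j)
  refine ⟨max C 0 * (nm (TH.lv K j) + max B 0), by positivity, fun {ι} F ν Λ hΛ h1 h2 => ?_⟩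
  rcases F.eq_empty_or_nonempty with rfl | ⟨x0, hx0⟩
  · rw [Finset.sum_empty]
    positivity
  have h3 : 1 ≤ nm (TH.lv K j) * Λ := by
    obtain ⟨a1, a2, a3⟩ := h1 x0 hx0
    have := one_le_nm_of (mul_ne_zero (lv_ne j) a1) (E.supp _ a2)
    rw [nm_mul'] at this
    exact this.trans (mul_le_mul_of_nonneg_left a3 hD.le)
  have hu : ∀ x : ι, ∃ u ∈ G0 K k, x ∈ F → ∀ i,
      ab ((u : K) * ν x) i ^ Fintype.card (io K) ≤ B * nm (ν x) := fun x => by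
    by_cases hx : x ∈ F
    · obtain ⟨u, a1, a2⟩ := hB _ (h1 x hx).1
      exact ⟨u, a1, fun _ => a2⟩
    · exact ⟨1, one_mem _, fun h => (hx h).elim⟩
  choose u hu1 hu2 using hu
  set r := Fintype.card (io K) with hr
  have hr0 : r ≠ 0 := Fintype.card_ne_zero
  set Y : ℝ := (nm (TH.lv K j) + max B 0) * Λ with hY
  have hB0 : 0 ≤ max B 0 * Λ := mul_nonneg (le_max_right _ _) hΛ
  have hY1 : 1 ≤ Y := by rw [hY, add_mul]; linarith
  set X : ℝ := Y ^ ((r : ℝ)⁻¹) with hX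
  have hXr : X ^ r = Y := Real.rpow_inv_natCast_pow (by linarith) hr0
  have hX1 : 1 ≤ X := Real.one_le_rpow hY1 (by positivity)
  have hinj : ∀ x ∈ F, ∀ y ∈ F, (u x : K) * ν x = (u y : K) * ν y → x = y := by
    intro x hx y hy h
    refine h2 x hx y hy ((u x)⁻¹ * u y) (mul_mem (inv_mem (hu1 x)) (hu1 y)) ?_
    rw [Units.val_mul, mul_assoc, ← h, Units.inv_mul_cancel_left]
  have h4 := hC X hX1 (F.image fun x => (u x : K) * ν x) (fun μ hμ => ?_)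
  · rw [Finset.sum_image hinj, hXr] at h4
    calc _ = _ := Finset.sum_congr rfl fun x _ => by
          rw [E.inv hjk _ (hu1 x), nm_mul', nm_G0 (hu1 x), one_mul]
      _ ≤ C * Y := h4
      _ ≤ max C 0 * Y := mul_le_mul_of_nonneg_right (le_max_left _ _) (by linarith)
      _ = _ := by rw [hY]; ring
  · obtain ⟨x, hx, rfl⟩ := Finset.mem_image.1 hμ
    obtain ⟨a1, -, a3⟩ := h1 x hx
    refine ⟨mul_ne_zero (Units.ne_zero _) a1, fun i => ?_⟩
    refine le_of_pow_le_pow_left₀ hr0 (by linarith) ?_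
    rw [hXr, hY, add_mul]
    have a4 := (nm_pos' a1).le
    calc _ ≤ B * nm (ν x) := hu2 x hx i
      _ ≤ max B 0 * Λ := mul_le_mul (le_max_left _ _) a3 a4 (le_max_right _ _)
      _ ≤ _ := by linarith

theorem avg_bd {τ : K → ℂ} {k : ℕ} (E : Ex τ j) (hjk : j ≤ k) : ∃ C : ℝ,
    ∀ (β : R K) (L : ℝ) (F : Finset (Ix (G0 K k) (TH.lv K j))), β ≠ 0 → 1 ≤ L →
      (∀ x ∈ F, τ (rp x) ≠ 0 ∧ β ^ 3 ∣ rR x ∧ nn x ≤ L) →
      (∑ x ∈ F, ‖cf τ (rp x)‖ ^ 2) * (Nr β : ℝ) ^ 2 ≤ C * L := by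
  obtain ⟨C, hC0, hC⟩ := rs_mod E hjk
  obtain ⟨B, hB0, hB⟩ := exists_near (K := K) j
  have hD := nm_pos' (lv_ne (K := K) j)
  refine ⟨C * B ^ 2 / nm (TH.lv K j), fun β L F hβ hL hF => ?_⟩
  obtain ⟨l, hl, h1, h2⟩ := hB β hβ
  have hl0 := l.ne_zero
  have hn := nm_pos' hl0
  have e0 : ∀ x : Ix (G0 K k) (TH.lv K j), (l : K) ^ 3 * (rp x / (l : K) ^ 3) = rp x := fun x => by
    field_simp
  have e1 : ∀ x ∈ F, τ (rp x / (l : K) ^ 3) = τ (rp x) := by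
    intro x hx
    obtain ⟨-, ⟨t, ht⟩, -⟩ := hF x hx
    have a1 : rp x / (l : K) ^ 3 ∈ R K := by
      have : rp x / (l : K) ^ 3 = ((β : K) / l) ^ 3 * t := by
        rw [← coe_rR, ht]
        push_cast
        ring
      rw [this]
      exact mul_mem (pow_mem h1 3) t.2
    have a2 := E.cube l hl _ a1 (by rw [e0]; exact (rR x).2)
    rw [e0] at a2
    exact a2.symm
  have e2 : ∀ x : Ix (G0 K k) (TH.lv K j),
      nm (rp x) = nm (l : K) ^ 3 * nm (rp x / (l : K) ^ 3) := fun x => by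
    conv_lhs => rw [← e0 x]
    rw [nm_mul', show (l : K) ^ 3 = l * l * l by ring, nm_mul', nm_mul']
    ring
  have h3 := hC F (fun x => rp x / (l : K) ^ 3) (L / (nm (TH.lv K j) * nm (l : K) ^ 3))
    (by positivity) (fun x hx => ⟨div_ne_zero (rp_ne x) (pow_ne_zero _ hl0), ?_, ?_⟩)
    (fun x _ y _ u hu h => eq_of_rp hu ?_)
  · have h4 : ∑ x ∈ F, ‖cf τ (rp x)‖ ^ 2 = nm (l : K) * ∑ x ∈ F,
        ‖τ (rp x / (l : K) ^ 3)‖ ^ 2 * nm (rp x / (l : K) ^ 3) ^ (1 / 3 : ℝ) := by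
      rw [Finset.mul_sum]
      refine Finset.sum_congr rfl fun x hx => ?_
      have a1 : (nm (l : K) ^ 3) ^ (1 / 3 : ℝ) = nm (l : K) := by
        rw [← Real.rpow_natCast, ← Real.rpow_mul hn.le]
        norm_num
      rw [norm_cf_sq, e1 x hx, e2 x, Real.mul_rpow (by positivity) ((cmK K).nm_nonneg _), a1]
      ring
    rw [h4]
    calc _ ≤ (nm (l : K) * (C * (L / (nm (TH.lv K j) * nm (l : K) ^ 3)))) * (B * nm (l : K)) ^ 2 := by
          gcongr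
      _ = _ := by field_simp
  · rw [e1 x hx]
    exact (hF x hx).1
  · have a1 := (hF x hx).2.2
    rw [nn, nm_mul', e2 x] at a1
    rw [le_div_iff₀ (by positivity)]
    linarith
  · rw [← e0 x, h]
    field_simp

end ShAux

open ShAux in
theorem shStmt (A : SymA K) : ShStmt A := by
  intro hQ τ j k E hjk
  have hs : ∀ x : Ix (G0 K k) (TH.lv K j), ∃ n b : R K, ‖cf τ (rp x)‖ ≠ 0 →
      Squarefree n ∧ b ≠ 0 ∧ rR x = n * b ^ 3 := fun x => by
    by_cases h : τ (rp x) = 0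
    · exact ⟨1, 1, fun h1 => (h1 (by rw [cf, h, zero_mul, norm_zero])).elim⟩
    · obtain ⟨n, b, h1⟩ := E.shape (rR_ne x) h
      exact ⟨n, b, fun _ => h1⟩
  choose n b hnb using hs
  refine shapeStmt (M K) A.rhoM (Ix (G0 K k) (TH.lv K j)) (fun x => mkM (rR x))
    (fun x => mkM (n x)) (fun x => mkM (b x)) nn (fun x => ‖cf τ (rp x)‖) hQ
    (fun h x y hh => rho_mul A hh.ne_zero x y) (fun h x hh => rho_le A hh.ne_zero x)
    (fun x => ⟨mkM_ne_zero.2 (rR_ne x), by rw [N_mkM]; exact Nr_le_nn x, norm_nonneg _⟩)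
    (fib k) (fun x hx => ?_) ?_
  · obtain ⟨h1, -, h3⟩ := hnb x hx
    exact ⟨squarefree_mkM.2 h1, by rw [h3, map_mul, map_pow]⟩
  · obtain ⟨C, hC⟩ := avg_bd E hjk
    refine ⟨max C 0, fun m L F hL hF => ?_⟩
    rcases F.eq_empty_or_nonempty with rfl | ⟨x0, hx0⟩
    · rw [Finset.sum_empty, zero_mul]
      exact mul_nonneg (le_max_right _ _) (by linarith)
    have hm : m ≠ 0 := by
      obtain ⟨a1, a2, -⟩ := hF x0 hx0
      rw [← a2]
      exact mkM_ne_zero.2 (hnb x0 a1).2.1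
    refine (hC (rep m) L F (rep_ne_zero.2 hm) hL fun x hx => ?_).trans
      (mul_le_mul_of_nonneg_right (le_max_left _ _) (by linarith))
    obtain ⟨a1, a2, a3⟩ := hF x hx
    refine ⟨left_ne_zero_of_mul (norm_ne_zero_iff.1 a1), ?_, a3⟩
    rw [(hnb x a1).2.2, ← a2]
    exact Dvd.dvd.mul_left (pow_dvd_pow_of_dvd (associated_rep (b x)).symm.dvd 3) _

end Vale.Agent.P016Z.Vor
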