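import Vale.Agent.P016Z.Vor.M3
import Vale.Agent.P016Z.Vor.Sh
import Vale.Agent.P016Z.Vor.Left
import Vale.Agent.P016Z.Vor.Four

/-!
P016, block VOR: the mean square over squarefree twists.
-/

namespace Vale.Agent.P016Z.Vor

open NumberField

variable {K : Type} [Field K] [NumberField K] [Dat K] [Ab.Rad (M K)]

theorem thmT (A : SymA K) (hV : SymV A.sy fun x n => A.x6 n x) (hT : TH.THETA A.sy)
    (hQ : Ab.QLSmod A.rhoM) : Ab.ThmT Ray A.tauM A.chiM :=
  thmT_of A hV hT hQ (shStmt A) (mainStmt A) (left1 K) (left2 K) (sExp K) (rExp K)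

end Vale.Agent.P016Z.Vor
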