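import Vale.Agent.P016Z.Vor.Abs
import Vale.Agent.P026Z.Vor.ThmT

/-!
P016, block VOR: the mean square of the dual sums, over an abstract index set.
-/

namespace Vale.Agent.P016Z.Vor

open MeasureTheory Filter Topology Set Complex
open Vale.Agent.P006.KER (Nice)
open Vale.Agent.P026Z.Vor
open scoped Real ContDiff

variable {κ η : Type}

/-- the dyadic level -/
noncomputable def lv (x : ℝ) : ℕ := Nat.log 2 ⌊x⌋₊

theorem lv_bounds {x : ℝ} (hx : 1 ≤ x) : (2 : ℝ) ^ lv x ≤ x ∧ x ≤ 2 * 2 ^ lv x := by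
  have h0 : ⌊x⌋₊ ≠ 0 := by
    have := Nat.floor_pos.2 hx
    omega
  constructor
  · have h1 : 2 ^ lv x ≤ ⌊x⌋₊ := Nat.pow_log_le_self 2 h0
    calc (2 : ℝ) ^ lv x = ((2 ^ lv x : ℕ) : ℝ) := by push_cast; rfl
      _ ≤ ⌊x⌋₊ := by exact_mod_cast h1
      _ ≤ x := Nat.floor_le (by linarith)
  · have h1 : ⌊x⌋₊ + 1 ≤ 2 ^ (lv x + 1) := Nat.lt_pow_succ_log_self (by norm_num) _
    calc x ≤ ((⌊x⌋₊ + 1 : ℕ) : ℝ) := by push_cast; exact (Nat.lt_floor_add_one x).le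
      _ ≤ ((2 ^ (lv x + 1) : ℕ) : ℝ) := by exact_mod_cast h1
      _ = _ := by push_cast; ring

/-- Minkowski's inequality for the decomposition of a series into levels -/
theorem l2_tsum (l : κ → ℕ) (S : Finset η) (u : η → κ → ℂ) (T : η → ℂ)
    (hT : ∀ h ∈ S, HasSum (u h) (T h)) (D : ℕ → ℝ) (hD : ∀ j, 0 < D j)
    {E : ℝ} (hE : ∀ s : Finset ℕ, ∑ j ∈ s, D j ≤ E)
    (hb : ∀ (j : ℕ) (s : Finset κ), (∀ k ∈ s, l k = j) →
      ∑ h ∈ S, ‖∑ k ∈ s, u h k‖ ^ 2 ≤ D j ^ 2) : ∑ h ∈ S, ‖T h‖ ^ 2 ≤ E ^ 2 := by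
  classical
  have hfin : ∀ s : Finset κ, ∑ h ∈ S, ‖∑ k ∈ s, u h k‖ ^ 2 ≤ E ^ 2 := by
    intro s
    set J := s.image l with hJ
    have hP : 0 ≤ ∑ j ∈ J, D j := Finset.sum_nonneg fun j _ => (hD j).le
    calc ∑ h ∈ S, ‖∑ k ∈ s, u h k‖ ^ 2
        ≤ ∑ h ∈ S, (∑ j ∈ J, D j) * ∑ j ∈ J, ‖∑ k ∈ s with l k = j, u h k‖ ^ 2 / D j := by
          refine Finset.sum_le_sum fun h _ => ?_
          rw [← Finset.sum_fiberwise_of_maps_to (s := s) (t := J) (g := l)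
            (fun k hk => Finset.mem_image_of_mem _ hk)]
          exact norm_sum_sq_le_weight _ _ _ fun j _ => hD j
      _ = (∑ j ∈ J, D j) * ∑ j ∈ J, (∑ h ∈ S, ‖∑ k ∈ s with l k = j, u h k‖ ^ 2) / D j := by
          rw [← Finset.mul_sum, Finset.sum_comm]
          simp only [Finset.sum_div]
      _ ≤ (∑ j ∈ J, D j) * ∑ j ∈ J, D j := by
          refine mul_le_mul_of_nonneg_left (Finset.sum_le_sum fun j _ => ?_) hP
          rw [div_le_iff₀ (hD j), ← sq]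
          exact hb j _ fun k hk => (Finset.mem_filter.1 hk).2
      _ ≤ E ^ 2 := by
          rw [← sq]
          exact pow_le_pow_left₀ hP (hE J) 2
  have ht : Tendsto (fun s : Finset κ => ∑ h ∈ S, ‖∑ k ∈ s, u h k‖ ^ 2) atTop
      (𝓝 (∑ h ∈ S, ‖T h‖ ^ 2)) := by
    refine tendsto_finsetSum _ fun h hh => ?_
    have h1 : Tendsto (fun t : Finset κ => ∑ k ∈ t, u h k) atTop (𝓝 (T h)) := hT h hh
    exact h1.norm.pow 2
  exact le_of_tendsto' ht hfin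

section
variable {W : ℝ → ℂ} {a b : ℝ}

/-- the measure on the line `Re s = σ` -/
noncomputable def muR (r : ℕ) (W : ℝ → ℂ) (σ t0 t : ℝ) : ℂ :=
  ((1 / (2 * π) : ℝ) : ℂ) * (mellin W (σ + ((t + t0 : ℝ) : ℂ) * I) * Gr (σ + t * I) ^ r)

theorem Wh_Wsc (r : ℕ) (W : ℝ → ℂ) (σ t0 : ℝ) {x : ℝ} (hx : 0 < x) (y : ℝ) :
    Wh r σ (Wsc W t0 x) y = ∫ t : ℝ, muR r W σ t0 t *
      ((x : ℂ) ^ ((σ : ℂ) + t * I) * (y : ℂ) ^ (-(1 - ((σ : ℂ) + t * I)))) := by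
  rw [Wh, ← integral_const_mul]
  refine integral_congr_ae (ae_of_all _ fun t => ?_)
  simp only [muR]
  rw [mellin_Wsc W t0 hx, show (σ : ℂ) + t * I + t0 * I = σ + ((t + t0 : ℝ) : ℂ) * I by
    push_cast; ring]
  ring

theorem muR_bound (r : ℕ) (H : Nice W a b) {σ : ℝ} (hσ : σ < 1)
    (hG : ∀ t : ℝ, ‖Gr (σ + t * I) ^ r‖ ≤ (2 * (1 + |t|)) ^ (4 * r)) : ∃ C : ℝ, 0 < C ∧ ∀ t0 : ℝ,
      Integrable (muR r W σ t0) ∧ ∫ t, ‖muR r W σ t0 t‖ ≤ C * (1 + |t0|) ^ (4 * r) := by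
  obtain ⟨C, hC0, hC⟩ := nice_poly H σ (4 * r)
  refine ⟨2 ^ (4 * r) * C * π + 1, by positivity, fun t0 => ?_⟩
  have hcont : Continuous (muR r W σ t0) := by
    unfold muR
    exact continuous_const.mul (((nice_differentiable H).continuous.comp (by fun_prop)).mul
      ((continuous_Gr_line hσ).pow r))
  have hI : Integrable fun t : ℝ => (1 + (t + t0) ^ 2)⁻¹ :=
    integrable_inv_one_add_sq.comp_add_right t0
  have hle : ∀ t, ‖muR r W σ t0 t‖ ≤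
      2 ^ (4 * r) * C * (1 + |t0|) ^ (4 * r) * (1 + (t + t0) ^ 2)⁻¹ := by
    intro t
    have h1 := hC t0 t
    have h2 : ‖((1 / (2 * π) : ℝ) : ℂ)‖ ≤ 1 := by
      rw [norm_real, Real.norm_of_nonneg (by positivity), div_le_one (by positivity)]
      linarith [Real.pi_gt_three]
    rw [muR, norm_mul, norm_mul]
    calc _ ≤ 1 * (‖mellin W (σ + ((t + t0 : ℝ) : ℂ) * I)‖ * (2 * (1 + |t|)) ^ (4 * r)) := by
          gcongr
          exact hG t
      _ = 2 ^ (4 * r) * (‖mellin W (σ + ((t + t0 : ℝ) : ℂ) * I)‖ * (1 + |t|) ^ (4 * r)) := by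
          rw [mul_pow]; ring
      _ ≤ 2 ^ (4 * r) * (C * (1 + |t0|) ^ (4 * r) * (1 + (t + t0) ^ 2)⁻¹) := by gcongr
      _ = _ := by ring
  have hint : Integrable (muR r W σ t0) :=
    (hI.const_mul _).mono' hcont.aestronglyMeasurable (ae_of_all _ hle)
  refine ⟨hint, (integral_mono hint.norm (hI.const_mul _) hle).trans ?_⟩
  rw [integral_const_mul, integral_add_right_eq_self (fun t : ℝ => (1 + t ^ 2)⁻¹) t0,
    integral_univ_inv_one_add_sq]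
  have : 0 ≤ (1 + |t0|) ^ (4 * r) := by positivity
  nlinarith

end

/-- the large sieve inequality for coefficients dominated by `cT` -/
def LSh (S : Finset η) (ρ : η → κ → ℂ) (nn cT : κ → ℝ) (C ε Y : ℝ) : Prop :=
  ∀ (K : ℝ) (s : Finset κ) (β : κ → ℂ), 1 ≤ K → (∀ k ∈ s, nn k ≤ K ∧ ‖β k‖ ≤ cT k) →
    ∑ h ∈ S, ‖∑ k ∈ s, β k * ρ h k‖ ^ 2 ≤ C * (K * Y) ^ ε * (K + Y) * K

theorem block_bound {r : ℕ} {S : Finset η} {ρ : η → κ → ℂ} {nn cT : κ → ℝ} {C ε Y : ℝ} (hC : 0 < C)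
    (hL : LSh S ρ nn cT C ε Y) {W : ℝ → ℂ} {σ t0 A : ℝ} (hσ : σ ≤ 1 / 2)
    (hμ : Integrable (muR r W σ t0)) (hA : ∫ t, ‖muR r W σ t0 t‖ ≤ A)
    {X q0 L : ℝ} (hX : 0 < X) (hY : 1 ≤ Y) (hq0 : 0 < q0) (hL1 : 1 ≤ L) (q : η → ℝ)
    (hS : ∀ h ∈ S, q0 ≤ q h) (β : κ → ℂ) (hβ : ∀ k, ‖β k‖ ≤ cT k) (s : Finset κ)
    (hs : ∀ k ∈ s, L ≤ nn k ∧ nn k ≤ 2 * L) :
    ∑ h ∈ S, ‖∑ k ∈ s, β k * ρ h k * Wh r σ (Wsc W t0 (X * q h)) (q h * nn k)‖ ^ 2 ≤
      A ^ 2 * ((X ^ σ * q0 ^ (2 * σ - 1) * L ^ (σ - 1)) ^ 2 *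
        (C * (2 * L * Y) ^ ε * (2 * L + Y) * (2 * L))) := by
  have hL0 : 0 < L := by linarith
  set z : η → ℝ → ℂ := fun h t => ((X * q h : ℝ) : ℂ) ^ ((σ : ℂ) + t * I) *
    ((q h * L : ℝ) : ℂ) ^ (-(1 - ((σ : ℂ) + t * I))) with hz
  set β' : ℝ → κ → ℂ := fun t k => β k * ((nn k / L : ℝ) : ℂ) ^ (-(1 - ((σ : ℂ) + t * I))) with hβ'
  set Z : η → ℝ → ℂ := fun h t => z h t * ∑ k ∈ s, β' t k * ρ h k with hZ
  have hqpos : ∀ h ∈ S, 0 < q h := fun h hh => hq0.trans_le (hS h hh)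
  have hNpos : ∀ k ∈ s, (0 : ℝ) < nn k := fun k hk => hL0.trans_le (hs k hk).1
  have hcp : ∀ r : ℝ, 0 < r → Continuous fun t : ℝ => (r : ℂ) ^ ((σ : ℂ) + t * I) := fun r hr =>
    Continuous.const_cpow (by fun_prop) (Or.inl (by exact_mod_cast hr.ne'))
  have hcn : ∀ r : ℝ, 0 < r → Continuous fun t : ℝ => (r : ℂ) ^ (-(1 - ((σ : ℂ) + t * I))) :=
    fun r hr => Continuous.const_cpow (by fun_prop) (Or.inl (by exact_mod_cast hr.ne'))
  have hnp : ∀ r : ℝ, 0 < r → ∀ t : ℝ, ‖(r : ℂ) ^ ((σ : ℂ) + t * I)‖ = r ^ σ := by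
    intro r hr t
    rw [norm_cpow_eq_rpow_re_of_pos hr]; simp
  have hnn : ∀ r : ℝ, 0 < r → ∀ t : ℝ, ‖(r : ℂ) ^ (-(1 - ((σ : ℂ) + t * I)))‖ = r ^ (σ - 1) := by
    intro r hr t
    rw [norm_cpow_eq_rpow_re_of_pos hr]; simp
  have e1 : ∀ h ∈ S, ∑ k ∈ s, β k * ρ h k * Wh r σ (Wsc W t0 (X * q h)) (q h * nn k) =
      ∫ t, muR r W σ t0 t * Z h t := by
    intro h hh
    have hq := hqpos h hh
    have e2 : ∀ k ∈ s, β k * ρ h k * Wh r σ (Wsc W t0 (X * q h)) (q h * nn k) =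
        ∫ t, muR r W σ t0 t * (z h t * (β' t k * ρ h k)) := by
      intro k hk
      have hN := hNpos k hk
      rw [Wh_Wsc r W σ t0 (mul_pos hX hq), ← integral_const_mul]
      refine integral_congr_ae (ae_of_all _ fun t => ?_)
      simp only [hz, hβ']
      rw [show q h * nn k = (q h * L) * (nn k / L) by field_simp, ofReal_mul (q h * L),
        mul_cpow_ofReal_nonneg (by positivity) (by positivity)]
      ring
    rw [Finset.sum_congr rfl e2, ← integral_finsetSum]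
    · refine integral_congr_ae (ae_of_all _ fun t => ?_)
      simp only [hZ, Finset.mul_sum]
    · intro k hk
      have hN := hNpos k hk
      refine hμ.mul_bdd (c := (X * q h) ^ σ * (q h * L) ^ (σ - 1) *
        (‖β k‖ * (nn k / L) ^ (σ - 1) * ‖ρ h k‖)) (Continuous.aestronglyMeasurable ?_)
        (ae_of_all _ fun t => ?_)
      · exact ((hcp _ (by positivity)).mul (hcn _ (by positivity))).mul
          ((continuous_const.mul (hcn _ (by positivity))).mul continuous_const)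
      · simp only [hz, hβ', norm_mul]
        rw [hnp _ (by positivity), hnn _ (by positivity), hnn _ (by positivity)]
  rw [Finset.sum_congr rfl fun h hh => by rw [e1 h hh]]
  have hB0 : 0 ≤ (X ^ σ * q0 ^ (2 * σ - 1) * L ^ (σ - 1)) ^ 2 *
      (C * (2 * L * Y) ^ ε * (2 * L + Y) * (2 * L)) := by positivity
  refine (P006.H6.l2_integral S hμ Z (fun h hh => ?_) hB0 fun t => ?_).trans ?_
  · have hq := hqpos h hh
    refine ((hcp _ (by positivity)).mul (hcn _ (by positivity))).mul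
      (continuous_finsetSum _ fun k hk => ?_)
    have hN := hNpos k hk
    exact (continuous_const.mul (hcn _ (by positivity))).mul continuous_const
  · have h1 := hL (2 * L) s (β' t) (by linarith) (fun k hk => ⟨(hs k hk).2, by
        have hN := hNpos k hk
        simp only [hβ', norm_mul]
        rw [hnn _ (by positivity)]
        have h2 : (nn k / L : ℝ) ^ (σ - 1) ≤ 1 := Real.rpow_le_one_of_one_le_of_nonpos
          (by rw [le_div_iff₀ hL0, one_mul]; exact (hs k hk).1) (by linarith)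
        exact (mul_le_of_le_one_right (norm_nonneg _) h2).trans (hβ k)⟩)
    refine le_trans ?_ (mul_le_mul_of_nonneg_left h1 (by positivity))
    rw [Finset.mul_sum]
    refine Finset.sum_le_sum fun h hh => ?_
    have hq := hqpos h hh
    simp only [hZ]
    rw [norm_mul, mul_pow]
    refine mul_le_mul_of_nonneg_right (pow_le_pow_left₀ (norm_nonneg _) ?_ 2) (by positivity)
    simp only [hz]
    rw [norm_mul, hnp _ (by positivity), hnn _ (by positivity), Real.mul_rpow hX.le hq.le,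
      Real.mul_rpow hq.le hL0.le]
    have h3 : q h ^ σ * q h ^ (σ - 1) ≤ q0 ^ (2 * σ - 1) := by
      rw [← Real.rpow_add hq, show σ + (σ - 1) = 2 * σ - 1 by ring]
      exact Real.rpow_le_rpow_of_nonpos hq0 (hS h hh) (by linarith)
    calc X ^ σ * q h ^ σ * (q h ^ (σ - 1) * L ^ (σ - 1))
        = X ^ σ * (q h ^ σ * q h ^ (σ - 1)) * L ^ (σ - 1) := by ring
      _ ≤ _ := by gcongr
  · refine mul_le_mul_of_nonneg_right (pow_le_pow_left₀ ?_ hA 2) hB0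
    exact integral_nonneg fun t => norm_nonneg _

/-- **the mean square of the dual sums** -/
theorem dual_ms (r : ℕ) {ε : ℝ} (hε : 0 < ε) (hε1 : ε ≤ 1 / 2) {W : ℝ → ℂ} {a b : ℝ}
    (H : Nice W a b) : ∃ C' : ℝ, 0 ≤ C' ∧ ∀ (κ η : Type) (S : Finset η) (ρ : η → κ → ℂ)
      (nn cT : κ → ℝ) (C t0 X Y q0 : ℝ) (q : η → ℝ) (β : κ → ℂ) (T : η → ℂ), 0 < C →
      LSh S ρ nn cT C ε Y → (∀ k, 1 ≤ nn k) → 0 < X → 1 ≤ Y → 0 < q0 → (∀ h ∈ S, q0 ≤ q h) →
      (∀ k, ‖β k‖ ≤ cT k) → (∀ h ∈ S, HasSum (fun k =>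
        β k * ρ h k * Wh r (-1 / 2) (Wsc W t0 (X * q h)) (q h * nn k)) (T h)) →
      ∑ h ∈ S, ‖T h‖ ^ 2 ≤ C' * C * (1 + |t0|) ^ (8 * r) *
        (X * (Y ^ ε * ((X * q0 ^ 2)⁻¹) ^ (2 * ε) * (Y + (X * q0 ^ 2)⁻¹))) := by
  obtain ⟨C1, hC1, h1⟩ := muR_bound r H (σ := 1 / 2) (by norm_num) (fun t =>
    (norm_Gr_pos_pow r t).trans (one_le_pow₀ (by linarith [abs_nonneg t])))
  obtain ⟨C2, hC2, h2⟩ := muR_bound r H (σ := -1 / 2) (by norm_num) (norm_Gr_neg_pow r)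
  set w : ℝ := (2 : ℝ) ^ (-(ε / 2)) with hw
  have hw0 : 0 < w := by positivity
  have hw1 : w < 1 := Real.rpow_lt_one_of_one_lt_of_neg (by norm_num) (by linarith)
  refine ⟨8 * (C1 + C2) ^ 2 * ((1 - w)⁻¹) ^ 2, by positivity, ?_⟩
  intro κ η S ρ nn cT C t0 X Y q0 q β T hC hL hn hX hY hq0 hS hβ hT
  set Z : ℝ := (X * q0 ^ 2)⁻¹ with hZ
  have hZ0 : 0 < Z := by positivity
  set A : ℝ := (C1 + C2) * (1 + |t0|) ^ (4 * r) with hA
  have hT4 : 0 < (1 + |t0|) ^ (4 * r) := by positivity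
  have hA0 : 0 < A := by positivity
  set Q : ℝ := 8 * C * A ^ 2 * (X * (Y ^ ε * Z ^ (2 * ε) * (Y + Z))) with hQ
  have hY0 : 0 < Y := by linarith
  have hQ0 : 0 < Q := by positivity
  have key := l2_tsum (fun k => lv (nn k)) S
    (fun h k => β k * ρ h k * Wh r (-1 / 2) (Wsc W t0 (X * q h)) (q h * nn k)) T
    hT (fun j => √Q * w ^ j) (fun j => by positivity)
    (E := √Q * (1 - w)⁻¹) (fun J => ?_) (fun j s hs => ?_)
  · refine key.trans (le_of_eq ?_)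
    rw [mul_pow, Real.sq_sqrt hQ0.le, hQ, hA, show 8 * r = 4 * r * 2 by ring, pow_mul _ (4 * r) 2]
    ring
  · rw [← Finset.mul_sum]
    refine mul_le_mul_of_nonneg_left ?_ (Real.sqrt_nonneg _)
    rw [← tsum_geometric_of_lt_one hw0.le hw1]
    exact (summable_geometric_of_lt_one hw0.le hw1).sum_le_tsum _ fun j _ => by positivity
  · set L : ℝ := 2 ^ j with hLdef
    have hL1 : 1 ≤ L := one_le_pow₀ (by norm_num)
    have hL0 : 0 < L := by linarith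
    have hs' : ∀ k ∈ s, L ≤ nn k ∧ nn k ≤ 2 * L := fun k hk => by
      rw [hLdef, ← hs k hk]
      exact lv_bounds (hn k)
    have b1 := block_bound hC hL (σ := 1 / 2) (A := A) le_rfl (h1 t0).1
      ((h1 t0).2.trans (by rw [hA]; gcongr; linarith)) hX hY hq0 hL1 q hS β hβ s hs'
    have b2 := block_bound hC hL (σ := -1 / 2) (A := A) (by norm_num) (h2 t0).1
      ((h2 t0).2.trans (by rw [hA]; gcongr; linarith)) hX hY hq0 hL1 q hS β hβ s hs'
    have e1 : ∀ h ∈ S, ∑ k ∈ s, β k * ρ h k * Wh r (1 / 2) (Wsc W t0 (X * q h)) (q h * nn k) =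
        ∑ k ∈ s, β k * ρ h k * Wh r (-1 / 2) (Wsc W t0 (X * q h)) (q h * nn k) := by
      intro h hh
      have hq : 0 < q h := hq0.trans_le (hS h hh)
      refine Finset.sum_congr rfl fun k hk => ?_
      have hN : (0 : ℝ) < nn k := hL0.trans_le (hs' k hk).1
      rw [Wh_shift r (nice_Wsc H t0 (mul_pos hX hq)) (mul_pos hq hN)]
    rw [Finset.sum_congr rfl fun h hh => by rw [e1 h hh]] at b1
    have f1 : (X ^ (1 / 2 : ℝ) * q0 ^ (2 * (1 / 2 : ℝ) - 1) * L ^ ((1 / 2 : ℝ) - 1)) ^ 2 =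
        X / L := by
      rw [show 2 * (1 / 2 : ℝ) - 1 = 0 by norm_num, Real.rpow_zero, mul_one, mul_pow,
        ← Real.rpow_natCast, ← Real.rpow_natCast, ← Real.rpow_mul hX.le, ← Real.rpow_mul hL0.le]
      norm_num
      rw [Real.rpow_neg_one, div_eq_mul_inv]
    have f2 : (X ^ (-1 / 2 : ℝ) * q0 ^ (2 * (-1 / 2 : ℝ) - 1) * L ^ ((-1 / 2 : ℝ) - 1)) ^ 2 =
        X / L * (Z / L) ^ 2 := by
      rw [mul_pow, mul_pow, ← Real.rpow_natCast, ← Real.rpow_natCast, ← Real.rpow_natCast (L ^ _),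
        ← Real.rpow_mul hX.le, ← Real.rpow_mul hL0.le, ← Real.rpow_mul hq0.le,
        show (-1 / 2 : ℝ) * (2 : ℕ) = -((1 : ℕ) : ℝ) by norm_num,
        show (2 * (-1 / 2 : ℝ) - 1) * (2 : ℕ) = -((4 : ℕ) : ℝ) by norm_num,
        show ((-1 / 2 : ℝ) - 1) * (2 : ℕ) = -((3 : ℕ) : ℝ) by norm_num,
        Real.rpow_neg hX.le, Real.rpow_neg hq0.le, Real.rpow_neg hL0.le, Real.rpow_natCast,
        Real.rpow_natCast, Real.rpow_natCast, hZ]
      field_simp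
    rw [f1] at b1
    rw [f2] at b2
    have b3 : ∑ h ∈ S, ‖∑ k ∈ s, β k * ρ h k *
        Wh r (-1 / 2) (Wsc W t0 (X * q h)) (q h * nn k)‖ ^ 2 ≤
        2 * C * A ^ 2 * X * ((2 * L * Y) ^ ε * (2 * L + Y) * min 1 ((Z / L) ^ 2)) := by
      rcases min_choice 1 ((Z / L) ^ 2) with h | h
      · rw [h]
        refine b1.trans (le_of_eq ?_)
        field_simp
      · rw [h]
        refine b2.trans (le_of_eq ?_)
        field_simp
    have f3 : (w ^ j) ^ 2 = L ^ (-ε) := by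
      rw [hw, hLdef, ← pow_mul, ← Real.rpow_natCast, ← Real.rpow_natCast,
        ← Real.rpow_mul (by norm_num), ← Real.rpow_mul (by norm_num)]
      congr 1
      push_cast
      ring
    refine b3.trans ?_
    rw [mul_pow √Q, Real.sq_sqrt hQ0.le, f3, hQ]
    calc 2 * C * A ^ 2 * X * ((2 * L * Y) ^ ε * (2 * L + Y) * min 1 ((Z / L) ^ 2))
        ≤ 2 * C * A ^ 2 * X * (4 * (Y ^ ε * Z ^ (2 * ε) * (Y + Z)) * L ^ (-ε)) :=
          mul_le_mul_of_nonneg_left (block_real hε hε1 hL1 hY hZ0) (by positivity)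
      _ = _ := by ring

end Vale.Agent.P016Z.Vor
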