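import Vale.Agent.P016Z.TH.Defs
import Vale.Agent.P016Z.Base.Cls
import Vale.Agent.P016Z.Ab.Rad
import Vale.Agent.P016Z.Vor.Dual

/-!
P016, block VOR: definitions and the statements of the counting steps.
-/

namespace Vale.Agent.P016Z.Vor

open NumberField
open scoped ComplexConjugate

section field

variable (K : Type) [Field K] [NumberField K] [Dat K]

/-- sixth powers of the units congruent to `1` modulo `Q^(k+1)` -/
def G0 (k : ℕ) : Subgroup Kˣ := (Ru K ⊓ P K k).map (powMonoidHom 6)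

/-- the sum of `Ns(x)^{-δ}` over the integers `x` generating a given ideal of `R`, modulo `G0` -/
def FibStmt : Prop :=
  ∀ (k : ℕ) (δ : ℝ), 0 < δ → ∃ C : ℝ, ∀ (m : R K) (F : Finset (𝓞 K)),
    (∀ x ∈ F, x ≠ 0 ∧ Associated (toR x) m) →
    (∀ x ∈ F, ∀ y ∈ F, ∀ u ∈ G0 K k, (x : K) = (u : K) * (y : K) → x = y) →
    ∑ x ∈ F, (Ns (toSi x) : ℝ) ^ (-δ) ≤ C

/-- balanced representatives modulo `G0` -/
def BalStmt : Prop :=
  ∀ k : ℕ, ∃ C : ℝ, ∀ x : K, x ≠ 0 → ∃ u ∈ G0 K k, ∀ j,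
    TH.ab ((u : K) * x) j ^ Fintype.card (io K) ≤ C * TH.nm x

variable {K}

/-- The properties of the sextic symbol `s6 x n = (x/n)_6` on `R` used in this block. -/
structure SymV (S : TH.Sy K) (s6 : R K → R K → ℂ) : Prop where
  mul_left : ∀ x y n : R K, n ≠ 0 → s6 (x * y) n = s6 x n * s6 y n
  per : ∀ n : R K, n ≠ 0 → PerM n fun x => s6 x n
  pow_six : ∀ x n : R K, n ≠ 0 → IsCoprime x n → s6 x n ^ 6 = 1
  sq : ∀ x n : R K, n ≠ 0 → s6 x n ^ 2 = S.s x n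
  gauss : ∀ h : R K, Squarefree h → ∀ j : ℕ, j = 1 ∨ j = 3 → ∃ G : ℂ, ‖G‖ ^ 2 = Nr h ∧
    ∀ y : R K, rsum h (fun x => s6 x h ^ j * E h (x * y)) = conj (s6 y h ^ j) * G

end field

/-- the large sieve for coefficients with the shape of the cubic theta coefficients, and the
convergence of their Dirichlet series -/
def ShapeStmt : Prop :=
  ∀ (M : Type) [CommMonoidWithZero M] [UniqueFactorizationMonoid M] [Ab.Ar M]
    (ρ : M → M → ℂ) (κ : Type) (π n b : κ → M) (nn cT : κ → ℝ), Ab.QLSmod ρ →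
    (∀ h x y : M, Ab.Sq h → ρ h (x * y) = ρ h x * ρ h y) → (∀ h x : M, Ab.Sq h → ‖ρ h x‖ ≤ 1) →
    (∀ k, π k ≠ 0 ∧ (Ab.N (π k) : ℝ) ≤ nn k ∧ 0 ≤ cT k) →
    (∀ δ : ℝ, 0 < δ → ∃ C : ℝ, ∀ (m : M) (F : Finset κ), (∀ k ∈ F, π k = m) →
      ∑ k ∈ F, (nn k / Ab.N m) ^ (-δ) ≤ C) →
    (∀ k, cT k ≠ 0 → Squarefree (n k) ∧ π k = n k * b k ^ 3) →
    (∃ C : ℝ, ∀ (m : M) (L : ℝ) (F : Finset κ), 1 ≤ L →
      (∀ k ∈ F, cT k ≠ 0 ∧ b k = m ∧ nn k ≤ L) → (∑ k ∈ F, cT k ^ 2) * (Ab.N m : ℝ) ^ 2 ≤ C * L) →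
    (Summable fun k => cT k * nn k ^ (-(3 / 2) : ℝ)) ∧
      ∀ ε : ℝ, 0 < ε → ∃ C : ℝ, 0 < C ∧ ∀ (Y : ℝ) (S : Finset M), 1 ≤ Y →
        (∀ h ∈ S, Ab.Sq h ∧ (Ab.N h : ℝ) ≤ Y) → LSh S (fun h k => ρ h (π k)) nn cT C ε Y

end Vale.Agent.P016Z.Vor
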