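import Vale.Agent.P026Z.Vor.Abs
import Vale.Agent.P006.H2.Tsum
import Mathlib.MeasureTheory.Integral.Pi
import Mathlib.MeasureTheory.Function.JacobianOneDim
import Mathlib.Analysis.Calculus.ParametricIntegral

/-!
P016, block VOR: the abstract Voronoi formula with `r` archimedean places. From a kernel identity
on the torus `ι → ℝ` (logarithmic coordinates), invariant under a group of units, to
`∑ a_k W(x_k) = ∑ b_k Ŵ(y_k)`.
-/

namespace Vale.Agent.P016Z.Vor

open MeasureTheory Filter Topology Set Complex Asymptotics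
open Vale.Agent.P006.KER (Nice)
open Vale.Agent.P026Z.Vor
open scoped Real ContDiff

/-- the dual weight for `r` places, as an integral over the line `Re s = σ` -/
noncomputable def Wh (r : ℕ) (σ : ℝ) (W : ℝ → ℂ) (y : ℝ) : ℂ :=
  ((1 / (2 * π) : ℝ) : ℂ) *
    ∫ t : ℝ, mellin W (σ + t * I) * Gr (σ + t * I) ^ r * (y : ℂ) ^ (-(1 - ((σ : ℂ) + t * I)))

section
variable {W : ℝ → ℂ} {α β : ℝ}

theorem norm_Gr_neg_pow (r : ℕ) (t : ℝ) :
    ‖Gr ((-1 / 2 : ℝ) + t * I) ^ r‖ ≤ (2 * (1 + |t|)) ^ (4 * r) := by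
  rw [norm_pow, pow_mul]
  exact pow_le_pow_left₀ (norm_nonneg _) (norm_Gr_neg_half t) r

theorem norm_Gr_pos_pow (r : ℕ) (t : ℝ) : ‖Gr ((1 / 2 : ℝ) + t * I) ^ r‖ ≤ 1 := by
  rw [norm_pow]
  exact pow_le_one₀ (norm_nonneg _) (norm_Gr_half t)

theorem int_mu_neg (r : ℕ) (H : Nice W α β) :
    Integrable fun t : ℝ => mellin W ((-1 / 2 : ℝ) + t * I) * Gr ((-1 / 2 : ℝ) + t * I) ^ r := by
  refine ((nice_integrable_poly H (-1 / 2) (4 * r)).const_mul (2 ^ (4 * r))).mono' ?_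
    (ae_of_all _ fun t => ?_)
  · exact ((nice_continuous_line H _).mul
      ((continuous_Gr_line (by norm_num)).pow r)).aestronglyMeasurable
  · rw [norm_mul]
    calc _ ≤ ‖mellin W ((-1 / 2 : ℝ) + t * I)‖ * (2 * (1 + |t|)) ^ (4 * r) := by
          gcongr; exact norm_Gr_neg_pow r t
      _ = _ := by rw [mul_pow]; ring

theorem int_mu_pos (r : ℕ) (H : Nice W α β) :
    Integrable fun t : ℝ => mellin W ((1 / 2 : ℝ) + t * I) * Gr ((1 / 2 : ℝ) + t * I) ^ r :=
  (nice_integrable_line H (1 / 2)).mul_bdd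
    ((continuous_Gr_line (by norm_num)).pow r).aestronglyMeasurable
    (ae_of_all _ fun t => norm_Gr_pos_pow r t)

/-- Voronoi formula from the functional equation of the completed Dirichlet series -/
theorem voronoi_of_Lam (r : ℕ) {κ κ' : Type} [Countable κ] [Countable κ'] {a : κ → ℂ} {b : κ' → ℂ}
    {x : κ → ℝ} {y : κ' → ℝ} {m m' : ℝ} (Da : Dat a x m) (Db : Dat b y m') {Λ : ℂ → ℂ} {CL : ℝ}
    (hdiff : ∀ s : ℂ, -1 / 2 ≤ s.re → s.re ≤ 3 / 2 → DifferentiableAt ℂ Λ s)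
    (hCL : ∀ s : ℂ, -1 / 2 ≤ s.re → s.re ≤ 3 / 2 → ‖Λ s‖ ≤ CL)
    (ha : ∀ s : ℂ, s.re = 3 / 2 → Λ s = gam s ^ r * Dser a x s)
    (hb : ∀ s : ℂ, s.re = -1 / 2 → Λ s = gam (1 - s) ^ r * Dser b y (1 - s))
    (H : Nice W α β) :
    HasSum (fun k => b k * Wh r (-1 / 2) W (y k)) (∑' k, a k * W (x k)) := by
  have hCL0 : 0 ≤ CL := (norm_nonneg _).trans (hCL 0 (by simp; norm_num) (by simp; norm_num))
  obtain ⟨CW, hCW0, hCW⟩ := nice_strip_bound H (-1 / 2) (3 / 2)
  obtain ⟨CG, hCG0, hCG⟩ := exists_gamInv_bound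
  set F : ℂ → ℂ := fun s => mellin W s * (Λ s * gamInv s ^ r) with hF
  have e1 : ∀ t : ℝ, F (((3 / 2 : ℝ) : ℂ) + t * I) =
      mellin W (((3 / 2 : ℝ) : ℂ) + t * I) * Dser a x (((3 / 2 : ℝ) : ℂ) + t * I) := by
    intro t
    have hs : (((3 / 2 : ℝ) : ℂ) + t * I).re = 3 / 2 := by simp
    simp only [hF]
    rw [ha _ hs, mul_right_comm, ← mul_pow, gam_mul_gamInv (by rw [hs]; norm_num), one_pow, one_mul]
  have hre : ∀ t : ℝ, (1 - (((-1 / 2 : ℝ) : ℂ) + t * I)).re = 3 / 2 := by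
    intro t
    rw [sub_re, add_re, ofReal_re]; simp; norm_num
  have e0 : ∀ t : ℝ, F (((-1 / 2 : ℝ) : ℂ) + t * I) =
      (mellin W (((-1 / 2 : ℝ) : ℂ) + t * I) * Gr (((-1 / 2 : ℝ) : ℂ) + t * I) ^ r) *
        Dser b y (1 - (((-1 / 2 : ℝ) : ℂ) + t * I)) := by
    intro t
    have hs : (((-1 / 2 : ℝ) : ℂ) + t * I).re = -1 / 2 := by rw [add_re, ofReal_re]; simp
    simp only [hF]
    rw [hb _ hs, Gr, mul_pow]
    ring
  have i1 : Integrable fun t : ℝ => F (((3 / 2 : ℝ) : ℂ) + t * I) := by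
    simp only [e1]
    exact Da.integrable_Dser (by fun_prop) (fun t => by simp) (nice_integrable_line H _)
  have i0 : Integrable fun t : ℝ => F (((-1 / 2 : ℝ) : ℂ) + t * I) := by
    simp only [e0]
    exact Db.integrable_Dser (by fun_prop) hre (int_mu_neg r H)
  have hshift := shift (F := F) (σ0 := -1 / 2) (σ1 := 3 / 2) (C := CW * (CL * CG ^ r))
    (B := r * (2 * π)) (by norm_num)
    (fun s h1 h2 => (nice_differentiable H s).mul ((hdiff s h1 h2).mul
      ((differentiable_gamInv s).pow r)))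
    (fun s h1 h2 h3 => by
      simp only [hF, norm_mul, norm_pow]
      have a1 := hCW s h1 h2
      have a2 := hCL s h1 h2
      have a3 := hCG s (by linarith) (by linarith) h3
      calc _ ≤ CW * (CL * (CG * Real.exp (2 * π * |s.im|)) ^ r) := by gcongr
        _ = _ := by rw [mul_pow, ← Real.exp_nat_mul]; ring_nf) i0 i1
  simp only [e0, e1] at hshift
  have s1 := (Da.hasSum_integral (s := fun t : ℝ => ((3 / 2 : ℝ) : ℂ) + t * I) (by fun_prop)
    (fun t => by simp) (nice_integrable_line H (3 / 2))).mul_left ((1 / (2 * π) : ℝ) : ℂ)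
  have s0 := (Db.hasSum_integral (s := fun t : ℝ => 1 - (((-1 / 2 : ℝ) : ℂ) + t * I)) (by fun_prop)
    hre (int_mu_neg r H)).mul_left ((1 / (2 * π) : ℝ) : ℂ)
  have e2 : ∑' k, a k * W (x k) = ((1 / (2 * π) : ℝ) : ℂ) *
      ∫ t : ℝ, mellin W (((3 / 2 : ℝ) : ℂ) + t * I) * Dser a x (((3 / 2 : ℝ) : ℂ) + t * I) := by
    rw [← s1.tsum_eq]
    refine tsum_congr fun k => ?_
    rw [nice_inversion H (3 / 2) (Da.pos k)]
    ring
  rw [e2, ← hshift]
  have e3 : (fun k => b k * Wh r (-1 / 2) W (y k)) = fun k => ((1 / (2 * π) : ℝ) : ℂ) *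
      (b k * ∫ t : ℝ, mellin W (((-1 / 2 : ℝ) : ℂ) + t * I) *
        Gr (((-1 / 2 : ℝ) : ℂ) + t * I) ^ r *
        (y k : ℂ) ^ (-(1 - (((-1 / 2 : ℝ) : ℂ) + t * I)))) := by
    funext k
    rw [Wh]
    ring
  rw [e3]
  exact s0

/-- the dual weight does not depend on the line -/
theorem Wh_shift (r : ℕ) (H : Nice W α β) {y : ℝ} (hy : 0 < y) :
    Wh r (-1 / 2) W y = Wh r (1 / 2) W y := by
  obtain ⟨CW, hCW0, hCW⟩ := nice_strip_bound H (-1 / 2) (1 / 2)
  obtain ⟨CG, hCG0, hCG⟩ := exists_gamInv_bound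
  obtain ⟨Cg, hCg0, hCg⟩ := exists_gam_bound
  have hy' : (y : ℂ) ≠ 0 := by exact_mod_cast hy.ne'
  have hcont : ∀ σ : ℝ, Continuous fun t : ℝ => (y : ℂ) ^ (-(1 - ((σ : ℂ) + t * I))) := fun σ =>
    Continuous.const_cpow (by fun_prop) (Or.inl hy')
  have hnorm : ∀ s : ℂ, ‖(y : ℂ) ^ (-(1 - s))‖ = y ^ (s.re - 1) := by
    intro s
    rw [norm_cpow_eq_rpow_re_of_pos hy]
    simp
  rw [Wh, Wh]
  congr 1
  refine shift (F := fun s => mellin W s * Gr s ^ r * (y : ℂ) ^ (-(1 - s))) (σ0 := -1 / 2)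
    (σ1 := 1 / 2) (C := CW * (Cg * CG) ^ r * (y ^ (-(3 / 2) : ℝ) + y ^ (-(1 / 2) : ℝ)))
    (B := r * (2 * π)) (by norm_num) (fun s h1 h2 => ?_) (fun s h1 h2 h3 => ?_) ?_ ?_
  · refine ((nice_differentiable H s).mul ((differentiableAt_Gr (by linarith)).pow r)).mul ?_
    exact DifferentiableAt.const_cpow (by fun_prop) (Or.inl hy')
  · have a1 := hCW s h1 h2
    have a2 := hCg (1 - s) (by simp; linarith) (by simp; linarith)
    have a3 := hCG s (by linarith) (by linarith) h3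
    have a4 : y ^ (s.re - 1) ≤ y ^ (-(3 / 2) : ℝ) + y ^ (-(1 / 2) : ℝ) := by
      have b0 : 0 ≤ y ^ (-(3 / 2) : ℝ) := by positivity
      have b1 : 0 ≤ y ^ (-(1 / 2) : ℝ) := by positivity
      rcases le_total y 1 with h | h
      · have := Real.rpow_le_rpow_of_exponent_ge hy h (show -(3 / 2) ≤ s.re - 1 by linarith)
        linarith
      · have := Real.rpow_le_rpow_of_exponent_le h (show s.re - 1 ≤ -(1 / 2) by linarith)
        linarith
    rw [norm_mul, norm_mul, norm_pow, Gr, norm_mul, hnorm]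
    calc _ ≤ CW * (Cg * (CG * Real.exp (2 * π * |s.im|))) ^ r *
          (y ^ (-(3 / 2) : ℝ) + y ^ (-(1 / 2) : ℝ)) := by gcongr
      _ = _ := by rw [← mul_assoc Cg, mul_pow (Cg * CG), ← Real.exp_nat_mul]; ring_nf
  · exact (int_mu_neg r H).mul_bdd (c := y ^ ((-1 / 2 : ℝ) - 1)) (hcont _).aestronglyMeasurable
      (ae_of_all _ fun t => by rw [hnorm, add_re, ofReal_re]; simp)
  · exact (int_mu_pos r H).mul_bdd (c := y ^ ((1 / 2 : ℝ) - 1)) (hcont _).aestronglyMeasurable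
      (ae_of_all _ fun t => by rw [hnorm, add_re, ofReal_re]; simp)

end

/-! ### Laplace transforms -/

theorem exp_between {σ0 σ1 σ n : ℝ} (h0 : σ0 ≤ σ) (h1 : σ ≤ σ1) :
    Real.exp (σ * n) ≤ Real.exp (σ0 * n) + Real.exp (σ1 * n) := by
  have p0 := Real.exp_pos (σ0 * n)
  have p1 := Real.exp_pos (σ1 * n)
  rcases le_total 0 n with h | h
  · have : Real.exp (σ * n) ≤ Real.exp (σ1 * n) := Real.exp_le_exp.2 (by nlinarith)
    linarith
  · have : Real.exp (σ * n) ≤ Real.exp (σ0 * n) := Real.exp_le_exp.2 (by nlinarith)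
    linarith

theorem norm_cexp_mul (s : ℂ) (n : ℝ) : ‖cexp (s * n)‖ = Real.exp (s.re * n) := by
  rw [norm_exp]; simp

/-- a two-sided Laplace transform is holomorphic and bounded in the strip -/
theorem laplace {X : Type} [MeasurableSpace X] {μ : Measure X} {F : X → ℂ} {n : X → ℝ}
    (hn : Measurable n) (hF : AEStronglyMeasurable F μ)
    (h0 : Integrable (fun x => ‖F x‖ * Real.exp (-3 / 4 * n x)) μ)
    (h1 : Integrable (fun x => ‖F x‖ * Real.exp (7 / 4 * n x)) μ) :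
    (∀ s : ℂ, -1 / 2 ≤ s.re → s.re ≤ 3 / 2 →
      DifferentiableAt ℂ (fun s => ∫ x, F x * cexp (s * n x) ∂μ) s) ∧
    ∃ C : ℝ, ∀ s : ℂ, -1 / 2 ≤ s.re → s.re ≤ 3 / 2 → ‖∫ x, F x * cexp (s * n x) ∂μ‖ ≤ C := by
  have hm : ∀ s : ℂ, AEStronglyMeasurable (fun x => F x * cexp (s * n x)) μ := fun s =>
    hF.mul (Measurable.aestronglyMeasurable (by fun_prop))
  have hle : ∀ s : ℂ, -3 / 4 ≤ s.re → s.re ≤ 7 / 4 → ∀ x, ‖F x * cexp (s * n x)‖ ≤
      ‖F x‖ * Real.exp (-3 / 4 * n x) + ‖F x‖ * Real.exp (7 / 4 * n x) := by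
    intro s a b x
    rw [norm_mul, norm_cexp_mul, ← mul_add]
    exact mul_le_mul_of_nonneg_left (exp_between a b) (norm_nonneg _)
  refine ⟨fun s a b => ?_, ∫ x, (‖F x‖ * Real.exp (-3 / 4 * n x) +
    ‖F x‖ * Real.exp (7 / 4 * n x)) ∂μ, fun s a b => ?_⟩
  · have h := hasDerivAt_integral_of_dominated_loc_of_deriv_le (μ := μ) (x₀ := s)
      (F := fun s x => F x * cexp (s * n x)) (F' := fun s x => F x * (cexp (s * n x) * n x))
      (bound := fun x => 16 * (‖F x‖ * Real.exp (-3 / 4 * n x) + ‖F x‖ * Real.exp (7 / 4 * n x)))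
      (Metric.ball_mem_nhds s (show (0 : ℝ) < 1 / 8 by norm_num)) (Eventually.of_forall hm)
      ((h0.add h1).mono' (hm s) (ae_of_all _ (hle s (by linarith) (by linarith))))
      (hF.mul (Measurable.aestronglyMeasurable (by fun_prop))) (ae_of_all _ fun x z hz => ?_)
      ((h0.add h1).const_mul 16) (ae_of_all _ fun x z _ => ?_)
    · exact h.2.differentiableAt
    · have h2 : |z.re - s.re| < 1 / 8 := by
        rw [← sub_re]
        exact (abs_re_le_norm _).trans_lt (by rwa [Metric.mem_ball, dist_eq_norm] at hz)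
      rw [abs_lt] at h2
      rw [norm_mul, norm_mul, norm_cexp_mul, norm_real, Real.norm_eq_abs]
      have h3 : |n x| ≤ 8 * (Real.exp (1 / 8 * n x) + Real.exp (-1 / 8 * n x)) := by
        have p0 := Real.add_one_le_exp (1 / 8 * n x)
        have p1 := Real.add_one_le_exp (-1 / 8 * n x)
        have p2 := Real.exp_pos (1 / 8 * n x)
        have p3 := Real.exp_pos (-1 / 8 * n x)
        rw [abs_le]
        constructor <;> linarith
      have h4 := exp_between (σ0 := -3 / 4) (σ1 := 7 / 4) (σ := z.re + 1 / 8) (n := n x)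
        (by linarith) (by linarith)
      have h5 := exp_between (σ0 := -3 / 4) (σ1 := 7 / 4) (σ := z.re + -1 / 8) (n := n x)
        (by linarith) (by linarith)
      rw [add_mul, Real.exp_add] at h4 h5
      have h6 : Real.exp (z.re * n x) * |n x| ≤
          16 * (Real.exp (-3 / 4 * n x) + Real.exp (7 / 4 * n x)) := by
        calc _ ≤ Real.exp (z.re * n x) * (8 * (Real.exp (1 / 8 * n x) +
              Real.exp (-1 / 8 * n x))) := by gcongr
          _ ≤ _ := by linarith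
      calc _ ≤ ‖F x‖ * (16 * (Real.exp (-3 / 4 * n x) + Real.exp (7 / 4 * n x))) := by gcongr
        _ = _ := by ring
    · exact ((hasDerivAt_mul_const (n x : ℂ)).cexp).const_mul (F x)
  · exact norm_integral_le_of_norm_le (h0.add h1) (ae_of_all _ (hle s (by linarith) (by linarith)))

/-! ### the product kernel -/

theorem kc_line {s : ℂ} (h0 : 0 < s.re) (h2 : s.re < 2) :
    Integrable (fun x : ℝ => Kc (Real.exp x) * cexp (s * x)) ∧
      ∫ x : ℝ, Kc (Real.exp x) * cexp (s * x) = gam s := by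
  have hd : ∀ x ∈ (univ : Set ℝ), HasDerivWithinAt Real.exp (Real.exp x) univ x :=
    fun x _ => (Real.hasDerivAt_exp x).hasDerivWithinAt
  have hi : Real.exp '' univ = Ioi 0 := by rw [image_univ, Real.range_exp]
  have e : ∀ x : ℝ, |Real.exp x| • (((Real.exp x : ℝ) : ℂ) ^ (s - 1) • Kc (Real.exp x)) =
      Kc (Real.exp x) * cexp (s * x) := by
    intro x
    rw [abs_of_pos (Real.exp_pos x), real_smul, smul_eq_mul, ofReal_exp,
      cpow_def_of_ne_zero (exp_ne_zero _), log_exp (by simp [Real.pi_pos]) (by simp [Real.pi_pos.le]),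
      ← mul_assoc, ← exp_add, mul_comm]
    congr 2
    ring
  constructor
  · have h := (integrableOn_image_iff_integrableOn_abs_deriv_smul MeasurableSet.univ hd
      Real.exp_injective.injOn (fun u : ℝ => (u : ℂ) ^ (s - 1) • Kc u)).1
      (by rw [hi]; exact mellinConvergent_Kc h0 h2)
    simp only [e] at h
    exact integrableOn_univ.1 h
  · rw [← mellin_Kc h0, mellin, ← hi, integral_image_eq_integral_abs_deriv_smul MeasurableSet.univ hd
      Real.exp_injective.injOn, setIntegral_univ]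
    simp only [e]

variable {ι : Type} [Fintype ι]

/-- the product kernel in logarithmic coordinates -/
noncomputable def KP (t : ι → ℝ) : ℂ := ∏ j, Kc (Real.exp (t j))

/-- the logarithm of the norm -/
noncomputable def ln (t : ι → ℝ) : ℝ := ∑ j, t j

theorem ln_add (t u : ι → ℝ) : ln (t + u) = ln t + ln u := by simp [ln, Finset.sum_add_distrib]

theorem ln_neg (t : ι → ℝ) : ln (-t) = -ln t := by simp [ln]

theorem measurable_ln : Measurable (ln : (ι → ℝ) → ℝ) := by unfold ln; fun_prop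

theorem KP_mul_eq (s : ℂ) (t : ι → ℝ) :
    KP t * cexp (s * ln t) = ∏ j, (Kc (Real.exp (t j)) * cexp (s * t j)) := by
  rw [Finset.prod_mul_distrib, KP, ← exp_sum, ln, ← Finset.mul_sum]
  push_cast
  rfl

theorem kp_int {s : ℂ} (h0 : 0 < s.re) (h2 : s.re < 2) :
    Integrable (fun t : ι → ℝ => KP t * cexp (s * ln t)) ∧
      ∫ t : ι → ℝ, KP t * cexp (s * ln t) = gam s ^ Fintype.card ι := by
  simp only [KP_mul_eq]
  refine ⟨Integrable.fintype_prod (f := fun _ x => Kc (Real.exp x) * cexp (s * x))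
    fun _ => (kc_line h0 h2).1, ?_⟩
  rw [integral_fintype_prod_volume_eq_pow (fun x : ℝ => Kc (Real.exp x) * cexp (s * x)),
    (kc_line h0 h2).2]

/-- a weight whose translates under the units add up to `1` -/
structure Pou {G : Type} [AddCommGroup G] (ℓ : G →+ (ι → ℝ)) (ψ : (ι → ℝ) → ℝ) : Prop where
  meas : Measurable ψ
  nonneg : ∀ t, 0 ≤ ψ t
  sum : ∀ t, HasSum (fun g => ψ (t + ℓ g)) 1
  ln_eq : ∀ g, ln (ℓ g) = 0

variable {G : Type} [AddCommGroup G] {ℓ : G →+ (ι → ℝ)} {ψ : (ι → ℝ) → ℝ}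

theorem Pou.sum' (P : Pou ℓ ψ) (t : ι → ℝ) : HasSum (fun g => ψ (t - ℓ g)) 1 := by
  have h := (Equiv.neg G).hasSum_iff.2 (P.sum t)
  have e : (fun g => ψ (t - ℓ g)) = (fun g => ψ (t + ℓ g)) ∘ Equiv.neg G := by
    funext g
    simp [sub_eq_add_neg]
  rwa [e]

theorem Pou.neg (P : Pou ℓ ψ) : Pou ℓ (fun t => ψ (-t)) where
  meas := P.meas.comp measurable_neg
  nonneg := fun _ => P.nonneg _
  sum := fun t => by
    have h := P.sum' (-t)
    simpa only [neg_add, sub_eq_add_neg] using h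
  ln_eq := P.ln_eq

theorem Pou.le_one (P : Pou ℓ ψ) (t : ι → ℝ) : ψ t ≤ 1 := by
  have h := le_hasSum (P.sum t) 0 fun _ _ => P.nonneg _
  simpa using h

/-- unfolding -/
theorem Pou.unfold [Countable G] (P : Pou ℓ ψ) {f : (ι → ℝ) → ℂ} (hf : Integrable f) (q : ι → ℝ) :
    (∀ g, Integrable fun t => (ψ (t - q - ℓ g) : ℂ) * f t) ∧
    HasSum (fun g => ∫ t, ‖(ψ (t - q - ℓ g) : ℂ) * f t‖) (∫ t, ‖f t‖) ∧
    HasSum (fun g => ∫ t, (ψ (t - q - ℓ g) : ℂ) * f t) (∫ t, f t) := by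
  have key : ∀ f : (ι → ℝ) → ℂ, Integrable f →
      (∀ g, Integrable fun t => (ψ (t - q - ℓ g) : ℂ) * f t) ∧
      HasSum (fun g => ∫ t, (ψ (t - q - ℓ g) : ℂ) * f t) (∫ t, f t) := by
    intro f hf
    have hn : ∀ g t, ‖(ψ (t - q - ℓ g) : ℂ) * f t‖ = ψ (t - q - ℓ g) * ‖f t‖ := fun g t => by
      rw [norm_mul, norm_real, Real.norm_of_nonneg (P.nonneg _)]
    have hi : ∀ g, Integrable fun t => (ψ (t - q - ℓ g) : ℂ) * f t := fun g =>
      hf.bdd_mul (c := 1) (Measurable.aestronglyMeasurable (measurable_ofReal.comp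
        (P.meas.comp (by fun_prop)))) (ae_of_all _ fun t => by
          rw [norm_real, Real.norm_of_nonneg (P.nonneg _)]; exact P.le_one _)
    have hs : Summable fun g => ∫ t, ‖(ψ (t - q - ℓ g) : ℂ) * f t‖ := by
      refine summable_of_sum_le (c := ∫ t, ‖f t‖)
        (fun g => integral_nonneg fun t => norm_nonneg _) fun S => ?_
      rw [← integral_finsetSum _ fun g _ => (hi g).norm]
      refine integral_mono (integrable_finsetSum _ fun g _ => (hi g).norm) hf.norm fun t => ?_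
      simp only [hn]
      rw [← Finset.sum_mul]
      exact mul_le_of_le_one_left (norm_nonneg _)
        (sum_le_hasSum S (fun g _ => P.nonneg _) (P.sum' (t - q)))
    refine ⟨hi, ?_⟩
    have h := hasSum_integral_of_summable_integral_norm hi hs
    have e : ∀ t, ∑' g, (ψ (t - q - ℓ g) : ℂ) * f t = f t := fun t => by
      rw [tsum_mul_right, ← ofReal_tsum, (P.sum' (t - q)).tsum_eq, ofReal_one, one_mul]
    simpa only [e] using h
  refine ⟨(key f hf).1, ?_, (key f hf).2⟩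
  have h := (key (fun t => (‖f t‖ : ℂ)) hf.norm.ofReal).2
  rw [integral_complex_ofReal] at h
  rw [← hasSum_ofReal]
  have e : (fun g => ((∫ t, ‖(ψ (t - q - ℓ g) : ℂ) * f t‖ : ℝ) : ℂ)) =
      fun g => ∫ t, (ψ (t - q - ℓ g) : ℂ) * (‖f t‖ : ℂ) := by
    funext g
    rw [← integral_complex_ofReal]
    refine integral_congr_ae (ae_of_all _ fun t => ?_)
    simp only
    rw [norm_mul, norm_real, Real.norm_of_nonneg (P.nonneg _)]
    simp
  rw [e]
  exact h

/-- the kernel sum on the torus -/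
noncomputable def PhiT {κ : Type} (ℓ : G →+ (ι → ℝ)) (a : κ → ℂ) (p : κ → ι → ℝ) (t : ι → ℝ) : ℂ :=
  ∑' z : κ × G, a z.1 * KP (p z.1 + ℓ z.2 + t)

theorem torus_mellin [Countable G] {κ : Type} [Countable κ] (P : Pou ℓ ψ) {a : κ → ℂ}
    {p : κ → ι → ℝ} {m : ℝ} (D : Dat a (fun k => Real.exp (ln (p k))) m) {s : ℂ}
    (h0 : 3 / 2 ≤ s.re) (h2 : s.re < 2) :
    Integrable (fun t => (ψ t * PhiT ℓ a p t) * cexp (s * ln t)) ∧
      ∫ t, (ψ t * PhiT ℓ a p t) * cexp (s * ln t) =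
        gam s ^ Fintype.card ι * Dser a (fun k => Real.exp (ln (p k))) s := by
  obtain ⟨hf, hI⟩ := kp_int (ι := ι) (s := s) (by linarith) h2
  set f : (ι → ℝ) → ℂ := fun t => KP t * cexp (s * ln t) with hfdef
  set c : κ → ℂ := fun k => a k * cexp (-(s * ln (p k))) with hc
  set F : κ × G → (ι → ℝ) → ℂ := fun z t =>
    c z.1 * ((ψ (t + (p z.1 + ℓ z.2) - p z.1 - ℓ z.2) : ℂ) * f (t + (p z.1 + ℓ z.2))) with hF
  have hU := fun k => P.unfold hf (p k)
  have hint : ∀ z, Integrable (F z) := fun z =>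
    (((hU z.1).1 z.2).comp_add_right (p z.1 + ℓ z.2)).const_mul _
  have hnorm : ∀ z, ∫ t, ‖F z t‖ = ‖c z.1‖ * ∫ t, ‖(ψ (t - p z.1 - ℓ z.2) : ℂ) * f t‖ := by
    intro z
    simp only [hF]
    rw [← integral_add_right_eq_self (fun t => ‖(ψ (t - p z.1 - ℓ z.2) : ℂ) * f t‖)
      (p z.1 + ℓ z.2), ← integral_const_mul]
    simp only [norm_mul (c z.1)]
  have hval : ∀ z, ∫ t, F z t = c z.1 * ∫ t, (ψ (t - p z.1 - ℓ z.2) : ℂ) * f t := by
    intro z
    simp only [hF]
    rw [integral_const_mul,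
      integral_add_right_eq_self (fun t => (ψ (t - p z.1 - ℓ z.2) : ℂ) * f t) (p z.1 + ℓ z.2)]
  have hcs : Summable fun k => ‖c k‖ := by
    refine Summable.of_nonneg_of_le (fun k => norm_nonneg _) (fun k => ?_)
      (D.summ.mul_left (m ^ (3 / 2 - s.re)))
    have h3 : ‖c k‖ = ‖a k‖ * (Real.exp (ln (p k)) ^ (3 / 2 - s.re) *
        Real.exp (ln (p k)) ^ (-(3 / 2) : ℝ)) := by
      simp only [hc]
      rw [norm_mul, ← neg_mul, norm_cexp_mul, ← Real.rpow_add (Real.exp_pos _), ← Real.exp_mul]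
      congr 2
      simp only [neg_re]
      ring
    have h4 : Real.exp (ln (p k)) ^ (3 / 2 - s.re) ≤ m ^ (3 / 2 - s.re) :=
      Real.rpow_le_rpow_of_nonpos D.m_pos (D.le k) (by linarith)
    rw [h3]
    calc _ ≤ ‖a k‖ * (m ^ (3 / 2 - s.re) * Real.exp (ln (p k)) ^ (-(3 / 2) : ℝ)) := by gcongr
      _ = _ := by ring
  have hsum : Summable fun z => ∫ t, ‖F z t‖ := by
    rw [summable_prod_of_nonneg fun z => integral_nonneg fun t => norm_nonneg _]
    simp only [hnorm]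
    refine ⟨fun k => (hU k).2.1.summable.mul_left _, ?_⟩
    simp only [tsum_mul_left, fun k => (hU k).2.1.tsum_eq]
    exact hcs.mul_right _
  have e : ∀ t, (ψ t * PhiT ℓ a p t) * cexp (s * ln t) = ∑' z, F z t := by
    intro t
    rw [PhiT, ← tsum_mul_left, ← tsum_mul_right]
    refine tsum_congr fun z => ?_
    simp only [hF, hc, hfdef]
    rw [show t + (p z.1 + ℓ z.2) - p z.1 - ℓ z.2 = t by abel, ln_add, ln_add, P.ln_eq, add_zero,
      add_comm t, ofReal_add, mul_add, exp_add, exp_neg]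
    have := exp_ne_zero (s * ln (p z.1))
    field_simp
  simp only [e]
  refine ⟨P006.FC.integrable_tsum_of_norm hint hsum, ?_⟩
  have h1 := hasSum_integral_of_summable_integral_norm hint hsum
  have h3 := h1.prod_fiberwise (g := fun k => c k * ∫ t, f t) fun k => by
    simp only [hval]
    exact (hU k).2.2.mul_left _
  rw [← h3.tsum_eq, hI, Dser, ← tsum_mul_left]
  refine tsum_congr fun k => ?_
  simp only [hc]
  rw [ofReal_exp, cpow_def_of_ne_zero (exp_ne_zero _),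
    log_exp (by simp [Real.pi_pos]) (by simp [Real.pi_pos.le])]
  rw [show (ln (p k) : ℂ) * -s = -(s * ln (p k)) by ring]
  ring

/-- **abstract Voronoi formula on the torus** -/
theorem voronoi_torus [Countable G] {κ κ' : Type} [Countable κ] [Countable κ'] (P : Pou ℓ ψ)
    {a : κ → ℂ} {b : κ' → ℂ} {p : κ → ι → ℝ} {q : κ' → ι → ℝ} {m m' : ℝ}
    (Da : Dat a (fun k => Real.exp (ln (p k))) m) (Db : Dat b (fun k => Real.exp (ln (q k))) m')
    (hfe : ∀ t, PhiT ℓ a p t = cexp (-(ln t : ℂ)) * PhiT ℓ b q (-t))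
    {W : ℝ → ℂ} {α β : ℝ} (H : Nice W α β) :
    HasSum (fun k => b k * Wh (Fintype.card ι) (-1 / 2) W (Real.exp (ln (q k))))
      (∑' k, a k * W (Real.exp (ln (p k)))) := by
  set F : (ι → ℝ) → ℂ := fun t => ψ t * PhiT ℓ a p t with hF
  have e : ∀ (s : ℂ) (t : ι → ℝ), F t * cexp (s * ln t) =
      (fun u => ((ψ (-u) : ℂ) * PhiT ℓ b q u) * cexp ((1 - s) * ln u)) (-t) := by
    intro s t
    simp only [hF]
    rw [hfe t, neg_neg, ln_neg, ofReal_neg, show (1 - s) * -(ln t : ℂ) = -(ln t : ℂ) + s * ln t by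
      ring, exp_add]
    ring
  have hb : ∀ s : ℂ, 3 / 2 ≤ (1 - s).re → (1 - s).re < 2 →
      Integrable (fun t => F t * cexp (s * ln t)) ∧ ∫ t, F t * cexp (s * ln t) =
        gam (1 - s) ^ Fintype.card ι * Dser b (fun k => Real.exp (ln (q k))) (1 - s) := by
    intro s h0 h2
    obtain ⟨h3, h4⟩ := torus_mellin P.neg Db h0 h2
    simp only [e]
    exact ⟨h3.comp_neg, by rw [integral_neg_eq_self
      (fun u => ((ψ (-u) : ℂ) * PhiT ℓ b q u) * cexp ((1 - s) * ln u)), h4]⟩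
  have i1 := (torus_mellin P Da (s := ((7 / 4 : ℝ) : ℂ)) (by simp; norm_num)
    (by simp; norm_num)).1
  have i0 := (hb ((-3 / 4 : ℝ) : ℂ) (by rw [sub_re, ofReal_re]; norm_num)
    (by rw [sub_re, ofReal_re]; norm_num)).1
  have hm : AEStronglyMeasurable F volume := by
    have h : AEStronglyMeasurable (fun t => (F t * cexp (((7 / 4 : ℝ) : ℂ) * ln t)) *
        cexp (-(((7 / 4 : ℝ) : ℂ) * ln t))) volume := i1.1.mul (Measurable.aestronglyMeasurable (by
      have := measurable_ln (ι := ι)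
      fun_prop))
    refine h.congr (ae_of_all _ fun t => ?_)
    simp only
    rw [mul_assoc, ← exp_add, add_neg_cancel, exp_zero, mul_one]
  obtain ⟨hd, C, hC⟩ := laplace (μ := volume) (F := F) measurable_ln hm
    (i0.norm.congr (ae_of_all _ fun t => by simp only; rw [norm_mul, norm_cexp_mul, ofReal_re]))
    (i1.norm.congr (ae_of_all _ fun t => by simp only; rw [norm_mul, norm_cexp_mul, ofReal_re]))
  exact voronoi_of_Lam _ Da Db hd hC
    (fun s hs => (torus_mellin P Da hs.ge (by rw [hs]; norm_num)).2)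
    (fun s hs => (hb s (by rw [sub_re, hs]; norm_num) (by rw [sub_re, hs]; norm_num)).2) H

end Vale.Agent.P016Z.Vor
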