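import Vale.Agent.P016Z.Vor.Lat

/-!
P016, block VOR: the kernel identity at a cusp, for one matrix.
-/

namespace Vale.Agent.P016Z.Vor

open NumberField Vale.Agent.P006 Vale.Agent.P016Z.TH Vale.Agent.P026Z.Vor
open scoped ComplexConjugate Real

set_option linter.unusedSectionVars false

variable {K : Type} [Field K] [NumberField K] [Dat K]

theorem ch_eq_prod_eT (ν : K) (z : io K → ℂ) :
    (cmK K).ch ν z = ∏ j, PO.eT (em ν j * z j) := (cmK K).ch_eq_prod ν z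

theorem prod_eT_em (ν x : K) : ∏ j, PO.eT (em ν j * em x j) = eT (ν * x) := by
  rw [← ch_eq_prod_eT, ch_em_eq]; rfl

theorem ser_eq {τ : K → ℂ} {θ : HK K → ℂ} (h : IsExp τ θ) (z : io K → ℂ) {v : io K → ℝ}
    (hv : ∀ j, 0 < v j) :
    θ ((cmK K).pt z v) = Ser (fun v => τ 0 * (WW (em (0 : K)) v : ℂ)) (tz τ) em z v := by
  classical
  have h1 := h ((cmK K).pt z v)
  rw [(cmK K).pt_z, (cmK K).pt_v z hv] at h1
  rw [← h1.tsum_eq, h1.summable.tsum_eq_add_tsum_ite 0, (cmK K).ch_zero_left, mul_one, Ser]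
  congr 1
  refine tsum_congr fun ν => ?_
  by_cases hν : ν = 0
  · rw [if_pos hν, tz, if_pos hν, zero_mul]
  · rw [if_neg hν, tz_of_ne τ hν, Finset.prod_mul_distrib, ← ch_eq_prod_eT, mul_assoc, WW,
      Complex.ofReal_prod]
    rfl

theorem act_pt (γ : SL2 K) (hc : γ 1 0 ≠ 0) (ζ : io K → ℂ) {v : io K → ℝ} (hv : ∀ j, 0 < v j) :
    γ • (cmK K).pt (fun j => em (-(γ 1 1 / γ 1 0)) j + ζ j) v =
      (cmK K).pt (fun j => em (γ 0 0 / γ 1 0) j - conj (ζ j) /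
          (em (γ 1 0) j ^ 2 * ((Complex.normSq (ζ j) + v j ^ 2 : ℝ) : ℂ)))
        (fun j => v j / (Complex.normSq (em (γ 1 0) j) * (Complex.normSq (ζ j) + v j ^ 2))) := by
  have hp : ∀ j, 0 < Complex.normSq (ζ j) + v j ^ 2 := fun j =>
    add_pos_of_nonneg_of_pos (Complex.normSq_nonneg _) (pow_pos (hv j) 2)
  have hn : ∀ j, 0 < Complex.normSq (em (γ 1 0) j) := fun j => Complex.normSq_pos.2 (em_ne hc j)
  have hlin : ∀ j, em (γ 1 0) j * (em (-(γ 1 1 / γ 1 0)) j + ζ j) + em (γ 1 1) j =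
      em (γ 1 0) j * ζ j := fun j => by
    have := em_ne hc j
    simp only [CM.em_apply, map_neg, map_div₀] at this ⊢
    field_simp
    ring
  have hden : ∀ j, H9.den (H9.H3.of (em (-(γ 1 1 / γ 1 0)) j + ζ j) (v j)) (em (γ 1 0) j)
      (em (γ 1 1) j) = Complex.normSq (em (γ 1 0) j) * (Complex.normSq (ζ j) + v j ^ 2) := fun j => by
    rw [H9.den, H9.H3.of_z, H9.H3.of_v (hv j), hlin, Complex.normSq_mul]
    ring
  refine HS.ext' ?_ ?_
  · rw [CM.pt_z]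
    funext j
    change ((cmK K).toP γ j • H9.H3.of (em (-(γ 1 1 / γ 1 0)) j + ζ j) (v j)).z = _
    rw [H9.z_smulC]
    change ((em (γ 0 0) j * _ + em (γ 0 1) j) * conj (em (γ 1 0) j * _ + em (γ 1 1) j) +
      em (γ 0 0) j * conj (em (γ 1 0) j) * _) / (H9.den _ (em (γ 1 0) j) (em (γ 1 1) j) : ℂ) = _
    rw [hden, H9.H3.of_z, H9.H3.of_v (hv j), hlin]
    have h1 := em_ne hc j
    have h2 : conj (em (γ 1 0) j) ≠ 0 := (map_ne_zero _).2 h1
    have h3 : ((Complex.normSq (ζ j) + v j ^ 2 : ℝ) : ℂ) ≠ 0 := by exact_mod_cast (hp j).ne'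
    have h4 : em (γ 0 0) j * em (γ 1 1) j - em (γ 0 1) j * em (γ 1 0) j = 1 := by
      have := congrArg ((cmK K).sig j) (KU.det_eq γ)
      simpa using this
    have h5 : ((Complex.normSq (ζ j) + v j ^ 2 : ℝ) : ℂ) = ζ j * conj (ζ j) + (v j : ℂ) ^ 2 := by
      rw [Complex.mul_conj]; push_cast; rfl
    have h6 : em (-(γ 1 1 / γ 1 0)) j = -(em (γ 1 1) j / em (γ 1 0) j) := by
      simp only [CM.em_apply, map_neg, map_div₀]
    have h7 : em (γ 0 0 / γ 1 0) j = em (γ 0 0) j / em (γ 1 0) j := by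
      simp only [CM.em_apply, map_div₀]
    rw [Complex.ofReal_mul, ← Complex.mul_conj, h6, h7, map_mul]
    field_simp
    rw [h5]
    linear_combination (-conj (ζ j)) * h4
  · rw [CM.pt_v _ _ fun j => div_pos (hv j) (mul_pos (hn j) (hp j))]
    funext j
    change ((cmK K).toP γ j • H9.H3.of (em (-(γ 1 1 / γ 1 0)) j + ζ j) (v j)).v = _
    rw [H9.v_smulC, H9.Q]
    change 1 / (H9.den _ (em (γ 1 0) j) (em (γ 1 1) j) / _) = _
    rw [hden, H9.H3.of_v (hv j), one_div_div]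

theorem alp_eq (x : K) : alp x = ∏ j, arg1 (em x j) := rfl

/-- the sign of the functional equation -/
noncomputable def zc (C : K) : ℂ := ∏ j, -(arg1 (em C j) ^ 2)

theorem norm_zc {C : K} (hC : C ≠ 0) : ‖zc C‖ = 1 := by
  rw [zc, norm_prod]
  exact Finset.prod_eq_one fun j _ => by rw [norm_neg, norm_pow, norm_arg1 (em_ne hC j), one_pow]

/-- **the kernel identity at a cusp** -/
theorem kfe {τ τ' : K → ℂ} {θ θ' : HK K → ℂ} {j j' : ℕ} (h : IsExp τ θ) (h' : IsExp τ' θ')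
    (E : Ex τ j) (E' : Ex τ' j') (γ : SL2 K) (hc : γ 1 0 ≠ 0) {κ : ℂ}
    (hγ : ∀ w, θ (γ • w) = κ * θ' w) (t : io K → ℝ) :
    ∑' ν, cf τ ν * alp ν * eT (ν * (γ 0 0 / γ 1 0)) * KK' (γ 1 0) ν t =
      κ * zc (γ 1 0) * (Complex.exp (-(ln t : ℂ)) *
        ∑' ν, cf τ' ν * conj (alp ν) * eT (-(ν * (γ 1 1 / γ 1 0))) * KK' (γ 1 0) ν (-t)) := by
  have h1 := kernel_fe (c1 := fun v => τ 0 * (WW (em (0 : K)) v : ℂ))
    (c2 := fun v => τ' 0 * (WW (em (0 : K)) v : ℂ)) E.sm E'.sm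
    (fun ν hν => em_ne (tz_ne hν)) (fun ν hν => em_ne (tz_ne hν)) (x := em (γ 0 0 / γ 1 0))
    (y := em (-(γ 1 1 / γ 1 0))) (em_ne hc) (κ := κ) (fun ζ v hv => by
      rw [← ser_eq h' _ hv, ← hγ, act_pt γ hc ζ hv, ser_eq h]
      intro j
      exact div_pos (hv j) (mul_pos (Complex.normSq_pos.2 (em_ne hc j))
        (add_pos_of_nonneg_of_pos (Complex.normSq_nonneg _) (pow_pos (hv j) 2)))) t
  have e1 : ∀ (σ : K → ℂ) (ν : K), tz σ ν * ∏ j, ((‖em ν j‖ ^ (1 / 3 : ℝ) : ℝ) : ℂ) = cf σ ν := by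
    intro σ ν
    by_cases hν : ν = 0
    · rw [hν, cf_zero, tz, if_pos rfl, zero_mul]
    · rw [tz_of_ne σ hν, cf, nm_rpow, Complex.ofReal_prod]
  simp only [Finset.prod_mul_distrib, prod_eT_em, ← map_prod, ← alp_eq, ← mul_assoc (tz _ _),
    e1, mul_neg] at h1
  exact h1

end Vale.Agent.P016Z.Vor
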