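import Vale.Agent.P016Z.Vor.Act

/-!
P016, block VOR: the kernel identity twisted by a sextic character modulo `h`; the dual twist is
the quadratic character modulo `h`.
-/

namespace Vale.Agent.P016Z.Vor

open NumberField Vale.Agent.P006 Vale.Agent.P016Z.TH Vale.Agent.P026Z.Vor
open scoped ComplexConjugate Real

set_option linter.unusedSectionVars false

variable {K : Type} [Field K] [NumberField K] [Dat K]

open Classical in
/-- the extension by zero of a function on `R` -/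
noncomputable def xt (F : R K → ℂ) (ν : K) : ℂ := if h : ν ∈ R K then F ⟨ν, h⟩ else 0

theorem xt_coe (F : R K → ℂ) (x : R K) : xt F (x : K) = F x := dif_pos x.2

theorem xt_of_not (F : R K → ℂ) {ν : K} (h : ν ∉ R K) : xt F ν = 0 := dif_neg h

theorem norm_xt_le {F : R K → ℂ} (h : ∀ x, ‖F x‖ ≤ 1) (ν : K) : ‖xt F ν‖ ≤ 1 := by
  by_cases hν : ν ∈ R K
  · exact (xt_coe F ⟨ν, hν⟩).symm ▸ h _
  · rw [xt_of_not F hν, norm_zero]; exact zero_le_one

theorem eT_add (x y : K) : eT (x + y) = eT x * eT y := by rw [eT, trR_add, ee_add]; rfl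

theorem norm_eT (x : K) : ‖eT x‖ = 1 := norm_ee _

theorem eT_of_int {x : K} (h : IsIntegral ℤ x) : eT x = 1 := by
  obtain ⟨n, hn⟩ := trR_int h
  rw [eT, hn, ee_int]

theorem eT_eq_psi {x : K} (h : V 0 x) : eT x = psi x := (psi_of_mem_Si (V_zero_iff.1 h)).symm

theorem norm_alp_le (x : K) : ‖alp x‖ ≤ 1 := by
  by_cases hx : x = 0
  · rw [hx, alp_zero, norm_zero]; exact zero_le_one
  · exact (norm_alp hx).le

theorem sum_eq_sum_units {A : Type} [CommRing A] [Fintype A] [Fintype Aˣ] (F : A → ℂ)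
    (hF : ∀ x, ¬ IsUnit x → F x = 0) : ∑ x : A, F x = ∑ u : Aˣ, F u := by
  refine (Finset.sum_of_injOn Units.val (Units.val_injective.injOn) (fun _ _ => Finset.mem_univ _)
    (fun x _ hx => hF x fun hu => hx ?_) fun _ _ => rfl).symm
  obtain ⟨u, rfl⟩ := hu
  exact ⟨u, Finset.mem_coe.2 (Finset.mem_univ _), rfl⟩

namespace SymV

variable {S : Sy K} {s6 : R K → R K → ℂ} (hs : SymV S s6) {h : R K} (h0 : h ≠ 0)

include hs h0

theorem zero {x : R K} (hx : ¬ IsCoprime x h) : s6 x h = 0 := by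
  have h1 := hs.sq x h h0
  rw [S.s_zero _ _ fun hc => hx (cop_iff.1 hc).2] at h1
  exact pow_eq_zero_iff two_ne_zero |>.1 h1

theorem one : s6 1 h = 1 := by
  have h1 := hs.mul_left 1 1 h h0
  have h2 := hs.pow_six 1 h h0 isCoprime_one_left
  rw [one_mul] at h1
  have h3 : s6 1 h ≠ 0 := by
    intro h4
    rw [h4] at h2
    simp at h2
  exact mul_left_cancel₀ h3 (by rw [← h1, mul_one])

theorem norm_eq {x : R K} (hx : IsCoprime x h) : ‖s6 x h‖ = 1 := by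
  have h1 := congrArg norm (hs.pow_six x h h0 hx)
  rw [norm_pow, norm_one] at h1
  exact (pow_eq_one_iff_of_nonneg (norm_nonneg _) (by norm_num)).1 h1

theorem norm_le (x : R K) : ‖s6 x h‖ ≤ 1 := by
  by_cases hx : IsCoprime x h
  · exact (hs.norm_eq h0 hx).le
  · rw [hs.zero h0 hx, norm_zero]; exact zero_le_one

theorem conj_cube (x : R K) : conj (s6 x h ^ 3) = s6 x h ^ 3 := by
  by_cases hx : IsCoprime x h
  · have h1 : (s6 x h ^ 3) ^ 2 = 1 := by rw [← pow_mul]; exact hs.pow_six x h h0 hx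
    rcases sq_eq_one_iff.1 h1 with h2 | h2 <;> rw [h2] <;> simp
  · rw [hs.zero h0 hx]; simp

theorem gauss_units (hh : Squarefree h) [Fintype (Rs h)ˣ] {dr : Rs h → R K}
    (hdr : ∀ x, rs h (dr x) = x) {j : ℕ} (hj : j = 1 ∨ j = 3) : ∃ G : ℂ, ‖G‖ ^ 2 = Nr h ∧
      ∀ y : R K, ∑ u : (Rs h)ˣ, s6 (dr u) h ^ j * E h (dr u * y) = conj (s6 y h ^ j) * G := by
  obtain ⟨G, hG, h1⟩ := hs.gauss h hh j hj
  have := finite_Rs h0
  have := Fintype.ofFinite (Rs h)
  refine ⟨G, hG, fun y => ?_⟩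
  have hp := ((hs.per h h0).pow j).mul (E_per h0 y)
  rw [← h1 y, rsum_eq_sum,
    ← sum_eq_sum_units (fun x : Rs h => s6 (dr x) h ^ j * E h (dr x * y)) fun x hx => ?_]
  · exact Finset.sum_congr rfl fun x _ => hp _ _ (by rw [← rs_eq, hdr, rs_out])
  · rw [hs.zero h0 fun hc => hx (hdr x ▸ isUnit_rs_iff.2 hc), zero_pow (by omega), zero_mul]

end SymV

/-- the coefficients on the side of the cusp at infinity -/
noncomputable def aa (τ : K → ℂ) (x ν : K) : ℂ := cf τ ν * alp ν * eT (ν * x)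

/-- the dual coefficients -/
noncomputable def bb (τ : K → ℂ) (x ν : K) : ℂ := cf τ ν * conj (alp ν) * eT (-(ν * x))

theorem norm_aa_le (τ : K → ℂ) (x ν : K) : ‖aa τ x ν‖ ≤ ‖cf τ ν‖ := by
  rw [aa, norm_mul, norm_mul, norm_eT, mul_one]
  exact mul_le_of_le_one_right (norm_nonneg _) (norm_alp_le ν)

theorem norm_bb_le (τ : K → ℂ) (x ν : K) : ‖bb τ x ν‖ ≤ ‖cf τ ν‖ := by
  rw [bb, norm_mul, norm_mul, norm_eT, mul_one, Complex.norm_conj]
  exact mul_le_of_le_one_right (norm_nonneg _) (norm_alp_le ν)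

theorem aa_add (τ : K → ℂ) (x y ν : K) : aa τ (x + y) ν = aa τ x ν * eT (ν * y) := by
  rw [aa, aa, mul_add, eT_add]; ring

theorem bb_add (τ : K → ℂ) (x y ν : K) : bb τ (x + y) ν = bb τ x ν * eT (-(ν * y)) := by
  rw [bb, bb, mul_add, neg_add, eT_add]; ring

/-- **the twisted kernel identity** -/
theorem core {S : Sy K} {s6 : R K → R K → ℂ} (hs : SymV S s6) {θ : HK K → ℂ} {M : ℕ} (hM : 1 ≤ M)
    (haut : ∀ γ ∈ Gam K M, ∀ w, θ (γ • w) = conj (S.kub γ) * θ w) {τ τ' : K → ℂ} {j : ℕ}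
    (hτ : IsExp τ θ) (E1 : Ex τ j) {l i : ℕ} {n N : ℤ} (hn : (M : ℤ) + 1 + 2 * l ≤ n)
    (hN : n + 2 * i ≤ N) (hNj : (j : ℤ) + 1 + i ≤ N) {s φ A0 : K} (hsR : s ∈ R K)
    (hsV : V (-(l : ℤ)) s) (hφ : φ ≠ 0) (g0 : cm s A0 A0 hφ ∈ SLr K) (hA0 : V (n + i) A0)
    (φ1 : V (-(i : ℤ)) φ) (φ2 : V (-(i : ℤ)) φ⁻¹)
    (hτ' : IsExp τ' fun w => θ (cm s A0 A0 hφ • w)) (E2 : Ex τ' j) {c h a d : R K} (hc : c ≠ 0)
    (hh : Squarefree h) (had : c ∣ a * h ^ 2 * d - 1) (ha : V N (a : K)) (hd : V N (d : K))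
    (c1 : V (-(i : ℤ)) (c : K)) (h1 : V (-(i : ℤ)) (h : K)) (h2 : V (-(i : ℤ)) (h : K)⁻¹)
    (hy : V n ((c : K) * h / φ - 1)) :
    ∃ z : ℂ, ‖z‖ = 1 ∧ ∀ t,
      ∑' ν, aa τ (s + a / c) ν * conj (xt (fun x => s6 x h) ν) * KK' ((c : K) * h) ν t =
        Complex.exp (-(ln t : ℂ)) *
          ∑' ν, z * (bb τ' (d / c) ν * xt (fun x => s6 x h ^ 3) ν) * KK' ((c : K) * h) ν (-t) := by
  classical
  have h0 : h ≠ 0 := hh.ne_zero
  have hcK := coe_ne_zero hc
  have hhK := coe_ne_zero h0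
  have hC : (c : K) * h ≠ 0 := mul_ne_zero hcK hhK
  have hcop : IsCoprime c h := by
    obtain ⟨t, ht⟩ := had
    exact ⟨-t, a * h * d, by linear_combination ht⟩
  have := finite_Rs h0
  have := Fintype.ofFinite (Rs h)ˣ
  choose dr0 hdr0 hdrV using fun x : R K => exists_deep x h h0 N
  set dr : Rs h → R K := fun x => dr0 x.out with hdrdef
  have hdr : ∀ x, rs h (dr x) = x := fun x => (rs_eq.2 (hdr0 _)).trans (rs_out x)
  have hdV : ∀ x, V N (dr x : K) := fun x => hdrV _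
  have hcu : ∀ u : (Rs h)ˣ, IsCoprime (dr u) h := fun u =>
    isUnit_rs_iff.1 (by rw [hdr]; exact u.isUnit)
  obtain ⟨Cu, hCu⟩ := isUnit_rs_iff.2 (hcop.pow_left (m := 2))
  set ι : (Rs h)ˣ ≃ (Rs h)ˣ := (Equiv.inv _).trans (Equiv.mulRight Cu⁻¹) with hι
  have hι1 : ∀ u : (Rs h)ˣ, h ∣ c ^ 2 * dr u * dr (ι u) - 1 := by
    intro u
    rw [← rs_eq, map_mul, map_mul, hdr, hdr, ← hCu, map_one, ← Units.val_mul,
      ← Units.val_mul, Units.val_eq_one]
    simp only [hι, Equiv.trans_apply, Equiv.inv_apply, Equiv.coe_mulRight]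
    rw [mul_assoc, mul_inv_cancel_left, mul_inv_cancel]
  -- the matrices
  set A : (Rs h)ˣ → R K := fun u => a * h + dr u * c with hA
  set D : (Rs h)ˣ → R K := fun u => d * h + dr (ι u) * c with hD
  have hcAD : ∀ u u', c ∣ A u * D u' - 1 := fun u u' => by
    obtain ⟨t, ht⟩ := had
    exact ⟨t + a * h * dr (ι u') + dr u * D u', by simp only [hA, hD]; linear_combination ht⟩
  have hhAD : ∀ u u', h ∣ A u * D u' - c ^ 2 * dr u * dr (ι u') := fun u u' =>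
    ⟨a * D u' + dr u * c * d, by simp only [hA, hD]; ring⟩
  have hdvd : ∀ u, c * h ∣ A u * D u - 1 := fun u => hcop.mul_dvd (hcAD u u) (by
    have := dvd_add (hhAD u u) (hι1 u)
    rwa [sub_add_sub_cancel] at this)
  have hAV : ∀ u, V (n + i) (A u : K) := fun u => by
    simp only [hA]; push_cast
    exact (ha.mul' h1 (by omega)).add ((hdV _).mul' c1 (by omega))
  have hDV : ∀ u, V (n + i) (D u : K) := fun u => by
    simp only [hD]; push_cast
    exact (hd.mul' h1 (by omega)).add ((hdV _).mul' c1 (by omega))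
  set γ : (Rs h)ˣ → SL2 K := fun u => cm s (A u) (D u) hC with hγ
  have hγR : ∀ u, γ u ∈ SLr K := fun u =>
    cm_mem hC hsR (A u).2 (D u).2 (mul_mem c.2 h.2) (by
      simpa using (dvd_iff_div_mem (mul_ne_zero hc h0)).1 (hdvd u))
  have y0 := hy.of_sub_one (by omega)
  obtain ⟨y1, y2⟩ := hy.inv_of_sub_one (by omega)
  have C1 : V (-(i : ℤ)) ((c : K) * h) := by
    have := φ1.mul' y0 (l := -(i : ℤ)) (by omega)
    rwa [mul_div_cancel₀ _ hφ] at this
  have C2 : V (-(i : ℤ)) ((c : K) * h)⁻¹ := by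
    have := φ2.mul' y1 (l := -(i : ℤ)) (by omega)
    rwa [← mul_inv, mul_div_cancel₀ _ hφ] at this
  have m0 : γ 1 * (cm s A0 A0 hφ)⁻¹ ∈ Gam K M :=
    cm_close hn hC hφ (hγR 1) g0 hsV φ1 φ2 hy (hAV 1) (hDV 1) hA0 hA0
  have m1 : ∀ u, γ u * (γ 1)⁻¹ ∈ Gam K M := fun u =>
    cm_close hn hC hC (hγR u) (hγR 1) hsV C1 C2 (by rw [div_self hC, sub_self]; exact V_zero n)
      (hAV u) (hDV u) (hAV 1) (hDV 1)
  set κ0 : ℂ := conj (S.kub (γ 1 * (cm s A0 A0 hφ)⁻¹)) with hκ0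
  have hκ : ‖κ0‖ = 1 := by rw [hκ0, Complex.norm_conj, norm_kub S m0]
  have hkub : ∀ u : (Rs h)ˣ, conj (S.kub (γ u * (γ 1)⁻¹)) = s6 (dr u) h ^ 2 := by
    intro u
    rw [kub_same S hM (hγR u) (hγR 1) (m1 u) rfl hC]
    change conj (S.s (((A 1 : K) + s * (c * h)) * D u) (c * h)) = _
    have e1 : S.s (((A 1 : K) + s * (c * h)) * D u) (c * h) = S.s ((A 1 * D u : R K) : K) (c * h) :=
      s_congr S hC (by
        have : (((A 1 : K) + s * (c * h)) * D u - (A 1 * D u : R K)) / (c * h) = s * D u := by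
          push_cast; field_simp; ring
        rw [this]; exact mul_mem hsR (D u).2)
    have e2 : S.s ((A 1 * D u : R K) : K) c = 1 := by
      rw [s_congr S hcK (x' := 1) (by simpa using (dvd_iff_div_mem hc).1 (hcAD 1 u)),
        s_one S c.2 hcK]
    have e3 : s6 (A 1 * D u) h * s6 (dr u) h = 1 := by
      rw [← hs.mul_left _ _ _ h0, ← hs.one h0]
      refine hs.per h h0 _ _ ?_
      have p1 := (hhAD 1 u).mul_right (dr u)
      have p2 : h ∣ dr (1 : (Rs h)ˣ) - 1 := by rw [← rs_eq, hdr, map_one]; rfl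
      have := dvd_add (dvd_add p1 (p2.mul_right (c ^ 2 * dr u * dr (ι u)))) (hι1 u)
      convert this using 1
      ring
    have e4 : conj (s6 (dr u) h) * s6 (dr u) h = 1 := by
      rw [Complex.conj_mul', hs.norm_eq h0 (hcu u)]; simp
    have e5 : s6 (A 1 * D u) h = conj (s6 (dr u) h) := by
      linear_combination conj (s6 (dr u) h) * e3 - s6 (A 1 * D u) h * e4
    rw [e1, S.s_mul_right _ _ _ c.2 h.2, e2, one_mul, ← hs.sq _ _ h0, e5, map_pow,
      Complex.conj_conj]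
  -- the formula at one cusp
  have hone : ∀ (u : (Rs h)ˣ) (t : io K → ℝ),
      ∑' ν, aa τ (s + a / c) ν * eT (ν * (dr u / h)) * KK' ((c : K) * h) ν t =
        s6 (dr u) h ^ 2 * κ0 * zc ((c : K) * h) * (Complex.exp (-(ln t : ℂ)) *
          ∑' ν, bb τ' (d / c) ν * eT (-(ν * (dr (ι u) / h))) * KK' ((c : K) * h) ν (-t)) := by
    intro u t
    have h4 := kfe hτ hτ' E1 E2 (γ u) hC (κ := s6 (dr u) h ^ 2 * κ0) (fun w => by
      have e : γ u • w = (γ u * (γ 1)⁻¹) • (γ 1 * (cm s A0 A0 hφ)⁻¹) • cm s A0 A0 hφ • w := by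
        rw [← mul_smul, ← mul_smul]; congr 1; group
      rw [e, haut _ (m1 u), haut _ m0, hkub, mul_assoc]) t
    have e1 : γ u 0 0 / γ u 1 0 = s + a / c + dr u / h := by
      change ((A u : K) + s * (c * h)) / (c * h) = _
      simp only [hA]; push_cast; field_simp; ring
    have e2 : γ u 1 1 / γ u 1 0 = d / c + dr (ι u) / h := by
      change (D u : K) / (c * h) = _
      simp only [hD]; push_cast; field_simp
    rw [e1, e2] at h4
    simp only [← aa_add, ← bb_add]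
    exact h4
  -- the Gauss sums
  obtain ⟨G1, hG1, g1⟩ := hs.gauss_units h0 hh hdr (Or.inl rfl)
  obtain ⟨G3, hG3, g3⟩ := hs.gauss_units h0 hh hdr (Or.inr rfl)
  have hG10 : G1 ≠ 0 := by
    intro h4
    rw [h4, norm_zero] at hG1
    have : (0 : ℝ) < Nr h := by exact_mod_cast Nr_pos h0
    linarith
  have hE : ∀ (x : Rs h) (ν : R K), V (-((j : ℤ) + 1)) (ν : K) →
      eT ((ν : K) * (dr x / h)) = E h (dr x * ν) := fun x ν hν => by
    rw [eT_eq_psi (by rw [div_eq_mul_inv]; exact hν.mul' ((hdV x).mul h2) (by omega)), E]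
    congr 1; push_cast; ring
  have s1 : ∀ ν, aa τ (s + a / c) ν * conj (xt (fun x => s6 x h) ν) * G1 =
      ∑ u : (Rs h)ˣ, s6 (dr u) h * (aa τ (s + a / c) ν * eT (ν * (dr u / h))) := by
    intro ν
    by_cases hν : cf τ ν = 0
    · simp [aa, hν]
    have h5 := (E1.cf_supp hν).2
    obtain ⟨ν, rfl⟩ : ∃ x : R K, (x : K) = ν := ⟨⟨ν, mem_R_of_lv h5⟩, rfl⟩
    have h6 := g1 ν
    simp only [pow_one] at h6
    rw [xt_coe, mul_assoc, ← h6, Finset.mul_sum]
    exact Finset.sum_congr rfl fun u _ => by rw [hE _ _ (V_of_lv h5)]; ring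
  have hρ : ∀ u : (Rs h)ˣ, s6 (dr u) h ^ 3 = s6 (dr (ι u)) h ^ 3 := by
    intro u
    have e1 : s6 c h * s6 c h * s6 (dr u) h * s6 (dr (ι u)) h = 1 := by
      rw [← hs.mul_left _ _ _ h0, ← hs.mul_left _ _ _ h0, ← hs.mul_left _ _ _ h0, ← hs.one h0,
        ← sq]
      exact hs.per h h0 _ _ (hι1 u)
    have e2 := hs.pow_six c h h0 hcop
    have e3 := hs.pow_six _ h h0 (hcu (ι u))
    have e4 : (s6 c h * s6 c h * s6 (dr u) h * s6 (dr (ι u)) h) ^ 3 = 1 := by rw [e1, one_pow]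
    linear_combination s6 (dr (ι u)) h ^ 3 * e4 -
      s6 (dr u) h ^ 3 * s6 (dr (ι u)) h ^ 6 * e2 - s6 (dr u) h ^ 3 * e3
  have s3 : ∀ ν, bb τ' (d / c) ν * xt (fun x => s6 x h ^ 3) ν * (s6 (-1) h ^ 3 * G3) =
      ∑ u : (Rs h)ˣ, s6 (dr u) h ^ 3 * (bb τ' (d / c) ν * eT (-(ν * (dr (ι u) / h)))) := by
    intro ν
    by_cases hν : cf τ' ν = 0
    · simp [bb, hν]
    have h5 := (E2.cf_supp hν).2
    obtain ⟨ν, rfl⟩ : ∃ x : R K, (x : K) = ν := ⟨⟨ν, mem_R_of_lv h5⟩, rfl⟩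
    have h6 := g3 (-ν)
    rw [← ι.sum_comp, hs.conj_cube h0, ← neg_one_mul, hs.mul_left _ _ _ h0, mul_pow] at h6
    rw [xt_coe, mul_assoc, ← mul_assoc (s6 ν h ^ 3), mul_comm (s6 ν h ^ 3), ← h6, Finset.mul_sum]
    refine Finset.sum_congr rfl fun u _ => ?_
    rw [hρ u, neg_one_mul, ← hE _ _ (V_of_lv h5).neg]
    push_cast
    rw [neg_mul]
    ring
  refine ⟨κ0 * zc ((c : K) * h) * (s6 (-1) h ^ 3 * G3) / G1, ?_, fun t => ?_⟩
  · have e1 : ‖G3‖ = ‖G1‖ :=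
      (pow_left_inj₀ (norm_nonneg _) (norm_nonneg _) two_ne_zero).1 (hG3.trans hG1.symm)
    rw [norm_div, norm_mul, norm_mul, norm_mul, hκ, norm_zc hC, norm_pow,
      hs.norm_eq h0 isCoprime_one_left.neg_left, e1]
    simp [hG10]
  have S1 : ∀ x : K, Summable fun ν => aa τ (s + a / c) ν * eT (ν * x) * KK' ((c : K) * h) ν t :=
    fun x => E1.summable (fun ν => by rw [← aa_add]; exact norm_aa_le _ _ _) hC t
  have S2 : ∀ x : K, Summable fun ν => bb τ' (d / c) ν * eT (-(ν * x)) *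
      KK' ((c : K) * h) ν (-t) :=
    fun x => E2.summable (fun ν => by rw [← bb_add]; exact norm_bb_le _ _ _) hC (-t)
  have hL : G1 * ∑' ν, aa τ (s + a / c) ν * conj (xt (fun x => s6 x h) ν) *
      KK' ((c : K) * h) ν t = ∑ u : (Rs h)ˣ, s6 (dr u) h *
        ∑' ν, aa τ (s + a / c) ν * eT (ν * (dr u / h)) * KK' ((c : K) * h) ν t := by
    simp only [← tsum_mul_left]
    rw [← Summable.tsum_finsetSum fun u _ => (S1 _).mul_left _]
    refine tsum_congr fun ν => ?_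
    rw [← mul_assoc, mul_comm G1, s1, Finset.sum_mul]
    exact Finset.sum_congr rfl fun u _ => mul_assoc _ _ _
  have hR : s6 (-1) h ^ 3 * G3 * ∑' ν, bb τ' (d / c) ν * xt (fun x => s6 x h ^ 3) ν *
      KK' ((c : K) * h) ν (-t) = ∑ u : (Rs h)ˣ, s6 (dr u) h ^ 3 *
        ∑' ν, bb τ' (d / c) ν * eT (-(ν * (dr (ι u) / h))) * KK' ((c : K) * h) ν (-t) := by
    simp only [← tsum_mul_left]
    rw [← Summable.tsum_finsetSum fun u _ => (S2 _).mul_left _]
    refine tsum_congr fun ν => ?_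
    rw [← mul_assoc, mul_comm (s6 (-1) h ^ 3 * G3), s3, Finset.sum_mul]
    exact Finset.sum_congr rfl fun u _ => mul_assoc _ _ _
  refine mul_left_cancel₀ hG10 ?_
  simp only [mul_assoc (κ0 * zc ((c : K) * h) * (s6 (-1) h ^ 3 * G3) / G1), tsum_mul_left]
  rw [hL]
  simp only [hone]
  have e : ∀ x y : ℂ, G1 * (x * (κ0 * zc ((c : K) * h) * (s6 (-1) h ^ 3 * G3) / G1 * y)) =
      κ0 * zc ((c : K) * h) * x * (s6 (-1) h ^ 3 * G3 * y) := fun x y => by field_simp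
  rw [e, hR, Finset.mul_sum]
  exact Finset.sum_congr rfl fun u _ => by ring

end Vale.Agent.P016Z.Vor
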