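import Vale.Agent.P016Z.Vor.Defs

/-!
P016, block VOR: divisibility at the primes dividing `Q`, the matrices attached to the cusps and
their Kubota symbols.
-/

namespace Vale.Agent.P016Z.Vor

open NumberField Vale.Agent.P006 Vale.Agent.P016Z.TH
open scoped ComplexConjugate

set_option linter.unusedSectionVars false

variable {K : Type} [Field K] [NumberField K] [Dat K]

/-- `x` is divisible by `Q^n` at the primes dividing `Q` -/
def V (n : ℤ) (x : K) : Prop := x / (Q K : K) ^ n ∈ Si K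

theorem V_zero_iff {x : K} : V 0 x ↔ x ∈ Si K := by rw [V, zpow_zero, div_one]

theorem V_nat_iff {n : ℕ} {x : K} : V (n : ℤ) x ↔ x / (Q K : K) ^ n ∈ Si K := by
  rw [V, zpow_natCast]

theorem V_neg_iff {n : ℕ} {x : K} : V (-(n : ℤ)) x ↔ (Q K : K) ^ n * x ∈ Si K := by
  rw [V, zpow_neg, zpow_natCast, div_inv_eq_mul, mul_comm]

theorem V_lv_iff {k : ℕ} {x : K} : V ((k : ℤ) + 1) x ↔ x / TH.lv K k ∈ Si K := by
  rw [TH.lv, ← V_nat_iff]; push_cast; rfl

theorem V_neg_lv_iff {k : ℕ} {x : K} : V (-((k : ℤ) + 1)) x ↔ TH.lv K k * x ∈ Si K := by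
  rw [TH.lv, ← V_neg_iff]; push_cast; rfl

theorem V.mul {n m : ℤ} {x y : K} (hx : V n x) (hy : V m y) : V (n + m) (x * y) := by
  have := mul_mem hx hy
  rwa [div_mul_div_comm, ← zpow_add₀ (QK_ne K)] at this

theorem V.add {n : ℤ} {x y : K} (hx : V n x) (hy : V n y) : V n (x + y) := by
  rw [V, add_div]; exact add_mem hx hy

theorem V.neg {n : ℤ} {x : K} (hx : V n x) : V n (-x) := by
  rw [V, neg_div]; exact neg_mem hx

theorem V.sub {n : ℤ} {x y : K} (hx : V n x) (hy : V n y) : V n (x - y) := by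
  rw [sub_eq_add_neg]; exact hx.add hy.neg

theorem V_zero (n : ℤ) : V n (0 : K) := by rw [V, zero_div]; exact zero_mem _

theorem V_one : V 0 (1 : K) := V_zero_iff.2 (one_mem _)

theorem V.mono {n m : ℤ} {x : K} (hx : V n x) (h : m ≤ n) : V m x := by
  obtain ⟨d, hd⟩ := Int.eq_ofNat_of_zero_le (sub_nonneg.2 h)
  have hQ := QK_ne K
  have e : x / (Q K : K) ^ m = (Q K : K) ^ d * (x / (Q K : K) ^ n) := by
    rw [show n = m + d by omega, zpow_add₀ hQ, zpow_natCast]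
    field_simp
  rw [V, e]
  exact mul_mem (pow_mem (natCast_mem _ _) d) hx

theorem V.mul' {n m l : ℤ} {x y : K} (hx : V n x) (hy : V m y) (h : l ≤ n + m) : V l (x * y) :=
  (hx.mul hy).mono h

theorem exists_V (x : K) : ∃ i : ℕ, V (-(i : ℤ)) x := by
  obtain ⟨k, hk⟩ := exists_pow_mul_mem_Si x
  exact ⟨k, V_neg_iff.2 hk⟩

theorem exists_V_finset (T : Finset K) :
    ∃ i : ℕ, ∀ x ∈ T, V (-(i : ℤ)) x ∧ V (-(i : ℤ)) x⁻¹ := by
  classical
  induction T using Finset.induction_on with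
  | empty => exact ⟨0, by simp⟩
  | insert a T _ ih =>
    obtain ⟨i, hi⟩ := ih
    obtain ⟨j, hj⟩ := exists_V a
    obtain ⟨l, hl⟩ := exists_V a⁻¹
    refine ⟨i + j + l, fun x hx => ?_⟩
    rcases Finset.mem_insert.1 hx with rfl | hx
    · exact ⟨hj.mono (by omega), hl.mono (by omega)⟩
    · exact ⟨(hi x hx).1.mono (by omega), (hi x hx).2.mono (by omega)⟩

theorem V.of_sub_one {n : ℤ} {y : K} (h : V n (y - 1)) (hn : 0 ≤ n) : V 0 y := by
  simpa using (h.mono hn).add V_one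

theorem V.inv_of_sub_one {n : ℤ} {y : K} (h : V n (y - 1)) (hn : 1 ≤ n) : V 0 y⁻¹ ∧ y ≠ 0 := by
  have h1 := h.mono hn
  rw [V, zpow_one] at h1
  exact ⟨V_zero_iff.2 (inv_mem_Si_of_sub_one h1).1, (inv_mem_Si_of_sub_one h1).2⟩

theorem V.inv_sub_one {n : ℤ} {y : K} (h : V n (y - 1)) (hn : 1 ≤ n) : V n (y⁻¹ - 1) := by
  obtain ⟨h1, h2⟩ := h.inv_of_sub_one hn
  have e : y⁻¹ - 1 = -(y⁻¹ * (y - 1)) := by field_simp; ring
  rw [e]
  exact (h1.mul' h (by omega)).neg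

theorem V.mul_sub_one {n : ℤ} {x y : K} (hx : V n (x - 1)) (hy : V n (y - 1)) (hn : 0 ≤ n) :
    V n (x * y - 1) := by
  have e : x * y - 1 = x * (y - 1) + (x - 1) := by ring
  rw [e]
  exact ((hx.of_sub_one hn).mul' hy (by omega)).add hx

theorem mem_P_iff {k : ℕ} {y : Kˣ} : y ∈ P K k ↔ V ((k : ℤ) + 1) ((y : K) - 1) := V_lv_iff.symm

theorem V.isIntegral {x : K} (h : V 0 x) (hx : x ∈ R K) : IsIntegral ℤ x :=
  isIntegral_of_mem hx (V_zero_iff.1 h)

theorem V.mem_Lat {k : ℕ} {x : K} (h : V ((k : ℤ) + 1) x) (hx : x ∈ R K) : x ∈ TH.Lat (TH.lv K k) :=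
  isIntegral_of_mem (div_Q_pow_mem_R hx _) (V_lv_iff.1 h)

theorem V_of_mem_Lat {k : ℕ} {x : K} (h : x ∈ TH.Lat (TH.lv K k)) : V ((k : ℤ) + 1) x :=
  V_lv_iff.2 (mem_Si_of_isIntegral h)

theorem V_of_lv {k : ℕ} {x : K} (h : IsIntegral ℤ (TH.lv K k * x)) : V (-((k : ℤ) + 1)) x :=
  V_neg_lv_iff.2 (mem_Si_of_isIntegral h)

theorem mem_R_of_lv {k : ℕ} {x : K} (h : IsIntegral ℤ (TH.lv K k * x)) : x ∈ R K := mem_R.2 ⟨_, h⟩

theorem isIntegral_lv_of {k : ℕ} {x : K} (hx : x ∈ R K) (h : V (-((k : ℤ) + 1)) x) :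
    IsIntegral ℤ (TH.lv K k * x) :=
  isIntegral_of_mem (mul_mem (pow_mem (natCast_mem _ _) _) hx) (V_neg_lv_iff.1 h)

/-- deep representatives of the residue classes -/
theorem exists_deep (a n : R K) (hn : n ≠ 0) (N : ℤ) : ∃ y : R K, n ∣ y - a ∧ V N (y : K) := by
  obtain ⟨y, h1, h2⟩ := exists_R_near_mod a n hn 0 (c := (Q K : K) ^ N) (zpow_ne_zero _ (QK_ne K))
  exact ⟨y, h1, by rwa [sub_zero] at h2⟩

/-! ### the cubic symbol -/

theorem cop_iff {x y : R K} : Cop (x : K) (y : K) ↔ y ≠ 0 ∧ IsCoprime x y := by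
  constructor
  · rintro ⟨-, -, h0, a, ha, b, hb, h⟩
    exact ⟨fun h1 => h0 (by rw [h1]; rfl), ⟨a, ha⟩, ⟨b, hb⟩, Subtype.ext h⟩
  · rintro ⟨h0, a, b, h⟩
    exact ⟨x.2, y.2, coe_ne_zero h0, a, a.2, b, b.2, congrArg (fun t : R K => (t : K)) h⟩

section sy

variable (S : Sy K)

theorem s_one {y : K} (hy : y ∈ R K) (h0 : y ≠ 0) : S.s 1 y = 1 := by
  have h1 := S.s_mul_left 1 1 y (one_mem _) (one_mem _)
  have h2 := S.s_cube 1 y ⟨one_mem _, hy, h0, 1, one_mem _, 0, zero_mem _, by simp⟩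
  rw [one_mul] at h1
  linear_combination h2 + (S.s 1 y + 1) * h1

theorem s_neg {x y : K} (hx : x ∈ R K) (hy : y ∈ R K) (h0 : y ≠ 0) : S.s (-x) y = S.s x y := by
  have hm : (-1 : K) ∈ R K := neg_mem (one_mem _)
  have h1 := S.s_mul_left (-1) (-1) y hm hm
  have h2 := S.s_cube (-1) y ⟨hm, hy, h0, -1, hm, 0, zero_mem _, by simp⟩
  rw [neg_mul_neg, one_mul, s_one S hy h0] at h1
  have h3 : S.s (-1) y = 1 := by linear_combination h2 + S.s (-1) y * h1
  rw [← neg_one_mul, S.s_mul_left _ _ _ hm hx, h3, one_mul]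

theorem s_congr {x x' y : K} (h0 : y ≠ 0) (h : (x - x') / y ∈ R K) : S.s x y = S.s x' y := by
  rw [← S.s_add x' y _ h]
  congr 1
  field_simp
  ring

theorem norm_s {x y : K} (h : Cop x y) : ‖S.s x y‖ = 1 := by
  have h1 := congrArg norm (S.s_cube x y h)
  rw [norm_pow, norm_one] at h1
  exact (pow_eq_one_iff_of_nonneg (norm_nonneg _) (by norm_num)).1 h1

theorem s_law {x y : K} (h : Cop x y) (hx : x ≠ 0) (hy : V 2 (y - 1)) : S.s x y = S.s y x := by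
  rw [S.recip x y h hx, S.h_one x y hx (V_lv_iff.1 hy), one_mul]

theorem cop_row {g : SL2 K} (hg : g ∈ SLr K) (h0 : g 1 1 ≠ 0) : Cop (g 1 0) (g 1 1) :=
  ⟨hg.2.2.1, hg.2.2.2, h0, -g 0 1, neg_mem hg.2.1, g 0 0, hg.1, by
    linear_combination KU.det_eq g⟩

theorem norm_kub {M : ℕ} {g : SL2 K} (hg : g ∈ Gam K M) : ‖S.kub g‖ = 1 :=
  norm_s S (cop_row (SLO_le_SLr (Gam_le_SLO M hg))
    ((V_of_mem_Lat hg.2.2.2).inv_of_sub_one (by omega)).2)

/-- the Kubota symbol of the quotient of two matrices with the same lower left entry -/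
theorem kub_same {M : ℕ} (hM : 1 ≤ M) {g g' : SL2 K} (hg : g ∈ SLr K) (hg' : g' ∈ SLr K)
    (h : g * g'⁻¹ ∈ Gam K M) (hc : g 1 0 = g' 1 0) (h0 : g' 1 0 ≠ 0) :
    S.kub (g * g'⁻¹) = S.s (g' 0 0 * g 1 1) (g' 1 0) := by
  have hdet := KU.det_eq g'
  have hV : V 2 ((g * g'⁻¹) 1 1 - 1) := (V_of_mem_Lat h.2.2.2).mono (by omega)
  have hne := (hV.inv_of_sub_one (by omega)).2
  have hR := SLO_le_SLr (Gam_le_SLO M h)
  obtain ⟨a1, a2, a3, a4⟩ := hg'
  have b4 := hg.2.2.2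
  set e : K := g 1 1 - g' 1 1 with he
  have heR : e ∈ R K := sub_mem b4 a4
  have e1 : (g * g'⁻¹) 1 0 = -(g' 1 0 * e) := by
    rw [KU.mul_10, KU.inv_00, KU.inv_10, hc, he]; ring
  have e2 : (g * g'⁻¹) 1 1 = 1 + g' 0 0 * e := by
    rw [KU.mul_11, KU.inv_01, KU.inv_11, hc, he]; linear_combination hdet
  have hdR := hR.2.2.2
  rw [Sy.kub, e1]
  rw [e2] at hV hne hdR ⊢
  have h1 : S.s e (1 + g' 0 0 * e) = 1 := by
    by_cases he0 : e = 0
    · rw [he0, mul_zero, add_zero, s_congr S one_ne_zero (x' := 1) (by simp),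
        s_one S (one_mem _) one_ne_zero]
    · rw [s_law S ⟨heR, hdR, hne, -g' 0 0, neg_mem a1, 1, one_mem _, by ring⟩ he0 hV,
        s_congr S he0 (x' := 1) (by
          rw [add_sub_cancel_left, mul_div_cancel_right₀ _ he0]; exact a1), s_one S heR he0]
  have h2 : S.s (g' 1 0) (1 + g' 0 0 * e) = S.s (g' 0 0 * g 1 1) (g' 1 0) := by
    have hcop := cop_row hR (by rwa [e2])
    rw [e1, e2] at hcop
    obtain ⟨-, -, -, a, ha, b, hb, hab⟩ := hcop
    rw [s_law S ⟨a3, hdR, hne, -(a * e), neg_mem (mul_mem ha heR), b, hb, by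
      linear_combination hab⟩ h0 hV]
    refine s_congr S h0 ?_
    have : (1 + g' 0 0 * e - g' 0 0 * g 1 1) / g' 1 0 = -g' 0 1 := by
      rw [div_eq_iff h0, he]; linear_combination -hdet
    rw [this]
    exact neg_mem a2
  rw [s_neg S (mul_mem a3 heR) hdR hne, S.s_mul_left _ _ _ a3 heR, h1, h2, mul_one]

end sy

/-! ### matrices -/

/-- the matrix with lower row `C, D` which maps infinity to `s + A / C` -/
noncomputable def cm (s A D : K) {C : K} (hC : C ≠ 0) : SL2 K :=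
  KU.mk2 (A + s * C) ((A * D - 1) / C + s * D) C D (by field_simp; ring)

theorem cm_mem {s A D C : K} (hC : C ≠ 0) (hs : s ∈ R K) (hA : A ∈ R K) (hD : D ∈ R K)
    (hCR : C ∈ R K) (h : (A * D - 1) / C ∈ R K) : cm s A D hC ∈ SLr K :=
  ⟨add_mem hA (mul_mem hs hCR), add_mem h (mul_mem hs hD), hCR, hD⟩

/-- two cusp matrices which are close at the primes dividing `Q` -/
theorem cm_close {M i l : ℕ} {n : ℤ} (hn : (M : ℤ) + 1 + 2 * l ≤ n) {s A D C A' D' C' : K}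
    (hC : C ≠ 0) (hC' : C' ≠ 0) (h : cm s A D hC ∈ SLr K) (h' : cm s A' D' hC' ∈ SLr K)
    (hs : V (-(l : ℤ)) s) (h1 : V (-(i : ℤ)) C') (h2 : V (-(i : ℤ)) C'⁻¹) (hy : V n (C / C' - 1))
    (hA : V (n + i) A) (hD : V (n + i) D) (hA' : V (n + i) A') (hD' : V (n + i) D') :
    cm s A D hC * (cm s A' D' hC')⁻¹ ∈ Gam K M := by
  have hR := mul_mem h (inv_mem h')
  set y : K := C / C' with hydef
  have hCy : C = C' * y := by rw [hydef]; field_simp
  have y0 := hy.of_sub_one (by omega)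
  obtain ⟨y1, y2⟩ := hy.inv_of_sub_one (by omega)
  have y3 := hy.inv_sub_one (by omega)
  have hB' : V (-(i : ℤ)) ((A' * D' - 1) * C'⁻¹) :=
    ((hA'.mul' hD' (by omega)).sub V_one).mul' h2 (by omega)
  have hB : V (-(i : ℤ)) ((A * D - 1) * C'⁻¹ * y⁻¹) :=
    (((hA.mul' hD (l := 0) (by omega)).sub V_one).mul h2).mul' y1 (by omega)
  have e1 : V n (A * D' - A * D * y⁻¹ + (y⁻¹ - 1)) :=
    ((hA.mul' hD' (by omega)).sub ((hA.mul hD).mul' y1 (by omega))).add y3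
  have e2 : V n (-(A * ((A' * D' - 1) * C'⁻¹)) + (A * D - 1) * C'⁻¹ * y⁻¹ * A') :=
    (hA.mul' hB' (by omega)).neg.add (hB.mul' hA' (by omega))
  have e3 : V n (C' * y * D' - D * C') :=
    ((h1.mul y0).mul' hD' (by omega)).sub (hD.mul' h1 (by omega))
  have e4 : V n ((y - 1) - y * (A' * D') + D * A') :=
    (hy.sub (y0.mul' (hA'.mul hD') (by omega))).add (hD.mul' hA' (by omega))
  refine ⟨V.mem_Lat ?_ (sub_mem hR.1 (one_mem _)), V.mem_Lat ?_ hR.2.1, V.mem_Lat ?_ hR.2.2.1,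
    V.mem_Lat ?_ (sub_mem hR.2.2.2 (one_mem _))⟩
  · have := (e1.mono (m := (M : ℤ) + 1) (by omega)).add (hs.mul' e3 (by omega))
    convert this using 1
    rw [KU.mul_00, KU.inv_00, KU.inv_10]
    simp only [cm, KU.mk2_00, KU.mk2_01, KU.mk2_10, KU.mk2_11, hCy]
    field_simp
    ring
  · have := (((e2.mono (m := (M : ℤ) + 1) (by omega)).add (hs.mul' e4 (by omega))).sub
      (hs.mul' e1 (by omega))).sub ((hs.mul hs).mul' e3 (by omega))
    convert this using 1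
    rw [KU.mul_01, KU.inv_01, KU.inv_11]
    simp only [cm, KU.mk2_00, KU.mk2_01, hCy]
    field_simp
    ring
  · have := e3.mono (m := (M : ℤ) + 1) (by omega)
    convert this using 1
    rw [KU.mul_10, KU.inv_00, KU.inv_10]
    simp only [cm, KU.mk2_10, KU.mk2_11, hCy]
    ring
  · have := (e4.mono (m := (M : ℤ) + 1) (by omega)).sub (hs.mul' e3 (by omega))
    convert this using 1
    rw [KU.mul_11, KU.inv_01, KU.inv_11]
    simp only [cm, KU.mk2_00, KU.mk2_01, KU.mk2_10, KU.mk2_11, hCy]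
    field_simp
    ring

/-- for every `φ` there is a cusp matrix with deep diagonal -/
theorem exists_cm (φ : R K) (hφ : φ ≠ 0) (N : ℤ) :
    ∃ A : R K, V N (A : K) ∧ ((A : K) * A - 1) / φ ∈ R K := by
  obtain ⟨A, ⟨t, ht⟩, h⟩ := exists_deep 1 φ hφ N
  refine ⟨A, h, ?_⟩
  have h1 : φ ∣ A * A - 1 := ⟨t * (A + 1), by linear_combination (A + 1) * ht⟩
  simpa using (dvd_iff_div_mem hφ).1 h1

end Vale.Agent.P016Z.Vor
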