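import Vale.Agent.P016Z.Vor.Tor
import Vale.Agent.P016Z.Vor.Core
import Vale.Agent.P016Z.Inst.Defs

/-!
P016, block VOR: statements of the remaining steps.
-/

namespace Vale.Agent.P016Z.Vor

open NumberField Vale.Agent.P016Z.TH
open scoped ComplexConjugate

variable {K : Type} [Field K] [NumberField K] [Dat K]

/-- the representative, as an element of `R` -/
noncomputable def rR {G : Subgroup Kˣ} {j : ℕ} (x : Ix G (TH.lv K j)) : R K :=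
  ⟨rp x, mem_R_of_lv (rp_int x)⟩

@[simp] theorem coe_rR {G : Subgroup Kˣ} {j : ℕ} (x : Ix G (TH.lv K j)) : (rR x : K) = rp x := rfl

/-- `ν` lies in the fine class of `φ` -/
def Fine (k : ℕ) (φ ν : K) : Prop := V ((k : ℤ) + 1) (ν / φ - 1)

/-- the image in `M K` of the fine class of `φ` -/
def FineM (k : ℕ) (φ : K) (m : M K) : Prop := ∃ x : R K, mkM x = m ∧ Fine k φ (x : K)

/-- functions on `M K` which vanish at the elements of large norm -/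
def FinS (F : M K → ℂ) : Prop := ∃ B : ℝ, ∀ m, B < Ab.N m → F m = 0

/-- the large sieve and the convergence for theta coefficients -/
def ShStmt (A : SymA K) : Prop :=
  Ab.QLSmod A.rhoM → ∀ (τ : K → ℂ) (j k : ℕ), Ex τ j → j ≤ k →
    (Summable fun x : Ix (G0 K k) (TH.lv K j) => ‖cf τ (rp x)‖ * nn x ^ (-(3 / 2) : ℝ)) ∧
      ∀ ε : ℝ, 0 < ε → ∃ C : ℝ, 0 < C ∧ ∀ (Y : ℝ) (S : Finset (M K)), 1 ≤ Y →
        (∀ h ∈ S, Ab.Sq h ∧ (Ab.N h : ℝ) ≤ Y) →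
          LSh S (fun h (x : Ix (G0 K k) (TH.lv K j)) => A.rhoM h (mkM (rR x))) nn
            (fun x => ‖cf τ (rp x)‖) C ε Y

/-- the theta coefficients on a fine class -/
def MainStmt (A : SymA K) : Prop :=
  THETA A.sy → ∃ k0 : ℕ, 1 ≤ k0 ∧ (∀ u ∈ Ru K, u ∈ P K k0 → alp (u : K) = 1) ∧
    ∀ φ : R K, φ ≠ 0 → ∃ (θ : HK K → ℂ) (M : ℕ) (T : ℂ) (τ : SL2 K → K → ℂ), T ≠ 0 ∧ 1 ≤ M ∧
      (∀ γ ∈ Gam K M, ∀ w, θ (γ • w) = conj (A.sy.kub γ) * θ w) ∧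
      (∀ g ∈ SLr K, IsExp (τ g) (fun w => θ (g • w)) ∧ ∃ j, Ex (τ g) j) ∧
      ∀ x : R K, Fine k0 (φ : K) (x : K) → cf (τ 1) x * alp (x : K) = T * conj (A.tauR x)

variable (K)

open Classical in
/-- decomposition in fine classes -/
def Left1 : Prop :=
  ∀ k0 : ℕ, 1 ≤ k0 → ∃ Φ : Finset (R K), (∀ φ ∈ Φ, φ ≠ 0) ∧ ∀ F : M K → ℂ, FinS F →
    (∑' m : M K, if Ab.Prim m then F m else 0) =
      ∑ φ ∈ Φ, ∑' m : M K, if FineM k0 (φ : K) m then F m else 0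

open Classical in
/-- the sum over one fine class as a sum over the frequencies modulo `G0` -/
def Left2 : Prop :=
  ∀ (k0 j k : ℕ) (φ : R K), 1 ≤ k0 → k0 ≤ k → φ ≠ 0 → V (-((j : ℤ) + 1)) (φ : K) →
    ∃ n0 : ℕ, 1 ≤ n0 ∧ ∀ F : M K → ℂ, FinS F →
      (n0 : ℂ) * (∑' m : M K, if FineM k0 (φ : K) m then F m else 0) =
        ∑' x : Ix (G0 K k) (TH.lv K j), if Fine k0 (φ : K) (rp x) then F (mkM (rR x)) else 0

open Classical in
/-- Fourier expansion of the indicator of a fine class on a lattice -/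
def SExp : Prop :=
  ∀ (φ : K) (k0 j : ℕ), φ ≠ 0 → ∃ (T : Finset K) (β : K → ℂ), (∀ s ∈ T, s ∈ R K) ∧
    ∀ ν : K, IsIntegral ℤ (TH.lv K j * ν) →
      (if Fine k0 φ ν then 1 else 0 : ℂ) = ∑ s ∈ T, β s * eT (ν * s)

/-- Fourier expansion modulo `c`, with Parseval -/
def RExp : Prop :=
  ∀ (c h' : R K) (f : R K → ℂ) [Fintype (Rs c)], c ≠ 0 → IsCoprime h' c → PerM c f →
    (∀ x, ‖f x‖ ≤ 1) → ∃ β : Rs c → ℂ, ∑ x, ‖β x‖ ^ 2 ≤ 1 ∧
      ∀ ν : R K, f ν = ∑ x : Rs c, β x * E c (ν * (Quotient.out x * h'))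

end Vale.Agent.P016Z.Vor
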