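import Vale.Agent.P016Z.Vor.Abs
import Vale.Agent.P026Z.Vor.Deriv

/-!
P016, block VOR: the horizontal derivative, in every place, of the transformation formula of a
theta series on a product of hyperbolic spaces, by finite differences.
-/

namespace Vale.Agent.P016Z.Vor

open Filter Topology Set
open Vale.Agent.P006 Vale.Agent.P006.PO Vale.Agent.P006.SG
open Vale.Agent.P026Z.Vor
open scoped Real ComplexConjugate

/-- the Whittaker function at one place -/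
noncomputable def Wk (ν : ℂ) (v : ℝ) : ℝ := v ^ (2 / 3 : ℝ) * G ((2 * π * ‖ν‖ * v) ^ 2)

variable {ι : Type} [Fintype ι] {I : Type}

/-- a theta series: constant term, coefficients and frequencies -/
noncomputable def Ser (c0 : (ι → ℝ) → ℂ) (τ : I → ℂ) (ν : I → ι → ℂ) (z : ι → ℂ) (v : ι → ℝ) : ℂ :=
  c0 v + ∑' k, τ k * ∏ j, ((Wk (ν k j) (v j) : ℂ) * eT (ν k j * z j))

/-- subexponential growth of the coefficients -/
def Sm (τ : I → ℂ) (ν : I → ι → ℂ) : Prop :=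
  ∀ δ : ℝ, 0 < δ → Summable fun k => ‖τ k‖ * ∏ j, Real.exp (-(δ * ‖ν k j‖))

theorem Wk_nonneg (ν : ℂ) {v : ℝ} (hv : 0 ≤ v) : 0 ≤ Wk ν v :=
  mul_nonneg (Real.rpow_nonneg hv _) (F_nonneg _ _)

theorem continuousAt_Wk (ν : ℂ) {v : ℝ} (hv : 0 < v) : ContinuousAt (Wk ν) v := by
  unfold Wk
  refine (Real.continuousAt_rpow_const _ _ (Or.inl hv.ne')).mul ?_
  have h1 : ContinuousOn (fun v : ℝ => G ((2 * π * ‖ν‖ * v) ^ 2)) univ :=
    continuousOn_G.comp (by fun_prop) fun p _ => show (0 : ℝ) ≤ _ by positivity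
  exact h1.continuousAt univ_mem

theorem exists_Wk_le {a b : ℝ} (ha : 0 < a) : ∃ C : ℝ, 0 ≤ C ∧ ∀ (ν : ℂ) (v : ℝ), a ≤ v → v ≤ b →
    Wk ν v * (1 + ‖ν‖) ≤ C * Real.exp (-(a * ‖ν‖)) := by
  obtain ⟨K, hK, h⟩ := G_le_exp
  refine ⟨|b| ^ (2 / 3 : ℝ) * K * (1 + a⁻¹), by positivity, fun ν v h1 h2 => ?_⟩
  have hv : 0 < v := ha.trans_le h1
  have hn := norm_nonneg ν
  have hπ := Real.pi_gt_three
  have h3 := h ((2 * π * ‖ν‖ * v) ^ 2) (by positivity)
  rw [Real.sqrt_sq (by positivity)] at h3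
  have h4 : v ^ (2 / 3 : ℝ) ≤ |b| ^ (2 / 3 : ℝ) :=
    Real.rpow_le_rpow hv.le (h2.trans (le_abs_self b)) (by norm_num)
  have h5 : Real.exp (-(2 * π * ‖ν‖ * v)) ≤ Real.exp (-(a * ‖ν‖)) * Real.exp (-(a * ‖ν‖)) := by
    rw [← Real.exp_add]
    refine Real.exp_le_exp.2 ?_
    have : a * ‖ν‖ ≤ v * ‖ν‖ := by gcongr
    have : 0 ≤ v * ‖ν‖ := by positivity
    nlinarith
  have h6 : Real.exp (-(a * ‖ν‖)) * (1 + ‖ν‖) ≤ 1 + a⁻¹ := by
    have p1 : Real.exp (-(a * ‖ν‖)) ≤ 1 := Real.exp_le_one_iff.2 (by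
      have : 0 ≤ a * ‖ν‖ := by positivity
      linarith)
    have p2 : Real.exp (-(a * ‖ν‖)) * ‖ν‖ ≤ a⁻¹ := by
      have := Real.add_one_le_exp (a * ‖ν‖)
      rw [Real.exp_neg, inv_mul_le_iff₀ (Real.exp_pos _), ← div_eq_mul_inv, le_div_iff₀ ha]
      linarith
    linarith
  have hG : 0 ≤ G ((2 * π * ‖ν‖ * v) ^ 2) := F_nonneg _ _
  calc Wk ν v * (1 + ‖ν‖) ≤ |b| ^ (2 / 3 : ℝ) * (K * (Real.exp (-(a * ‖ν‖)) *
        Real.exp (-(a * ‖ν‖)))) * (1 + ‖ν‖) := by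
        rw [Wk]
        gcongr
        exact h3.trans (by gcongr)
    _ = |b| ^ (2 / 3 : ℝ) * K * (Real.exp (-(a * ‖ν‖)) * (1 + ‖ν‖)) * Real.exp (-(a * ‖ν‖)) := by
        ring
    _ ≤ _ := by gcongr

theorem exists_box {v : ι → ℝ} (hv : ∀ j, 0 < v j) :
    ∃ a b : ℝ, 0 < a ∧ ∀ j, a < v j ∧ v j < b := by
  obtain ⟨b, hb⟩ := (Set.finite_range v).bddAbove
  obtain ⟨a, ha⟩ := (Set.finite_range fun j => (v j)⁻¹).bddAbove
  refine ⟨(max a 0 + 1)⁻¹, b + 1, by positivity, fun j => ⟨?_, ?_⟩⟩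
  · have h1 : (v j)⁻¹ ≤ a := ha ⟨j, rfl⟩
    rw [inv_lt_comm₀ (by positivity) (hv j)]
    linarith [le_max_left a 0]
  · have h1 : v j ≤ b := hb ⟨j, rfl⟩
    linarith

theorem Sm.summable {τ : I → ℂ} {ν : I → ι → ℂ} (h : Sm τ ν) {v : ι → ℝ} (hv : ∀ j, 0 < v j)
    (z : ι → ℂ) : Summable fun k => τ k * ∏ j, ((Wk (ν k j) (v j) : ℂ) * eT (ν k j * z j)) := by
  obtain ⟨a, b, ha, hab⟩ := exists_box hv
  obtain ⟨C, hC, hW⟩ := exists_Wk_le (b := b) ha
  refine Summable.of_norm_bounded ((h a ha).mul_left (C ^ Fintype.card ι)) fun k => ?_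
  rw [norm_mul, norm_prod, mul_left_comm, ← Finset.card_univ, ← Finset.prod_const,
    ← Finset.prod_mul_distrib]
  refine mul_le_mul_of_nonneg_left (Finset.prod_le_prod (fun j _ => norm_nonneg _) fun j _ => ?_)
    (norm_nonneg _)
  have h0 := Wk_nonneg (ν k j) (hv j).le
  rw [norm_mul, norm_eT, mul_one, Complex.norm_real, Real.norm_of_nonneg h0]
  refine le_trans ?_ (hW (ν k j) (v j) (hab j).1.le (hab j).2.le)
  exact le_mul_of_one_le_right h0 (by linarith [norm_nonneg (ν k j)])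

theorem tendsto_e_sub {T : ℝ → ℝ} {T₀ : ℝ} (hT : Tendsto T (𝓝[≠] 0) (𝓝 T₀)) :
    Tendsto (fun s : ℝ => (e (s * T s) - 1) / (s : ℂ)) (𝓝[≠] 0) (𝓝 (2 * π * Complex.I * T₀)) := by
  have hd : HasDerivAt e (2 * π * Complex.I) 0 := by
    have h := ((Complex.ofRealCLM.hasDerivAt (x := (0 : ℝ))).const_mul (2 * π * Complex.I)).cexp
    have e1 : e = fun y : ℝ => Complex.exp (2 * π * Complex.I * Complex.ofRealCLM y) := by
      funext y; rw [e]; rfl
    rw [e1]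
    simpa using h
  have hc : ContinuousAt (dslope e 0) 0 := continuousAt_dslope_same.2 hd.differentiableAt
  have h0 : dslope e 0 0 = 2 * π * Complex.I := by rw [dslope_same, hd.deriv]
  have hs : Tendsto (fun s : ℝ => s * T s) (𝓝[≠] 0) (𝓝 0) := by
    have h1 : Tendsto (fun s : ℝ => s) (𝓝[≠] (0 : ℝ)) (𝓝 0) := tendsto_nhdsWithin_of_tendsto_nhds
      tendsto_id
    simpa using h1.mul hT
  have h1 : Tendsto (fun s : ℝ => dslope e 0 (s * T s)) (𝓝[≠] 0) (𝓝 (2 * π * Complex.I)) := by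
    rw [← h0]; exact hc.tendsto.comp hs
  have h2 : Tendsto (fun s : ℝ => ((T s : ℝ) : ℂ)) (𝓝[≠] 0) (𝓝 (T₀ : ℂ)) :=
    (Complex.continuous_ofReal.tendsto T₀).comp hT
  refine (h1.mul h2).congr' ?_
  filter_upwards [self_mem_nhdsWithin] with s hs0
  have hs0 : (s : ℂ) ≠ 0 := by exact_mod_cast hs0
  have h3 := sub_smul_dslope e 0 (s * T s)
  have h4 : e 0 = 1 := by simp [e]
  rw [h4, sub_zero, Complex.real_smul] at h3
  rw [← h3]
  push_cast
  field_simp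

/-- the limit of the difference quotients -/
theorem tendsto_diff [Nonempty ι] [DecidableEq ι] {μ : Type} [Fintype μ] {η ε : μ → ℂ}
    (hη0 : ∑ m, η m = 0) (hη : ∀ m, ‖η m‖ ≤ 1) (hε : ∀ m, ‖ε m‖ ≤ 1) (c0 : (ι → ℝ) → ℂ)
    {τ : I → ℂ} {ν : I → ι → ℂ} (h : Sm τ ν) (x : ι → ℂ) {v₀ : ι → ℝ} (hv₀ : ∀ j, 0 < v₀ j)
    {ξ₀ : ι → ℂ} {v : ℝ → ι → ℝ} {ξ : ℝ → ι → ℂ}
    (hv : ∀ j, Tendsto (fun s => v s j) (𝓝[≠] 0) (𝓝 (v₀ j)))
    (hξ : ∀ j, Tendsto (fun s => ξ s j) (𝓝[≠] 0) (𝓝 (ξ₀ j))) :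
    Tendsto (fun s : ℝ => (∑ m : ι → μ, (∏ j, η (m j)) *
        Ser c0 τ ν (fun j => x j + s * (ξ s j * ε (m j))) (v s)) / (s : ℂ) ^ Fintype.card ι)
      (𝓝[≠] 0) (𝓝 (∑' k, τ k * ∏ j, ((Wk (ν k j) (v₀ j) : ℂ) * eT (ν k j * x j) *
        ∑ m, η m * (2 * π * Complex.I * TrC (ν k j * (ξ₀ j * ε m)))))) := by
  obtain ⟨a, b, ha, hab⟩ := exists_box hv₀
  obtain ⟨C, hC, hW⟩ := exists_Wk_le (b := b) ha
  obtain ⟨B, hB⟩ := (Set.finite_range fun j => ‖ξ₀ j‖).bddAbove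
  have hπ := Real.pi_pos
  set f : ℝ → I → ℂ := fun s k => τ k * ∏ j, ((Wk (ν k j) (v s j) : ℂ) * eT (ν k j * x j) *
    ∑ m, η m * ((e (s * TrC (ν k j * (ξ s j * ε m))) - 1) / (s : ℂ))) with hf
  have hv1 : ∀ᶠ s in 𝓝[≠] (0 : ℝ), ∀ j, a < v s j ∧ v s j < b := eventually_all.2 fun j =>
    ((hv j).eventually (lt_mem_nhds (hab j).1)).and ((hv j).eventually (gt_mem_nhds (hab j).2))
  have hξ1 : ∀ᶠ s in 𝓝[≠] (0 : ℝ), ∀ j, ‖ξ s j‖ < |B| + 1 := eventually_all.2 fun j =>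
    (hξ j).norm.eventually (gt_mem_nhds (by
      have h1 : ‖ξ₀ j‖ ≤ B := hB ⟨j, rfl⟩
      linarith [le_abs_self B]))
  set D : ℝ := C * (Fintype.card μ * (4 * π * (|B| + 1))) with hD
  have hlim : Tendsto (fun s => ∑' k, f s k) (𝓝[≠] 0)
      (𝓝 (∑' k, τ k * ∏ j, ((Wk (ν k j) (v₀ j) : ℂ) * eT (ν k j * x j) *
        ∑ m, η m * (2 * π * Complex.I * TrC (ν k j * (ξ₀ j * ε m)))))) := by
    refine tendsto_tsum_of_dominated_convergence
      (bound := fun k => D ^ Fintype.card ι * (‖τ k‖ * ∏ j, Real.exp (-(a * ‖ν k j‖))))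
      ((h a ha).mul_left _) ?_ ?_
    · intro k
      refine Tendsto.const_mul _ (tendsto_finsetProd _ fun j _ => ?_)
      refine Tendsto.mul (Tendsto.mul_const _ ?_) (tendsto_finsetSum _ fun m _ =>
        Tendsto.const_mul _ (tendsto_e_sub ?_))
      · exact (Complex.continuous_ofReal.tendsto _).comp
          ((continuousAt_Wk _ (hv₀ j)).tendsto.comp (hv j))
      · have hc : Continuous fun z : ℂ => TrC (ν k j * (z * ε m)) := by unfold TrC; fun_prop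
        exact (hc.tendsto (ξ₀ j)).comp (hξ j)
    · filter_upwards [hv1, hξ1, self_mem_nhdsWithin] with s h1 h3 hs0 k
      have hs0 : s ≠ 0 := hs0
      simp only [hf]
      rw [norm_mul, norm_prod, mul_left_comm, ← Finset.card_univ, ← Finset.prod_const,
        ← Finset.prod_mul_distrib]
      refine mul_le_mul_of_nonneg_left (Finset.prod_le_prod (fun j _ => norm_nonneg _)
        fun j _ => ?_) (norm_nonneg _)
      have h0 := Wk_nonneg (ν k j) (ha.trans (h1 j).1).le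
      have h6 : ∀ m, ‖η m * ((e (s * TrC (ν k j * (ξ s j * ε m))) - 1) / (s : ℂ))‖ ≤
          4 * π * (|B| + 1) * (1 + ‖ν k j‖) := by
        intro m
        rw [norm_mul]
        refine (mul_le_of_le_one_left (norm_nonneg _) (hη m)).trans ?_
        rw [norm_div, Complex.norm_real, Real.norm_eq_abs, div_le_iff₀ (abs_pos.2 hs0)]
        refine (norm_e_sub_one_le _).trans ?_
        rw [abs_mul]
        have h7 : |TrC (ν k j * (ξ s j * ε m))| ≤ 2 * ((1 + ‖ν k j‖) * ((|B| + 1) * 1)) := by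
          refine (abs_TrC_le _).trans ?_
          rw [norm_mul, norm_mul]
          have := (h3 j).le
          have := hε m
          gcongr
          linarith
        calc 2 * π * (|s| * |TrC (ν k j * (ξ s j * ε m))|)
            ≤ 2 * π * (|s| * (2 * ((1 + ‖ν k j‖) * ((|B| + 1) * 1)))) := by gcongr
          _ = _ := by ring
      have h8 : ‖∑ m, η m * ((e (s * TrC (ν k j * (ξ s j * ε m))) - 1) / (s : ℂ))‖ ≤
          Fintype.card μ * (4 * π * (|B| + 1) * (1 + ‖ν k j‖)) := by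
        refine (norm_sum_le _ _).trans ((Finset.sum_le_sum fun m _ => h6 m).trans (le_of_eq ?_))
        rw [Finset.sum_const, nsmul_eq_mul, Finset.card_univ]
      rw [norm_mul, norm_mul, norm_eT, mul_one, Complex.norm_real, Real.norm_of_nonneg h0]
      calc _ ≤ Wk (ν k j) (v s j) * (Fintype.card μ * (4 * π * (|B| + 1) * (1 + ‖ν k j‖))) := by
            gcongr
        _ = Wk (ν k j) (v s j) * (1 + ‖ν k j‖) * (Fintype.card μ * (4 * π * (|B| + 1))) := by ring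
        _ ≤ C * Real.exp (-(a * ‖ν k j‖)) * (Fintype.card μ * (4 * π * (|B| + 1))) :=
            mul_le_mul_of_nonneg_right (hW _ _ (h1 j).1.le (h1 j).2.le) (by positivity)
        _ = _ := by rw [hD]; ring
  refine hlim.congr' ?_
  filter_upwards [hv1, self_mem_nhdsWithin] with s h1 hs0
  have hs0 : (s : ℂ) ≠ 0 := by exact_mod_cast hs0
  have hvs : ∀ j, 0 < v s j := fun j => ha.trans (h1 j).1
  have h0 : ∑ m : ι → μ, ∏ j, η (m j) = 0 := by
    rw [← Fintype.piFinset_univ, ← Finset.prod_univ_sum, hη0, Finset.prod_const, Finset.card_univ,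
      zero_pow Fintype.card_ne_zero]
  simp only [Ser, mul_add, Finset.sum_add_distrib]
  rw [← Finset.sum_mul, h0, zero_mul, zero_add]
  simp only [← tsum_mul_left]
  rw [← Summable.tsum_finsetSum fun m _ => by
    simpa only [mul_add] using (h.summable hvs fun j => x j + s * (ξ s j * ε (m j))).mul_left _,
    ← tsum_div_const]
  refine tsum_congr fun k => ?_
  simp only [hf]
  have e1 : ∀ j, ∑ m, η m * ((e (s * TrC (ν k j * (ξ s j * ε m))) - 1) / (s : ℂ)) =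
      (∑ m, η m * eT (ν k j * (s * (ξ s j * ε m)))) / s := by
    intro j
    have e2 : ∀ m, eT (ν k j * (s * (ξ s j * ε m))) = e (s * TrC (ν k j * (ξ s j * ε m))) := by
      intro m
      rw [mul_left_comm, eT, TrC_ofReal_mul]
    simp only [e2, ← mul_div_assoc, mul_sub, mul_one]
    rw [← Finset.sum_div, Finset.sum_sub_distrib, hη0, sub_zero]
  simp only [e1]
  simp only [← mul_div_assoc, Finset.mul_sum]
  rw [Finset.prod_div_distrib, Finset.prod_const, Finset.card_univ, Finset.prod_univ_sum,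
    Fintype.piFinset_univ, ← mul_div_assoc, Finset.mul_sum]
  congr 1
  refine Finset.sum_congr rfl fun m _ => ?_
  rw [mul_left_comm, ← Finset.prod_mul_distrib]
  congr 1
  refine Finset.prod_congr rfl fun j _ => ?_
  rw [eT_add]
  ring

/-- the four directions -/
noncomputable def dir (m : Fin 4) : ℂ := Complex.I ^ (m : ℕ)

theorem norm_dir (m : Fin 4) : ‖dir m‖ = 1 := by simp [dir]

theorem sum_dir : ∑ m, dir m = 0 := by
  simp [dir, Fin.sum_univ_four, pow_succ]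

theorem sum_dir_conj (w : ℂ) :
    ∑ m, dir m * (2 * π * Complex.I * TrC (w * conj (dir m))) = 8 * π * Complex.I * w := by
  have h2 : Complex.I ^ 2 = -1 := Complex.I_sq
  have h3 : Complex.I ^ 3 = -Complex.I := Complex.I_pow_three
  simp only [TrC_eq, dir, Fin.sum_univ_four, Fin.val_zero, Fin.val_one, Fin.val_two,
    show ((3 : Fin 4) : ℕ) = 3 from rfl, pow_zero, pow_one, h2, h3, map_mul, map_neg, map_one,
    Complex.conj_I]
  linear_combination (2 * π * Complex.I * (2 * conj w - 2 * w)) * h2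

theorem sum_dir_self (w : ℂ) :
    ∑ m, dir m * (2 * π * Complex.I * TrC (w * dir m)) = 8 * π * Complex.I * conj w := by
  rw [← sum_dir_conj]
  refine Finset.sum_congr rfl fun m _ => ?_
  rw [← map_mul, TrC, TrC, Complex.conj_re]

/-- **the derivative of the transformation formula** -/
theorem deriv_fe [Nonempty ι] {I' : Type} {c1 c2 : (ι → ℝ) → ℂ} {τ1 : I → ℂ} {ν1 : I → ι → ℂ}
    {τ2 : I' → ℂ} {ν2 : I' → ι → ℂ} (h1 : Sm τ1 ν1) (h2 : Sm τ2 ν2) {x y c : ι → ℂ}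
    (hc : ∀ j, c j ≠ 0) {κ : ℂ}
    (hfe : ∀ (ζ : ι → ℂ) (v : ι → ℝ), (∀ j, 0 < v j) →
      Ser c1 τ1 ν1 (fun j => x j - conj (ζ j) / (c j ^ 2 * ((Complex.normSq (ζ j) + v j ^ 2 : ℝ) : ℂ)))
        (fun j => v j / (Complex.normSq (c j) * (Complex.normSq (ζ j) + v j ^ 2))) =
        κ * Ser c2 τ2 ν2 (fun j => y j + ζ j) v) {v : ι → ℝ} (hv : ∀ j, 0 < v j) :
    ∑' k, τ1 k * ∏ j, ((Wk (ν1 k j) (1 / (Complex.normSq (c j) * v j)) : ℂ) * eT (ν1 k j * x j) *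
        (ν1 k j * -(1 / (c j ^ 2 * (v j : ℂ) ^ 2)))) =
      κ * ∑' k, τ2 k * ∏ j, ((Wk (ν2 k j) (v j) : ℂ) * eT (ν2 k j * y j) * conj (ν2 k j)) := by
  classical
  have hN : ∀ j, 0 < Complex.normSq (c j) := fun j => Complex.normSq_pos.2 (hc j)
  have hs : Tendsto (fun s : ℝ => s) (𝓝[≠] (0 : ℝ)) (𝓝 0) :=
    tendsto_nhdsWithin_of_tendsto_nhds tendsto_id
  have hq : ∀ j, Tendsto (fun s : ℝ => s ^ 2 + v j ^ 2) (𝓝[≠] (0 : ℝ)) (𝓝 (v j ^ 2)) := fun j => by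
    simpa using (hs.pow 2).add_const (v j ^ 2)
  have hL := tendsto_diff sum_dir (fun m => (norm_dir m).le) (ε := fun m => conj (dir m))
    (fun m => by rw [Complex.norm_conj, norm_dir]) c1 h1 x
    (v₀ := fun j => 1 / (Complex.normSq (c j) * v j))
    (fun j => by have := hN j; have := hv j; positivity)
    (ξ₀ := fun j => -(1 / (c j ^ 2 * (v j : ℂ) ^ 2)))
    (v := fun s j => v j / (Complex.normSq (c j) * (s ^ 2 + v j ^ 2)))
    (ξ := fun s j => -(1 / (c j ^ 2 * ((s ^ 2 + v j ^ 2 : ℝ) : ℂ)))) (fun j => by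
      have p1 := hN j
      have p2 := hv j
      have := (tendsto_const_nhds (x := v j)).div ((hq j).const_mul (Complex.normSq (c j)))
        (by positivity)
      have e1 : 1 / (Complex.normSq (c j) * v j) = v j / (Complex.normSq (c j) * v j ^ 2) := by
        field_simp
      rw [e1]
      exact this) (fun j => by
      have p1 := hc j
      have p2 : (v j : ℂ) ≠ 0 := by exact_mod_cast (hv j).ne'
      have h1 : Tendsto (fun s : ℝ => ((s ^ 2 + v j ^ 2 : ℝ) : ℂ)) (𝓝[≠] (0 : ℝ))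
          (𝓝 ((v j : ℂ) ^ 2)) := by
        have := (Complex.continuous_ofReal.tendsto _).comp (hq j)
        rw [Complex.ofReal_pow] at this
        exact this
      exact ((tendsto_const_nhds).div (h1.const_mul _) (by positivity)).neg)
  have hR := (tendsto_diff sum_dir (fun m => (norm_dir m).le) (ε := dir)
    (fun m => (norm_dir m).le) c2 h2 y hv (ξ₀ := fun _ => 1) (v := fun _ => v) (ξ := fun _ _ => 1)
    (fun _ => tendsto_const_nhds) (fun _ => tendsto_const_nhds)).const_mul κ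
  have heq : ∀ (s : ℝ) (m : ι → Fin 4),
      Ser c1 τ1 ν1 (fun j => x j + s * (-(1 / (c j ^ 2 * ((s ^ 2 + v j ^ 2 : ℝ) : ℂ))) *
        conj (dir (m j)))) (fun j => v j / (Complex.normSq (c j) * (s ^ 2 + v j ^ 2))) =
      κ * Ser c2 τ2 ν2 (fun j => y j + s * (1 * dir (m j))) v := by
    intro s m
    have h3 := hfe (fun j => s * (1 * dir (m j))) v hv
    have h4 : ∀ j, Complex.normSq (s * (1 * dir (m j))) = s ^ 2 := fun j => by
      rw [Complex.normSq_eq_norm_sq, norm_mul, one_mul, norm_dir, mul_one, Complex.norm_real,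
        Real.norm_eq_abs, sq_abs]
    simp only [h4] at h3
    rw [← h3]
    congr 1
    funext j
    rw [map_mul, map_mul, Complex.conj_ofReal, map_one]
    ring
  simp only [heq, mul_left_comm _ κ, ← Finset.mul_sum, mul_div_assoc] at hL
  have h5 := tendsto_nhds_unique hL hR
  simp only [← mul_assoc (ν1 _ _), ← mul_assoc (ν2 _ _), sum_dir_conj, sum_dir_self, mul_one] at h5
  have hπ : (8 * π * Complex.I : ℂ) ^ Fintype.card ι ≠ 0 := by
    have := Real.pi_pos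
    refine pow_ne_zero _ (mul_ne_zero (mul_ne_zero (by norm_num) ?_) Complex.I_ne_zero)
    exact_mod_cast this.ne'
  apply mul_left_cancel₀ hπ
  have e : ∀ (A B : ι → ℂ) (t : ℂ), t * ∏ j, (A j * (8 * π * Complex.I * B j)) =
      (8 * π * Complex.I : ℂ) ^ Fintype.card ι * (t * ∏ j, (A j * B j)) := by
    intro A B t
    rw [mul_left_comm, ← Finset.card_univ, ← Finset.prod_const, ← Finset.prod_mul_distrib]
    congr 1
    refine Finset.prod_congr rfl fun j _ => by ring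
  simp only [e, tsum_mul_left] at h5
  rw [h5]
  ring

/-- the argument `z / |z|` -/
noncomputable def arg1 (z : ℂ) : ℂ := z / (‖z‖ : ℂ)

theorem norm_arg1 {z : ℂ} (hz : z ≠ 0) : ‖arg1 z‖ = 1 := by
  have := norm_pos_iff.2 hz
  rw [arg1, norm_div, Complex.norm_real, Real.norm_of_nonneg this.le, div_self this.ne']

theorem arg1_mul_norm {z : ℂ} (hz : z ≠ 0) : arg1 z * (‖z‖ : ℂ) = z := by
  have : (‖z‖ : ℂ) ≠ 0 := by exact_mod_cast (norm_pos_iff.2 hz).ne'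
  rw [arg1]; field_simp

theorem arg1_mul (z w : ℂ) : arg1 (z * w) = arg1 z * arg1 w := by
  simp only [arg1, norm_mul]
  push_cast
  ring

/-- the logarithmic position of the frequency `ν` at a cusp with denominator `c` -/
noncomputable def lg (ν c : ι → ℂ) : ι → ℝ := fun j => Real.log ((2 * π * ‖ν j‖ / ‖c j‖) ^ 2)

theorem Wk_mul_eq {ν : ℂ} (hν : ν ≠ 0) {u : ℝ} (hu : 0 < u) :
    (Wk ν u : ℂ) * (‖ν‖ : ℂ) * (((2 * π) ^ (2 / 3 : ℝ) : ℝ) : ℂ) =
      ((‖ν‖ ^ (1 / 3 : ℝ) : ℝ) : ℂ) * Kc ((2 * π * ‖ν‖ * u) ^ 2) := by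
  have hn := norm_pos_iff.2 hν
  have hπ := Real.pi_pos
  rw [Kc, KK, Wk, ← Complex.ofReal_mul, ← Complex.ofReal_mul, ← Complex.ofReal_mul]
  congr 1
  have e1 : ((2 * π * ‖ν‖ * u) ^ 2) ^ (1 / 3 : ℝ) =
      (2 * π) ^ (2 / 3 : ℝ) * ‖ν‖ ^ (2 / 3 : ℝ) * u ^ (2 / 3 : ℝ) := by
    rw [← Real.rpow_natCast, ← Real.rpow_mul (by positivity), ← Real.mul_rpow (by positivity) hn.le,
      ← Real.mul_rpow (by positivity) hu.le]
    norm_num
  have e2 : ‖ν‖ ^ (1 / 3 : ℝ) * ‖ν‖ ^ (2 / 3 : ℝ) = ‖ν‖ := by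
    rw [← Real.rpow_add hn]; norm_num
  rw [e1]
  linear_combination (-(u ^ (2 / 3 : ℝ) * G ((2 * π * ‖ν‖ * u) ^ 2) * (2 * π) ^ (2 / 3 : ℝ))) * e2

/-- **the kernel identity on the torus** -/
theorem kernel_fe [Nonempty ι] {I' : Type} {c1 c2 : (ι → ℝ) → ℂ} {τ1 : I → ℂ} {ν1 : I → ι → ℂ}
    {τ2 : I' → ℂ} {ν2 : I' → ι → ℂ} (h1 : Sm τ1 ν1) (h2 : Sm τ2 ν2)
    (n1 : ∀ k, τ1 k ≠ 0 → ∀ j, ν1 k j ≠ 0) (n2 : ∀ k, τ2 k ≠ 0 → ∀ j, ν2 k j ≠ 0) {x y c : ι → ℂ}
    (hc : ∀ j, c j ≠ 0) {κ : ℂ}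
    (hfe : ∀ (ζ : ι → ℂ) (v : ι → ℝ), (∀ j, 0 < v j) →
      Ser c1 τ1 ν1 (fun j => x j - conj (ζ j) / (c j ^ 2 * ((Complex.normSq (ζ j) + v j ^ 2 : ℝ) : ℂ)))
        (fun j => v j / (Complex.normSq (c j) * (Complex.normSq (ζ j) + v j ^ 2))) =
        κ * Ser c2 τ2 ν2 (fun j => y j + ζ j) v) (t : ι → ℝ) :
    ∑' k, (τ1 k * ∏ j, (((‖ν1 k j‖ ^ (1 / 3 : ℝ) : ℝ) : ℂ) * arg1 (ν1 k j) * eT (ν1 k j * x j))) *
        KP (lg (ν1 k) c + t) =
      (κ * ∏ j, -(arg1 (c j) ^ 2)) * (Complex.exp (-(ln t : ℂ)) *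
        ∑' k, (τ2 k * ∏ j, (((‖ν2 k j‖ ^ (1 / 3 : ℝ) : ℝ) : ℂ) * conj (arg1 (ν2 k j)) *
          eT (ν2 k j * y j))) * KP (lg (ν2 k) c + -t)) := by
  have hπ := Real.pi_pos
  have hn : ∀ j, 0 < ‖c j‖ := fun j => norm_pos_iff.2 (hc j)
  set v : ι → ℝ := fun j => Real.exp (-(t j / 2)) / ‖c j‖ with hvdef
  have hv : ∀ j, 0 < v j := fun j => by have := hn j; simp only [hvdef]; positivity
  have h3 := deriv_fe h1 h2 hc hfe hv
  set L : ℂ := (((2 * π) ^ (2 / 3 : ℝ) : ℝ) : ℂ) with hL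
  have hL0 : L ≠ 0 := by
    rw [hL]; exact_mod_cast (Real.rpow_pos_of_pos (by positivity) _).ne'
  have hex : ∀ j, Real.exp (-(t j / 2)) ^ 2 = Real.exp (-t j) := fun j => by
    rw [← Real.exp_nat_mul]; congr 1; push_cast; ring
  have hu : ∀ j, 0 < 1 / (Complex.normSq (c j) * v j) := fun j => by
    have := Complex.normSq_pos.2 (hc j); have := hv j; positivity
  have ea : ∀ (w : ℂ) (j : ι), w ≠ 0 → (2 * π * ‖w‖ * (1 / (Complex.normSq (c j) * v j))) ^ 2 =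
      Real.exp (Real.log ((2 * π * ‖w‖ / ‖c j‖) ^ 2) + t j) := by
    intro w j hw
    have := norm_pos_iff.2 hw
    have := hn j
    rw [Real.exp_add, Real.exp_log (by positivity), Complex.normSq_eq_norm_sq]
    simp only [hvdef]
    have h4 := hex j
    rw [Real.exp_neg (t j)] at h4
    have h5 := Real.exp_pos (t j)
    have h6 := Real.exp_pos (-(t j / 2))
    field_simp at h4 ⊢
    linear_combination (-1 : ℝ) * h4
  have eb : ∀ (w : ℂ) (j : ι), w ≠ 0 → (2 * π * ‖w‖ * v j) ^ 2 =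
      Real.exp (Real.log ((2 * π * ‖w‖ / ‖c j‖) ^ 2) + -t j) := by
    intro w j hw
    have := norm_pos_iff.2 hw
    have := hn j
    rw [Real.exp_add, Real.exp_log (by positivity), ← hex j]
    simp only [hvdef]
    field_simp
  have ec : ∀ j, c j ^ 2 * (v j : ℂ) ^ 2 = arg1 (c j) ^ 2 * Complex.exp (-(t j : ℂ)) := by
    intro j
    have p : (‖c j‖ : ℂ) ≠ 0 := by exact_mod_cast (hn j).ne'
    rw [← Complex.ofReal_neg, ← Complex.ofReal_exp, ← hex j, arg1]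
    simp only [hvdef]
    push_cast
    field_simp
  set Z : ℂ := ∏ j, -(arg1 (c j) ^ 2 * Complex.exp (-(t j : ℂ))) with hZ
  have e1 : ∀ k, (τ1 k * ∏ j, (((‖ν1 k j‖ ^ (1 / 3 : ℝ) : ℝ) : ℂ) * arg1 (ν1 k j) *
      eT (ν1 k j * x j))) * KP (lg (ν1 k) c + t) = (L ^ Fintype.card ι * Z) *
      (τ1 k * ∏ j, ((Wk (ν1 k j) (1 / (Complex.normSq (c j) * v j)) : ℂ) * eT (ν1 k j * x j) *
        (ν1 k j * -(1 / (c j ^ 2 * (v j : ℂ) ^ 2))))) := by
    intro k
    by_cases hk : τ1 k = 0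
    · simp [hk]
    rw [mul_left_comm, mul_assoc, KP, hZ, ← Finset.card_univ, ← Finset.prod_const,
      ← Finset.prod_mul_distrib, ← Finset.prod_mul_distrib, ← Finset.prod_mul_distrib]
    congr 1
    refine Finset.prod_congr rfl fun j _ => ?_
    have h4 := Wk_mul_eq (n1 k hk j) (hu j)
    rw [ea _ j (n1 k hk j)] at h4
    have h5 := arg1_mul_norm (n1 k hk j)
    have h6 : arg1 (c j) ^ 2 * Complex.exp (-(t j : ℂ)) ≠ 0 :=
      mul_ne_zero (pow_ne_zero _ (norm_ne_zero_iff.1 (by rw [norm_arg1 (hc j)]; norm_num)))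
        (Complex.exp_ne_zero _)
    rw [ec j]
    simp only [Pi.add_apply, lg]
    generalize arg1 (c j) ^ 2 * Complex.exp (-(t j : ℂ)) = E at h6
    have h7 : E * (1 / E) = 1 := by field_simp
    linear_combination (-(arg1 (ν1 k j) * eT (ν1 k j * x j))) * h4 +
      ((Wk (ν1 k j) (1 / (Complex.normSq (c j) * v j)) : ℂ) * L * eT (ν1 k j * x j)) * h5 -
      ((Wk (ν1 k j) (1 / (Complex.normSq (c j) * v j)) : ℂ) * L * eT (ν1 k j * x j) * ν1 k j) * h7
  have e2 : ∀ k, (τ2 k * ∏ j, (((‖ν2 k j‖ ^ (1 / 3 : ℝ) : ℝ) : ℂ) * conj (arg1 (ν2 k j)) *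
      eT (ν2 k j * y j))) * KP (lg (ν2 k) c + -t) = L ^ Fintype.card ι *
      (τ2 k * ∏ j, ((Wk (ν2 k j) (v j) : ℂ) * eT (ν2 k j * y j) * conj (ν2 k j))) := by
    intro k
    by_cases hk : τ2 k = 0
    · simp [hk]
    rw [mul_left_comm, mul_assoc, KP, ← Finset.card_univ, ← Finset.prod_const,
      ← Finset.prod_mul_distrib, ← Finset.prod_mul_distrib]
    congr 1
    refine Finset.prod_congr rfl fun j _ => ?_
    have h4 := Wk_mul_eq (n2 k hk j) (hv j)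
    rw [eb _ j (n2 k hk j)] at h4
    have h5 := congrArg conj (arg1_mul_norm (n2 k hk j))
    rw [map_mul, Complex.conj_ofReal] at h5
    simp only [Pi.add_apply, Pi.neg_apply, lg]
    linear_combination (-(conj (arg1 (ν2 k j)) * eT (ν2 k j * y j))) * h4 +
      ((Wk (ν2 k j) (v j) : ℂ) * L * eT (ν2 k j * y j)) * h5
  simp only [e1, e2, tsum_mul_left]
  rw [h3]
  have e3 : Z = (∏ j, -(arg1 (c j) ^ 2)) * Complex.exp (-(ln t : ℂ)) := by
    rw [hZ, ln, Complex.ofReal_sum, ← Finset.sum_neg_distrib, Complex.exp_sum,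
      ← Finset.prod_mul_distrib]
    exact Finset.prod_congr rfl fun j _ => by ring
  rw [e3]
  ring

end Vale.Agent.P016Z.Vor
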