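import Vale.Agent.P016Z.Vor.Cusp
import Vale.Agent.P016Z.Vor.Diff
import Mathlib.Algebra.Module.ZLattice.Summable
import Mathlib.MeasureTheory.Constructions.Polish.Basic

/-!
P016, block VOR: sums over lattices, growth of the theta coefficients, partitions of unity for
groups of units, and the kernel identity at a cusp.
-/

namespace Vale.Agent.P016Z.Vor

open NumberField Vale.Agent.P006 Vale.Agent.P016Z.TH Vale.Agent.P026Z.Vor
open scoped ComplexConjugate Real

set_option linter.unusedSectionVars false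

variable {K : Type} [Field K] [NumberField K] [Dat K]

/-- the embedding in the product of the complex places -/
noncomputable abbrev em (x : K) : io K → ℂ := (cmK K).em x

theorem em_ne {x : K} (hx : x ≠ 0) (j : io K) : em x j ≠ 0 := (map_ne_zero ((cmK K).sig j)).2 hx

theorem exp_neg_le_pow (n : ℕ) {δ x : ℝ} (hδ : 0 < δ) (hx : 0 < x) :
    Real.exp (-(δ * x)) ≤ n.factorial / δ ^ n * x⁻¹ ^ n := by
  have h := Real.pow_div_factorial_le_exp (δ * x) (by positivity) n
  have hf : (0 : ℝ) < n.factorial := by exact_mod_cast n.factorial_pos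
  rw [Real.exp_neg]
  refine (inv_anti₀ (by positivity) h).trans (le_of_eq ?_)
  rw [mul_pow, inv_pow]
  field_simp

theorem summable_exp {δ : ℝ} (hδ : 0 < δ) :
    Summable fun x : 𝓞 K => ∏ j, Real.exp (-(δ * ‖em (x : K) j‖)) := by
  classical
  set L : Submodule ℤ (io K → ℂ) :=
    Submodule.span ℤ (Set.range ((cmK K).bas (integralBasis K))) with hL
  have hmem : ∀ x : 𝓞 K, em (x : K) ∈ L := by
    intro x
    have h1 : (x : K) ∈ Submodule.span ℤ (Set.range (integralBasis K)) :=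
      (mem_span_integralBasis K).2 ⟨x, rfl⟩
    have h2 := Submodule.mem_map_of_mem (f := (cmK K).em.toIntAlgHom.toLinearMap) h1
    rw [Submodule.map_span, ← Set.range_comp] at h2
    have e : ((cmK K).em.toIntAlgHom.toLinearMap ∘ integralBasis K) =
        (cmK K).bas (integralBasis K) := funext fun i => ((cmK K).bas_apply _ i).symm
    rwa [e] at h2
  set n : ℕ := Module.finrank ℤ L + 1 with hn
  have h1 := (ZLattice.summable_norm_pow_inv L n (by omega)).mul_left (n.factorial / δ ^ n)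
  have hinj : Function.Injective fun x : 𝓞 K => (⟨em (x : K), hmem x⟩ : L) := by
    intro x y h
    have h2 : (cmK K).em (x : K) = (cmK K).em (y : K) := congrArg Subtype.val h
    exact RingOfIntegers.ext ((cmK K).em.injective h2)
  refine Summable.of_norm_bounded_eventually (h1.comp_injective hinj) ?_
  rw [Filter.eventually_cofinite]
  refine (Set.finite_singleton (0 : 𝓞 K)).subset fun x hx => ?_
  by_contra h0
  apply hx
  have hx0 : (x : K) ≠ 0 := by exact_mod_cast h0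
  obtain ⟨j0, -, hj0⟩ := Finset.exists_max_image Finset.univ (fun j => ‖em (x : K) j‖)
    Finset.univ_nonempty
  have hp : 0 < ‖em (x : K) j0‖ := norm_pos_iff.2 (em_ne hx0 j0)
  have h3 : ‖em (x : K)‖ = ‖em (x : K) j0‖ :=
    le_antisymm ((pi_norm_le_iff_of_nonneg hp.le).2 fun j => hj0 j (Finset.mem_univ j))
      (norm_le_pi_norm _ j0)
  rw [Real.norm_of_nonneg (Finset.prod_nonneg fun j _ => (Real.exp_pos _).le)]
  change _ ≤ n.factorial / δ ^ n * ‖em (x : K)‖⁻¹ ^ n
  rw [h3]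
  refine le_trans ?_ (exp_neg_le_pow n hδ hp)
  rw [← Finset.mul_prod_erase _ _ (Finset.mem_univ j0)]
  refine mul_le_of_le_one_right (Real.exp_pos _).le (Finset.prod_le_one
    (fun j _ => (Real.exp_pos _).le) fun j _ => Real.exp_le_one_iff.2 ?_)
  have := norm_nonneg (em (x : K) j)
  nlinarith

open Classical in
theorem summable_exp_lat {D : K} (hD : D ≠ 0) {δ : ℝ} (hδ : 0 < δ) :
    Summable fun ν : K => if IsIntegral ℤ (D * ν) then ∏ j, Real.exp (-(δ * ‖em ν j‖)) else 0 := by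
  have hB : 0 < ‖em D‖ := by
    obtain ⟨j⟩ := (inferInstance : Nonempty (io K))
    exact (norm_pos_iff.2 (em_ne hD j)).trans_le (norm_le_pi_norm _ j)
  have hinj : Function.Injective fun x : 𝓞 K => (x : K) / D := fun x y h =>
    RingOfIntegers.ext (by simpa [hD] using h)
  rw [← hinj.summable_iff]
  · refine Summable.of_nonneg_of_le (fun x => ?_) (fun x => ?_)
      (summable_exp (K := K) (div_pos hδ hB))
    · simp only [Function.comp_apply]
      split_ifs
      · exact Finset.prod_nonneg fun j _ => (Real.exp_pos _).le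
      · exact le_rfl
    · simp only [Function.comp_apply]
      split_ifs
      · refine Finset.prod_le_prod (fun j _ => (Real.exp_pos _).le) fun j _ => ?_
        refine Real.exp_le_exp.2 (neg_le_neg ?_)
        have h1 : 0 < ‖em D j‖ := norm_pos_iff.2 (em_ne hD j)
        have h2 : ‖em ((x : K) / D) j‖ = ‖em (x : K) j‖ / ‖em D j‖ := by
          rw [← norm_div]; exact congrArg norm (map_div₀ ((cmK K).sig j) _ _)
        rw [h2, div_mul_eq_mul_div, mul_div_assoc]
        gcongr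
        exact norm_le_pi_norm _ j
      · exact Finset.prod_nonneg fun j _ => (Real.exp_pos _).le
  · intro ν hν
    rw [if_neg]
    intro h
    exact hν ⟨⟨_, h⟩, by change D * ν / D = ν; field_simp⟩

/-- the properties of the coefficients of a theta function, at level `j` -/
structure Ex (τ : K → ℂ) (j : ℕ) : Prop where
  rs : RS τ
  supp : ∀ ν, τ ν ≠ 0 → IsIntegral ℤ (TH.lv K j * ν)
  cube : ∀ l ∈ P K j, ∀ ν ∈ R K, (l : K) ^ 3 * ν ∈ R K → τ ((l : K) ^ 3 * ν) = τ ν
  zero : ∀ (p ν : R K) (i : ℕ), Prime p → ¬ p ∣ ν → τ ((p : K) ^ (3 * i + 2) * ν) = 0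

theorem Ex.mono {τ : K → ℂ} {j k : ℕ} (h : Ex τ j) (hjk : j ≤ k) : Ex τ k where
  rs := h.rs
  supp := fun ν hν => isIntegral_lv_of (mem_R_of_lv (h.supp ν hν))
    ((V_of_lv (h.supp ν hν)).mono (by omega))
  cube := fun l hl => h.cube l (P_mono hjk hl)
  zero := h.zero

/-- the normalised coefficient `τ(ν) N(ν)^{1/6}` -/
noncomputable def cf (τ : K → ℂ) (ν : K) : ℂ := τ ν * ((nm ν ^ (1 / 6 : ℝ) : ℝ) : ℂ)

theorem nm_zero : nm (0 : K) = 0 := by simp [CM.nm]

theorem cf_zero (τ : K → ℂ) : cf τ 0 = 0 := by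
  rw [cf, nm_zero, Real.zero_rpow (by norm_num)]; simp

theorem norm_cf_sq (τ : K → ℂ) (ν : K) : ‖cf τ ν‖ ^ 2 = ‖τ ν‖ ^ 2 * nm ν ^ (1 / 3 : ℝ) := by
  have h := (cmK K).nm_nonneg ν
  rw [cf, norm_mul, mul_pow, Complex.norm_real, Real.norm_of_nonneg (by positivity),
    ← Real.rpow_natCast (nm ν ^ _), ← Real.rpow_mul h]
  norm_num

theorem Ex.cf_supp {τ : K → ℂ} {j : ℕ} (h : Ex τ j) {ν : K} (hν : cf τ ν ≠ 0) :
    ν ≠ 0 ∧ IsIntegral ℤ (TH.lv K j * ν) :=
  ⟨fun h0 => hν (h0 ▸ cf_zero τ), h.supp ν (left_ne_zero_of_mul hν)⟩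

theorem one_le_nm_of {x : K} (hx : x ≠ 0) (h : IsIntegral ℤ x) : 1 ≤ nm x :=
  (cmK K).one_le_nm (x := ⟨x, h⟩) fun h0 => hx (congrArg (fun t : 𝓞 K => (t : K)) h0)

theorem nm_eq_prod (x : K) : nm x = ∏ j, ‖em x j‖ ^ 2 :=
  Finset.prod_congr rfl fun _ _ => Complex.normSq_eq_norm_sq _

theorem nm_rpow (x : K) : nm x ^ (1 / 6 : ℝ) = ∏ j, ‖em x j‖ ^ (1 / 3 : ℝ) := by
  rw [nm_eq_prod, ← Real.finsetProd_rpow _ _ fun j _ => by positivity]
  refine Finset.prod_congr rfl fun j _ => ?_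
  rw [← Real.rpow_natCast, ← Real.rpow_mul (norm_nonneg _)]
  norm_num

open Classical in
/-- the coefficients without the constant term -/
noncomputable def tz (τ : K → ℂ) (ν : K) : ℂ := if ν = 0 then 0 else τ ν

theorem tz_ne {τ : K → ℂ} {ν : K} (h : tz τ ν ≠ 0) : ν ≠ 0 := by
  rintro rfl
  exact h (if_pos rfl)

theorem tz_of_ne (τ : K → ℂ) {ν : K} (h : ν ≠ 0) : tz τ ν = τ ν := if_neg h

theorem one_add_pow_le (r : ℕ) {δ : ℝ} (hδ : 0 < δ) :
    ∃ C : ℝ, 0 ≤ C ∧ ∀ x : ℝ, 0 ≤ x → (1 + x) ^ r ≤ C * Real.exp (δ * x) := by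
  refine ⟨r.factorial / δ ^ r * Real.exp δ, by positivity, fun x hx => ?_⟩
  have h := Real.pow_div_factorial_le_exp (δ * (1 + x)) (by positivity) r
  have hf : (0 : ℝ) < r.factorial := by exact_mod_cast r.factorial_pos
  rw [mul_pow, div_le_iff₀ hf, mul_add, mul_one, Real.exp_add] at h
  rw [div_mul_eq_mul_div, div_mul_eq_mul_div, le_div_iff₀ (by positivity)]
  linarith

theorem Ex.sm {τ : K → ℂ} {j : ℕ} (h : Ex τ j) : Sm (tz τ) (em : K → io K → ℂ) := by
  classical
  intro δ hδ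
  obtain ⟨C, hC⟩ := h.rs
  set r := Fintype.card (io K) with hr
  obtain ⟨C1, hC1, h1⟩ := one_add_pow_le r (half_pos hδ)
  have hD := lv_ne (K := K) j
  have hn := (cmK K).nm_pos hD
  set B : ℝ := √(max C 0 * nm (TH.lv K j) ^ (1 / 3 : ℝ)) with hB
  refine Summable.of_nonneg_of_le (fun ν => by positivity) (fun ν => ?_)
    ((summable_exp_lat hD (half_pos hδ)).mul_left (B * C1 ^ r))
  by_cases h0 : tz τ ν = 0
  · rw [h0, norm_zero, zero_mul]
    split_ifs <;> positivity
  have hν := tz_ne h0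
  rw [tz_of_ne τ hν] at h0 ⊢
  rw [if_pos (h.supp ν h0)]
  set X : ℝ := ∏ j, (1 + ‖em ν j‖) with hX
  have hX1 : ∀ j, 1 + ‖em ν j‖ ≤ X := fun j => by
    rw [hX, ← Finset.mul_prod_erase _ _ (Finset.mem_univ j)]
    exact le_mul_of_one_le_right (by positivity) (Finset.one_le_prod
      fun i _ => by linarith [norm_nonneg (em ν i)])
  obtain ⟨j0⟩ := (inferInstance : Nonempty (io K))
  have hX2 : 1 ≤ X := le_trans (by linarith [norm_nonneg (em ν j0)]) (hX1 j0)
  have h2 := hC (X ^ 2) (one_le_pow₀ hX2) {ν} (by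
    intro x hx
    rw [Finset.mem_singleton.1 hx]
    refine ⟨hν, fun i => ?_⟩
    rw [ab, Complex.normSq_eq_norm_sq]
    exact pow_le_pow_left₀ (norm_nonneg _) (le_trans (by
      change ‖em ν i‖ ≤ _; linarith) (hX1 i)) 2)
  rw [Finset.sum_singleton] at h2
  have h3 : 1 ≤ nm ν ^ (1 / 3 : ℝ) * nm (TH.lv K j) ^ (1 / 3 : ℝ) := by
    rw [← Real.mul_rpow ((cmK K).nm_nonneg _) hn.le, ← (cmK K).nm_mul, mul_comm]
    exact Real.one_le_rpow (one_le_nm_of (mul_ne_zero hD hν) (h.supp ν h0)) (by norm_num)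
  have h4 : ‖τ ν‖ ≤ B * X ^ r := by
    refine (pow_le_pow_iff_left₀ (norm_nonneg _) (by positivity) two_ne_zero).1 ?_
    rw [mul_pow, hB, Real.sq_sqrt (by positivity)]
    calc ‖τ ν‖ ^ 2 ≤ ‖τ ν‖ ^ 2 * (nm ν ^ (1 / 3 : ℝ) * nm (TH.lv K j) ^ (1 / 3 : ℝ)) :=
          le_mul_of_one_le_right (by positivity) h3
      _ = ‖τ ν‖ ^ 2 * nm ν ^ (1 / 3 : ℝ) * nm (TH.lv K j) ^ (1 / 3 : ℝ) := by ring
      _ ≤ max C 0 * (X ^ 2) ^ r * nm (TH.lv K j) ^ (1 / 3 : ℝ) := by
          refine mul_le_mul_of_nonneg_right (h2.trans ?_) (by positivity)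
          gcongr
          exact le_max_left _ _
      _ = _ := by ring
  have h5 : X ^ r ≤ C1 ^ r * ∏ j, Real.exp (δ / 2 * ‖em ν j‖) := by
    rw [hX, ← Finset.prod_pow, hr, ← Finset.card_univ, ← Finset.prod_const,
      ← Finset.prod_mul_distrib]
    exact Finset.prod_le_prod (fun j _ => by positivity) fun j _ => h1 _ (norm_nonneg _)
  calc ‖τ ν‖ * ∏ j, Real.exp (-(δ * ‖em ν j‖))
      ≤ B * (C1 ^ r * ∏ j, Real.exp (δ / 2 * ‖em ν j‖)) * ∏ j, Real.exp (-(δ * ‖em ν j‖)) := by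
        gcongr
        exact h4.trans (by gcongr)
    _ = _ := by
        rw [mul_assoc, mul_assoc, ← Finset.prod_mul_distrib, mul_assoc]
        congr 2
        refine Finset.prod_congr rfl fun j _ => ?_
        rw [← Real.exp_add]
        congr 1
        ring

/-- the kernel at the frequency `ν` for a cusp with denominator `C` -/
noncomputable def KK' (C ν : K) (t : io K → ℝ) : ℂ := KP (lg (em ν) (em C) + t)

theorem Ex.summable {τ : K → ℂ} {j : ℕ} (h : Ex τ j) {a : K → ℂ} (ha : ∀ ν, ‖a ν‖ ≤ ‖cf τ ν‖)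
    {C : K} (hC : C ≠ 0) (t : io K → ℝ) : Summable fun ν => a ν * KK' C ν t := by
  have hπ := Real.pi_pos
  have hn : ∀ j, 0 < ‖em C j‖ := fun j => norm_pos_iff.2 (em_ne hC j)
  set u : io K → ℝ := fun j => Real.exp (t j / 2) / ‖em C j‖ with hu
  have hu0 : ∀ j, 0 < u j := fun j => by have := hn j; simp only [hu]; positivity
  obtain ⟨a0, b0, ha0, hab⟩ := exists_box hu0
  obtain ⟨B, hB, hW⟩ := exists_Wk_le (b := b0) ha0
  set L : ℝ := (2 * π) ^ (2 / 3 : ℝ) with hL
  have hL0 : 0 < L := by positivity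
  refine Summable.of_norm_bounded ((h.sm a0 ha0).mul_left ((L * B) ^ Fintype.card (io K)))
    fun ν => ?_
  by_cases hν : ν = 0
  · have := ha ν
    rw [hν, cf_zero, norm_zero] at this
    rw [hν, norm_le_zero_iff.1 this, zero_mul, norm_zero]
    positivity
  rw [norm_mul, tz_of_ne τ hν]
  refine (mul_le_mul_of_nonneg_right (ha ν) (norm_nonneg _)).trans ?_
  rw [cf, norm_mul, mul_assoc, mul_left_comm]
  rw [mul_left_comm]
  rw [mul_left_comm ((L * B) ^ _)]
  refine mul_le_mul_of_nonneg_left ?_ (norm_nonneg _)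
  rw [nm_rpow, Complex.ofReal_prod, ← norm_mul, KK', KP, ← Finset.prod_mul_distrib, norm_prod,
    ← Finset.card_univ, ← Finset.prod_const, ← Finset.prod_mul_distrib]
  refine Finset.prod_le_prod (fun j _ => norm_nonneg _) fun j _ => ?_
  have h1 := Wk_mul_eq (em_ne hν j) (hu0 j)
  have h2 := norm_pos_iff.2 (em_ne hν j)
  have h3 := hn j
  have e : (2 * π * ‖em ν j‖ * u j) ^ 2 = Real.exp ((lg (em ν) (em C) + t) j) := by
    rw [Pi.add_apply, Real.exp_add, lg, Real.exp_log (by positivity)]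
    simp only [hu]
    have h4 : Real.exp (t j / 2) ^ 2 = Real.exp (t j) := by
      rw [← Real.exp_nat_mul]; congr 1; push_cast; ring
    rw [← h4]
    field_simp
  rw [← e, ← h1, norm_mul, norm_mul, Complex.norm_real, Complex.norm_real, Complex.norm_real,
    Real.norm_of_nonneg (Wk_nonneg _ (hu0 j).le), norm_norm, Real.norm_of_nonneg hL0.le]
  have h5 := hW (em ν j) (u j) (hab j).1.le (hab j).2.le
  have h6 := Wk_nonneg (em ν j) (hu0 j).le
  calc Wk (em ν j) (u j) * ‖em ν j‖ * L ≤ Wk (em ν j) (u j) * (1 + ‖em ν j‖) * L := by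
        gcongr; linarith
    _ ≤ B * Real.exp (-(a0 * ‖em ν j‖)) * L := by gcongr
    _ = _ := by ring

end Vale.Agent.P016Z.Vor
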