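import Vale.Agent.P016Z.Vor.Pre

/-!
P016, block VOR: the finitely many cusps, and the mean square at one cusp.
-/

namespace Vale.Agent.P016Z.Vor

open NumberField Vale.Agent.P006 Vale.Agent.P016Z.TH Vale.Agent.P026Z.Vor
open scoped ComplexConjugate Real

set_option linter.unusedSectionVars false

variable {K : Type} [Field K] [NumberField K] [Dat K]

/-- the twisted kernel identity for all denominators in two given fine classes -/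
def Core (s6 : R K → R K → ℂ) (τ τ' : K → ℂ) (N : ℤ) (k1 : ℕ) (s : K) (f1 f2 : R K) : Prop :=
  ∀ c h a d : R K, Fine k1 (f1 : K) (c : K) → Fine k1 (f2 : K) (h : K) → Squarefree h →
    c ∣ a * h ^ 2 * d - 1 → V N (a : K) → V N (d : K) → ∃ z : ℂ, ‖z‖ = 1 ∧ ∀ t,
      ∑' ν, aa τ (s + a / c) ν * conj (xt (fun x => s6 x h) ν) * KK' ((c : K) * h) ν t =
        Complex.exp (-(ln t : ℂ)) *
          ∑' ν, z * (bb τ' (d / c) ν * xt (fun x => s6 x h ^ 3) ν) * KK' ((c : K) * h) ν (-t)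

theorem exists_setup {S : Sy K} {s6 : R K → R K → ℂ} (hs : SymV S s6) {θ : HK K → ℂ} {M : ℕ}
    (hM : 1 ≤ M) (haut : ∀ γ ∈ Gam K M, ∀ w, θ (γ • w) = conj (S.kub γ) * θ w)
    {τ : SL2 K → K → ℂ} (hτ : ∀ g ∈ SLr K, IsExp (τ g) (fun w => θ (g • w)) ∧ ∃ j, Ex (τ g) j)
    {j1 : ℕ} (E1 : Ex (τ 1) j1) {T : Finset K} (hT : ∀ s ∈ T, s ∈ R K) :
    ∃ (k1 j l i : ℕ) (N : ℤ) (F : Finset (R K)) (τ' : K × R K × R K → K → ℂ), IsFine k1 F ∧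
      j1 ≤ j ∧ (j : ℤ) + 1 + i ≤ N ∧ (∀ s ∈ T, V (-(l : ℤ)) s) ∧
      (∀ f ∈ F, V (-(i : ℤ)) (f : K)⁻¹) ∧ ∀ p ∈ T ×ˢ F ×ˢ F,
        Ex (τ' p) j ∧ Core s6 (τ 1) (τ' p) N k1 p.1 p.2.1 p.2.2 := by
  classical
  obtain ⟨l, hl⟩ := exists_V_finset T
  obtain ⟨F, hF⟩ := exists_isFine (K := K) (M + 2 * l)
  obtain ⟨i, hi⟩ := exists_V_finset (F.image fun f : R K => (f : K))
  have hi' : ∀ f ∈ F, V (-(i : ℤ)) (f : K) ∧ V (-(i : ℤ)) (f : K)⁻¹ := fun f hf =>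
    hi _ (Finset.mem_image_of_mem _ hf)
  set n : ℤ := ((M + 2 * l : ℕ) : ℤ) + 1 with hn
  have key : ∀ p : K × R K × R K, ∃ (τ' : K → ℂ) (j : ℕ), p ∈ T ×ˢ F ×ˢ F → Ex τ' j ∧
      ∃ (A0 : K) (hφ : ((p.2.1 * p.2.2 : R K) : K) ≠ 0), cm p.1 A0 A0 hφ ∈ SLr K ∧
        V (n + (2 * i : ℕ)) A0 ∧ IsExp τ' fun w => θ (cm p.1 A0 A0 hφ • w) := by
    intro p
    by_cases hp : p ∈ T ×ˢ F ×ˢ F
    · obtain ⟨p1, p2⟩ := Finset.mem_product.1 hp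
      obtain ⟨p2, p3⟩ := Finset.mem_product.1 p2
      have h0 := mul_ne_zero (hF.1 _ p2) (hF.1 _ p3)
      obtain ⟨A0, h1, h2⟩ := exists_cm _ h0 (n + (2 * i : ℕ))
      have g0 := cm_mem (coe_ne_zero h0) (hT _ p1) A0.2 A0.2 (p.2.1 * p.2.2).2 h2
      obtain ⟨h3, j, h4⟩ := hτ _ g0
      exact ⟨_, j, fun _ => ⟨h4, A0, _, g0, h1, h3⟩⟩
    · exact ⟨0, 0, fun h => absurd h hp⟩
  choose τ' jp hp using key
  set j : ℕ := j1 + ∑ p ∈ T ×ˢ F ×ˢ F, jp p with hj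
  refine ⟨M + 2 * l, j, l, i, n + 4 * i + j + 1 + 2 * i, F, τ', hF, by omega, by omega,
    fun s h => (hl s h).1, fun f h => (hi' f h).2, fun p h => ?_⟩
  obtain ⟨E2, A0, hφ, g0, hA0, h3⟩ := hp p h
  have h4 : jp p ≤ ∑ p ∈ T ×ˢ F ×ˢ F, jp p := Finset.single_le_sum (fun _ _ => Nat.zero_le _) h
  have E2' : Ex (τ' p) j := E2.mono (by omega)
  obtain ⟨p1, p2⟩ := Finset.mem_product.1 h
  obtain ⟨p2, p3⟩ := Finset.mem_product.1 p2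
  refine ⟨E2', fun c h a d hc hh hsq had ha hd => ?_⟩
  have q2 := coe_ne_zero (hF.1 _ p2)
  have q3 := coe_ne_zero (hF.1 _ p3)
  have e1 : IsExp (τ 1) θ := by simpa using (hτ 1 (one_mem _)).1
  refine core hs hM haut e1 (E1.mono (k := j) (by omega)) (l := l) (i := 2 * i) (n := n)
    (by omega) (by push_cast; omega) (by push_cast; omega) (hT _ p1) (hl _ p1).1 hφ g0 hA0 ?_ ?_ h3
    E2' (fun h0 => hc.ne (by rw [h0]; rfl)) hsq had ha hd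
    ((hc.V q2 (hi' _ p2).1).mono (by omega)) ((hh.V q3 (hi' _ p3).1).mono (by omega))
    ((hh.V_inv q3 (hi' _ p3).2).mono (by omega)) (hc.mul hh)
  · exact (hi' _ p2).1.mul' (hi' _ p3).1 (by omega)
  · have := (hi' _ p2).2.mul' (hi' _ p3).2 (l := -((2 * i : ℕ) : ℤ)) (by omega)
    rwa [← mul_inv] at this

/-- the twisted sum on the side of the cusp at infinity -/
noncomputable def Sg (j : ℕ) {k : ℕ} (G : Subgroup (G0 K k)) [Fintype (G0 K k ⧸ G)] (τ : K → ℂ)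
    (s6 : R K → R K → ℂ) (x : K) (h : R K) (W : ℝ → ℂ) : ℂ :=
  ∑' y : Ix (G0 K k) (TH.lv K j), avg G (aa τ x) (rp y) * conj (s6 (rR y) h) * W (nn y)

/-- the conclusion of `dual_ms` -/
def DM (r : ℕ) (ε : ℝ) (W : ℝ → ℂ) (C' : ℝ) : Prop :=
  ∀ (κ η : Type) (S : Finset η) (ρ : η → κ → ℂ)
    (nn cT : κ → ℝ) (C t0 X Y q0 : ℝ) (q : η → ℝ) (β : κ → ℂ) (T : η → ℂ), 0 < C →
    LSh S ρ nn cT C ε Y → (∀ k, 1 ≤ nn k) → 0 < X → 1 ≤ Y → 0 < q0 → (∀ h ∈ S, q0 ≤ q h) →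
    (∀ k, ‖β k‖ ≤ cT k) → (∀ h ∈ S, HasSum (fun k =>
      β k * ρ h k * Wh r (-1 / 2) (Wsc W t0 (X * q h)) (q h * nn k)) (T h)) →
    ∑ h ∈ S, ‖T h‖ ^ 2 ≤ C' * C * (1 + |t0|) ^ (8 * r) *
      (X * (Y ^ ε * ((X * q0 ^ 2)⁻¹) ^ (2 * ε) * (Y + (X * q0 ^ 2)⁻¹)))

theorem Inv.inv1 {G : Subgroup Kˣ} {G1 : Subgroup G} {a b : K → ℂ} (ha : Inv1 G1 a) (hb : Inv G b) :
    Inv1 G1 fun ν => a ν * b ν := fun u hu ν => by
  simp only [ha u hu ν, hb _ u.2 ν]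

theorem xt_rp (F : R K → ℂ) {G : Subgroup Kˣ} {j : ℕ} (y : Ix G (TH.lv K j)) :
    xt F (rp y) = F (rR y) := xt_coe F (rR y)

/-- **the mean square at one cusp** -/
theorem ms_one {S : Sy K} {s6 : R K → R K → ℂ} (hs : SymV S s6) {τ τ' : K → ℂ}
    {j k l i k1 : ℕ} {N : ℤ} {s : K} {f1 f2 : R K} (E1 : Ex τ j) (E2 : Ex τ' j)
    (hC : Core s6 τ τ' N k1 s f1 f2) (hk : j + l ≤ k) (hα : ∀ u ∈ G0 K k, alp (u : K) = 1)
    (hsR : s ∈ R K) (hsV : V (-(l : ℤ)) s) (hN : (i : ℤ) ≤ N)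
    (sa : Summable fun x : Ix (G0 K k) (TH.lv K j) => ‖cf τ (rp x)‖ * nn x ^ (-(3 / 2) : ℝ))
    (sb : Summable fun x : Ix (G0 K k) (TH.lv K j) => ‖cf τ' (rp x)‖ * nn x ^ (-(3 / 2) : ℝ))
    {c c0 d : R K} (hc : Fine k1 (f1 : K) (c : K)) (c2 : V (-(i : ℤ)) (c : K)⁻¹) (hc0 : c ∣ c0)
    [Fintype (G0 K k ⧸ G1 k c0)] (hd : V N (d : K)) {η : Type} (T : Finset η) (ht a : η → R K)
    {B : ℝ} (hB : 0 < B)
    (hT : ∀ h ∈ T, Fine k1 (f2 : K) (ht h : K) ∧ Squarefree (ht h) ∧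
      c ∣ a h * ht h ^ 2 * d - 1 ∧ V N (a h : K) ∧ nm ((c : K) * ht h) ≤ B)
    {ρ : η → Ix (G0 K k) (TH.lv K j) → ℂ} (hρ : ∀ h ∈ T, ∀ y, ρ h y = s6 (rR y) (ht h) ^ 3)
    {C C' ε X Y q0 : ℝ} (hC0 : 0 < C) (hL : LSh T ρ nn (fun y => ‖cf τ' (rp y)‖) C ε Y)
    {W : ℝ → ℂ} {α β : ℝ} (H : P006.KER.Nice W α β) (hD : DM (Fintype.card (io K)) ε W C')
    (hX : 0 < X) (hY : 1 ≤ Y)
    (hq0 : q0 = ((2 * π) ^ 2) ^ Fintype.card (io K) / (nm (TH.lv K j) * B)) (t : ℝ) :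
    ∑ h ∈ T, ‖Sg j (G1 k c0) τ s6 (s + a h / c) (ht h) fun x => P026Z.Poi.wt W t (X⁻¹ * x)‖ ^ 2 ≤
      C' * C * (1 + |t|) ^ (8 * Fintype.card (io K)) *
        (X * (Y ^ ε * ((X * q0 ^ 2)⁻¹) ^ (2 * ε) * (Y + (X * q0 ^ 2)⁻¹))) := by
  have hπ := Real.pi_pos
  have hcK := hc.ne
  have hc' : c ≠ 0 := fun h0 => hcK (by rw [h0]; rfl)
  have hD0 := nm_pos' (lv_ne (K := K) j)
  set q : η → ℝ := fun h =>
    ((2 * π) ^ 2) ^ Fintype.card (io K) / (nm (TH.lv K j) * nm ((c : K) * ht h)) with hq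
  have hinv : ∀ (s : K) (a : R K), s ∈ R K → V (-(l : ℤ)) s → V N (a : K) → ∀ u ∈ G1 k c0,
      (((u : Kˣ) : K) - 1) * (s + a / c) ∈ R K ∧
        V ((j : ℤ) + 1) ((((u : Kˣ) : K) - 1) * (s + a / c)) := by
    intro s a h1 h2 h3 u hu
    have h4 := G0_le k u.2
    refine ⟨?_, (mem_P_iff.1 h4.2).mul' (h2.add ?_) (by omega)⟩
    · rw [mul_add, ← mul_div_assoc, mul_div_right_comm]
      exact add_mem (mul_mem (sub_mem h4.1.1 (one_mem _)) h1) (mul_mem (G1_mem hc' hc0 hu) a.2)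
    · rw [div_eq_mul_inv]
      exact h3.mul' c2 (by omega)
  have ib : Inv1 (G1 k c0) (bb τ' ((d : K) / c)) := by
    have := (inv1_aa E2 (by omega) hα (hinv 0 d (zero_mem _) (V_zero _) hd)).2
    rwa [zero_add] at this
  have key : ∀ h : η, ∃ Z : ℂ, h ∈ T →
      ‖Z‖ = ‖Sg j (G1 k c0) τ s6 (s + a h / c) (ht h) fun x => P026Z.Poi.wt W t (X⁻¹ * x)‖ ∧
      HasSum (fun y : Ix (G0 K k) (TH.lv K j) => avg (G1 k c0) (bb τ' ((d : K) / c)) (rp y) *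
        ρ h y * Wh (Fintype.card (io K)) (-1 / 2) (Wsc W t (X * q h)) (q h * nn y)) Z := by
    intro h
    by_cases hh : h ∈ T
    swap
    · exact ⟨0, fun h1 => absurd h1 hh⟩
    obtain ⟨h1, h2, h3, h4, -⟩ := hT h hh
    have h0 := h2.ne_zero
    obtain ⟨z, hz, hfe⟩ := hC c (ht h) (a h) d hc h1 h2 h3 h4 hd
    have hz0 : z ≠ 0 := norm_pos_iff.1 (by rw [hz]; exact one_pos)
    have hch : (c : K) * ht h ≠ 0 := mul_ne_zero hcK h1.ne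
    have hq1 : 0 < q h := by
      have := nm_pos' hch
      simp only [hq]
      positivity
    have ia := (inv1_aa E1 (by omega) hα (hinv s (a h) hsR hsV h4)).1
    have i1 : Inv (G0 K k) fun ν => conj (xt (fun x => s6 x (ht h)) ν) := fun u hu ν =>
      congrArg conj (inv_xt hs h0 k id u hu ν)
    have i3 : Inv (G0 K k) fun ν => z * xt (fun x => s6 x (ht h) ^ 3) ν := fun u hu ν =>
      congrArg (z * ·) (inv_xt hs h0 k (· ^ 3) u hu ν)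
    have n1 : ∀ ν, ‖conj (xt (fun x => s6 x (ht h)) ν)‖ ≤ 1 := fun ν => by
      rw [Complex.norm_conj]
      exact norm_xt_le (fun x => hs.norm_le h0 x) ν
    have n3 : ∀ ν, ‖z * xt (fun x => s6 x (ht h) ^ 3) ν‖ ≤ 1 := fun ν => by
      rw [norm_mul, hz, one_mul]
      exact norm_xt_le (fun x => by
        rw [norm_pow]; exact pow_le_one₀ (norm_nonneg _) (hs.norm_le h0 x)) ν
    have h5 := vor_Ex E1 E2 (by omega) (Inv.inv1 ia i1) (Inv.inv1 ib i3)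
      (fun ν => by
        rw [norm_mul]
        exact (mul_le_of_le_one_right (norm_nonneg _) (n1 ν)).trans (norm_aa_le _ _ _))
      (fun ν => by
        rw [norm_mul]
        exact (mul_le_of_le_one_right (norm_nonneg _) (n3 ν)).trans (norm_bb_le _ _ _))
      sa sb hch (fun t => by rw [hfe t]; simp only [mul_left_comm z])
      (nice_Wsc H t (mul_pos hX hq1)) (q := q h) rfl
    simp only [avg_mul i1, avg_mul i3, xt_rp] at h5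
    refine ⟨z⁻¹ * Sg j (G1 k c0) τ s6 (s + a h / c) (ht h) fun x => P026Z.Poi.wt W t (X⁻¹ * x),
      fun _ => ⟨by rw [norm_mul, norm_inv, hz, inv_one, one_mul], ?_⟩⟩
    convert h5.mul_left z⁻¹ using 2 with y
    · rfl
    · rw [hρ h hh]
      field_simp
    · refine tsum_congr fun y => ?_
      rw [Wsc, show (X * q h)⁻¹ * (q h * nn y) = X⁻¹ * nn y by field_simp]
  choose Z hZ using key
  rw [← Finset.sum_congr rfl fun h hh => congrArg (· ^ 2) (hZ h hh).1]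
  refine hD _ _ T ρ nn _ C t X Y q0 q _ Z hC0 hL (one_le_nn (lv_ne j)) hX hY (by rw [hq0]; positivity)
    (fun h hh => ?_) (fun y => norm_avg_le (m := fun ν => ‖cf τ' ν‖)
      (fun u hu ν => congrArg norm (E2.inv_cf (by omega) u hu ν)) (norm_bb_le _ _) _)
    fun h hh => (hZ h hh).2
  have := nm_pos' (mul_ne_zero hcK (hT h hh).1.ne)
  rw [hq0]
  simp only [hq]
  gcongr
  exact (hT h hh).2.2.2.2

end Vale.Agent.P016Z.Vor
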