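import Vale.Agent.P016Z.Vor.M1

/-!
P016, block VOR: the sum over a fine class as a combination of sums at the cusps.
-/

namespace Vale.Agent.P016Z.Vor

open NumberField Vale.Agent.P006 Vale.Agent.P016Z.TH Vale.Agent.P026Z.Vor
open scoped ComplexConjugate Real

set_option linter.unusedSectionVars false

variable {K : Type} [Field K] [NumberField K] [Dat K]

open Classical in
/-- the coefficients on one fine class -/
noncomputable def a0 (τ : K → ℂ) (k0 : ℕ) (φ : K) (f : M K → ℂ) (ν : K) : ℂ :=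
  if Fine k0 φ ν then cf τ ν * alp ν * xt (fun x => f (mkM x)) ν else 0

theorem inv_xt_mkM (f : M K → ℂ) (k : ℕ) : Inv (G0 K k) (xt fun x => f (mkM x)) := by
  intro u hu ν
  by_cases hν : ν ∈ R K
  · obtain ⟨ν, rfl⟩ : ∃ x : R K, (x : K) = ν := ⟨⟨ν, hν⟩, rfl⟩
    have hR := (G0_le k hu).1
    have e : (u : K) * ν = ((((ofK u hR : (R K)ˣ) : R K) * ν : R K) : K) := rfl
    rw [e, xt_coe, xt_coe]
    exact congrArg f (mkM_eq.2 ⟨u, G0_le_U k hu, rfl⟩).symm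
  · rw [xt_of_not _ hν, xt_of_not _ fun h1 => hν ((mul_mem_R_iff (G0_le k hu).1).1 h1)]

theorem inv_a0 {τ : K → ℂ} {j k k0 : ℕ} (E : Ex τ j) (hjk : j ≤ k) (hk : k0 ≤ k)
    (hα : ∀ u ∈ G0 K k, alp (u : K) = 1) (φ : K) (f : M K → ℂ) : Inv (G0 K k) (a0 τ k0 φ f) := by
  intro u hu ν
  rw [a0, a0, fine_unit_mul_iff (P_mono hk (G0_le k hu).2), E.inv_cf hjk u hu, alp_mul, hα u hu,
    one_mul, inv_xt_mkM f k u hu]

open Classical in
theorem a0_eq {τ : K → ℂ} {j k0 : ℕ} (E1 : Ex τ j) {φ : K} {T : Finset K} {β : K → ℂ}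
    (hβ : ∀ ν : K, IsIntegral ℤ (TH.lv K j * ν) →
      (if Fine k0 φ ν then 1 else 0 : ℂ) = ∑ s ∈ T, β s * eT (ν * s))
    {f : M K → ℂ} {ι : Type} [Fintype ι] {γ : ι → ℂ} {x : ι → K}
    (hx : ∀ i, V ((j : ℤ) + 1) (x i))
    (hf : ∀ ν : R K, Fine k0 φ (ν : K) → f (mkM ν) = ∑ i, γ i * psi (ν * x i)) (ν : K) :
    a0 τ k0 φ f ν = ∑ p ∈ T ×ˢ (Finset.univ : Finset ι), β p.1 * γ p.2 * aa τ (p.1 + x p.2) ν := by
  by_cases hν : cf τ ν = 0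
  · simp [a0, aa, hν]
  have h1 := (E1.cf_supp hν).2
  obtain ⟨ν, rfl⟩ : ∃ y : R K, (y : K) = ν := ⟨⟨ν, mem_R_of_lv h1⟩, rfl⟩
  have h2 : ∀ i, eT ((ν : K) * x i) = psi (ν * x i) := fun i =>
    eT_eq_psi ((V_of_lv h1).mul' (hx i) (by omega))
  have h3 : ∑ p ∈ T ×ˢ (Finset.univ : Finset ι), β p.1 * γ p.2 * aa τ (p.1 + x p.2) ν =
      (∑ s ∈ T, β s * eT (ν * s)) * (cf τ ν * alp (ν : K) * ∑ i, γ i * psi (ν * x i)) := by
    rw [Finset.sum_product, Finset.sum_mul]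
    refine Finset.sum_congr rfl fun s _ => ?_
    rw [Finset.mul_sum, Finset.mul_sum]
    refine Finset.sum_congr rfl fun i _ => ?_
    rw [aa_add, aa, h2]
    ring
  rw [h3, ← hβ _ h1, a0, xt_coe]
  split_ifs with h
  · rw [hf ν h, one_mul]
  · rw [zero_mul]

theorem norm_sum_mul_sq_le {ι : Type} (s : Finset ι) (a b : ι → ℂ) :
    ‖∑ i ∈ s, a i * b i‖ ^ 2 ≤ (∑ i ∈ s, ‖a i‖ ^ 2) * ∑ i ∈ s, ‖b i‖ ^ 2 := by
  refine le_trans ?_ (Finset.sum_mul_sq_le_sq_mul_sq s (fun i => ‖a i‖) fun i => ‖b i‖)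
  refine pow_le_pow_left₀ (norm_nonneg _) ((norm_sum_le _ _).trans (le_of_eq ?_)) 2
  simp only [norm_mul]

open Classical in
/-- the sum over a fine class is bounded by sums at the cusps -/
theorem prim_le {S : Sy K} {s6 : R K → R K → ℂ} (hs : SymV S s6) {τ : K → ℂ} {j1 j k k0 : ℕ}
    (E1 : Ex τ j1) (hj : j1 ≤ j) (hjk : j ≤ k) (hk : k0 ≤ k)
    (hα : ∀ u ∈ G0 K k, alp (u : K) = 1) {φ : K} {T : Finset K} {β : K → ℂ}
    (hβ : ∀ ν : K, IsIntegral ℤ (TH.lv K j1 * ν) →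
      (if Fine k0 φ ν then 1 else 0 : ℂ) = ∑ s ∈ T, β s * eT (ν * s))
    {f : M K → ℂ} {ι : Type} [Fintype ι] {γ : ι → ℂ} (hγ : ∑ i, ‖γ i‖ ^ 2 ≤ 1) {x : ι → K}
    (hx : ∀ i, V ((j1 : ℤ) + 1) (x i))
    (hf : ∀ ν : R K, Fine k0 φ (ν : K) → f (mkM ν) = ∑ i, γ i * psi (ν * x i))
    (sa : Summable fun y : Ix (G0 K k) (TH.lv K j) => ‖cf τ (rp y)‖ * nn y ^ (-(3 / 2) : ℝ))
    (G : Subgroup (G0 K k)) [Fintype (G0 K k ⧸ G)] {h : R K} (h0 : h ≠ 0) {W : ℝ → ℂ} {a b : ℝ}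
    (H : P006.KER.Nice W a b) :
    ‖∑' y : Ix (G0 K k) (TH.lv K j), a0 τ k0 φ f (rp y) * conj (s6 (rR y) h) * W (nn y)‖ ^ 2 ≤
      (∑ s ∈ T, ‖β s‖ ^ 2) *
        ∑ p ∈ T ×ˢ (Finset.univ : Finset ι), ‖Sg j G τ s6 (p.1 + x p.2) h W‖ ^ 2 := by
  have E := E1.mono hj
  have h1 : ∀ ν, a0 τ k0 φ f ν = ∑ p ∈ T ×ˢ (Finset.univ : Finset ι),
      β p.1 * γ p.2 * avg G (aa τ (p.1 + x p.2)) ν := fun ν => by
    rw [← avg_of_inv (G1 := G) (inv_a0 E hjk hk hα φ f), funext (a0_eq E1 hβ hx hf), avg_sum]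
  have h2 : ∀ z : K, Summable fun y : Ix (G0 K k) (TH.lv K j) =>
      avg G (aa τ z) (rp y) * conj (s6 (rR y) h) * W (nn y) := fun z => by
    have := summable_wt (a := fun y : Ix (G0 K k) (TH.lv K j) =>
      avg G (aa τ z) (rp y) * conj (s6 (rR y) h)) (fun y => by
        rw [norm_mul, Complex.norm_conj]
        exact (mul_le_of_le_one_right (norm_nonneg _) (hs.norm_le h0 _)).trans
          (norm_avg_le (m := fun ν => ‖cf τ ν‖)
            (fun u hu ν => congrArg norm (E.inv_cf hjk u hu ν)) (norm_aa_le _ _) _))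
      (one_le_nn (lv_ne j)) sa H one_pos
    simpa only [one_mul] using this
  have h3 : ∑' y : Ix (G0 K k) (TH.lv K j), a0 τ k0 φ f (rp y) * conj (s6 (rR y) h) * W (nn y) =
      ∑ p ∈ T ×ˢ (Finset.univ : Finset ι), β p.1 * γ p.2 * Sg j G τ s6 (p.1 + x p.2) h W := by
    simp only [Sg, ← tsum_mul_left]
    rw [← Summable.tsum_finsetSum fun p _ => (h2 _).mul_left _]
    refine tsum_congr fun y => ?_
    rw [h1, Finset.sum_mul, Finset.sum_mul]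
    exact Finset.sum_congr rfl fun p _ => by ring
  rw [h3]
  refine (norm_sum_mul_sq_le _ _ _).trans (mul_le_mul_of_nonneg_right ?_ (by positivity))
  rw [Finset.sum_product]
  refine Finset.sum_le_sum fun s _ => ?_
  simp only [norm_mul, mul_pow, ← Finset.mul_sum]
  exact mul_le_of_le_one_right (by positivity) hγ

theorem nice_of_isWt {W : ℝ → ℂ} (hW : Ab.IsWt W) : ∃ a b : ℝ, P006.KER.Nice W a b := by
  obtain ⟨h1, a, b, ha, hab⟩ := hW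
  refine ⟨a, max a b, h1, ha, le_max_left _ _, fun x hx => ?_⟩
  by_contra hne
  exact hx ⟨(hab x hne).1, (hab x hne).2.trans (le_max_right _ _)⟩

variable [Ab.Rad (M K)]

theorem finS_wt {W : ℝ → ℂ} {a b : ℝ} (H : P006.KER.Nice W a b) (g : M K → ℂ) (t : Ab.Tw (M K))
    {X : ℝ} (hX : 0 < X) : FinS fun m => g m * Ab.wt W t X m :=
  ⟨b * X, fun m hm => by
    change g m * Ab.wt W t X m = 0
    rw [Ab.wt, H.supp _ fun h => hm.not_ge ((div_le_iff₀ hX).1 h.2), zero_mul, mul_zero]⟩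

theorem wt_eq (W : ℝ → ℂ) (t : ℝ) {X : ℝ} (hX : 0 < X) {m : M K} (hm : m ≠ 0) :
    Ab.wt W (show Ab.Tw (M K) from t) X m =
      (X : ℂ) ^ ((t : ℂ) * Complex.I) * P026Z.Poi.wt W t (X⁻¹ * Ab.N m) := by
  rw [Ab.wt, Ab.ps_rad _ hm, P026Z.Poi.wt, div_eq_inv_mul, mul_left_comm,
    ← Complex.mul_cpow_ofReal_nonneg hX.le (by positivity)]
  congr 2
  push_cast
  rw [mul_inv_cancel_left₀ (by exact_mod_cast hX.ne')]

end Vale.Agent.P016Z.Vor
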