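import Vale.Agent.P016Z.Vor.M2
import Vale.Agent.P016Z.Ab.V6

/-!
P016, block VOR: the mean square for one fine class, and the assembly.
-/

namespace Vale.Agent.P016Z.Vor

open NumberField Vale.Agent.P006 Vale.Agent.P016Z.TH Vale.Agent.P026Z.Vor
open scoped ComplexConjugate Real

set_option linter.unusedSectionVars false

variable {K : Type} [Field K] [NumberField K] [Dat K] [Ab.Rad (M K)]

open Classical in
/-- the twisted sum over one fine class -/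
noncomputable def Cs (A : SymA K) (k0 : ℕ) (φ : K) (f : M K → ℂ) (h : M K) (W : ℝ → ℂ) (X : ℝ)
    (t : Ab.Tw (M K)) : ℂ :=
  ∑' m : M K, if FineM k0 φ m then
    conj (A.tauM m) * f m * conj (A.chiM h m) * Ab.wt W t X m else 0

open Classical in
theorem Cs_le (A : SymA K) {k0 j k n0 : ℕ} {φ : R K} (hφ : φ ≠ 0) (hn0 : 1 ≤ n0)
    (hL : ∀ F : M K → ℂ, FinS F →
      (n0 : ℂ) * (∑' m : M K, if FineM k0 (φ : K) m then F m else 0) =
        ∑' x : Ix (G0 K k) (TH.lv K j), if Fine k0 (φ : K) (rp x) then F (mkM (rR x)) else 0)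
    {T : ℂ} (hT : T ≠ 0) {τ : K → ℂ}
    (hcf : ∀ x : R K, Fine k0 (φ : K) (x : K) → cf τ x * alp (x : K) = T * conj (A.tauR x))
    (f : M K → ℂ) {h : R K} (h0 : h ≠ 0) {W : ℝ → ℂ} {a b : ℝ} (H : P006.KER.Nice W a b) {X σ : ℝ}
    (hX : 0 < X) (hσ : σ = nm (TH.lv K j * φ) / Nr φ) (t : ℝ) :
    ‖Cs A k0 φ f (mkM h) W X t‖ ≤ ‖T‖⁻¹ * ‖∑' y : Ix (G0 K k) (TH.lv K j),
      a0 τ k0 φ f (rp y) * conj (A.x6 h (rR y)) * P026Z.Poi.wt W t ((σ * X)⁻¹ * nn y)‖ := by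
  have h1 := hL _ (finS_wt H (fun m => conj (A.tauM m) * f m * conj (A.chiM (mkM h) m)) t hX)
  have hN : (0 : ℝ) < Nr φ := by exact_mod_cast Nr_pos hφ
  have hD := nm_pos' (lv_ne (K := K) j)
  have hφ' := nm_pos' (coe_ne_zero hφ)
  have h2 : T * ((n0 : ℂ) * Cs A k0 φ f (mkM h) W X t) = (X : ℂ) ^ ((t : ℂ) * Complex.I) *
      ∑' y : Ix (G0 K k) (TH.lv K j),
        a0 τ k0 φ f (rp y) * conj (A.x6 h (rR y)) * P026Z.Poi.wt W t ((σ * X)⁻¹ * nn y) := by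
    rw [Cs, h1, ← tsum_mul_left, ← tsum_mul_left]
    refine tsum_congr fun y => ?_
    rw [a0]
    split_ifs with hy
    · have y0 : rR y ≠ 0 := fun h => rp_ne y (congrArg Subtype.val h)
      have e1 := Fine.nm_ratio (x := rR y) hy hφ
      have e2 : (σ * X)⁻¹ * nn y = X⁻¹ * Ab.N (mkM (rR y)) := by
        rw [N_mkM, nn, hσ, nm_mul', nm_mul']
        rw [coe_rR] at e1
        field_simp
        linarith
      have e3 := hcf (rR y) hy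
      rw [coe_rR] at e3
      rw [e3, e2, wt_eq W t hX (mkM_ne_zero.2 y0), xt_rp, A.tauM_mkM, A.chiM_mkM h0]
      ring
    · simp
  have h3 := congrArg norm h2
  rw [norm_mul, norm_mul, norm_mul, Complex.norm_natCast,
    Complex.norm_cpow_eq_rpow_re_of_pos hX] at h3
  simp only [Complex.mul_re, Complex.ofReal_re, Complex.I_re, mul_zero, Complex.ofReal_im,
    Complex.I_im, mul_one, sub_self, Real.rpow_zero, one_mul] at h3
  rw [← h3, inv_mul_cancel_left₀ (norm_ne_zero_iff.2 hT)]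
  exact le_mul_of_one_le_left (norm_nonneg _) (by exact_mod_cast hn0)

theorem Nr_le_of_dvd {a b : R K} (hb : b ≠ 0) (h : a ∣ b) : (Nr a : ℝ) ≤ Nr b := by
  obtain ⟨c, rfl⟩ := h
  rw [Nr_mul]
  exact_mod_cast Nat.le_mul_of_pos_right _ (Nr_pos (right_ne_zero_of_mul hb))

/-- the statement of the mean square bound for a family of sums -/
def MS (Z : Ab.Tw (M K) → ℝ → (M K → ℂ) → M K → ℂ) (ε C : ℝ) (e : ℕ) : Prop :=
  ∀ (t : Ab.Tw (M K)) (X Y : ℝ) (c : M K) (f : M K → M K → ℂ) (S : Finset (M K)), 1 ≤ X → 1 ≤ Y →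
    Ab.Prim c → (∀ h k, ‖f h k‖ ≤ 1) → (∀ h, Ray c (f h)) →
    (∀ h ∈ S, Ab.Sq h ∧ IsRelPrime h c ∧ (Ab.N h : ℝ) ≤ Y) →
    ∑ h ∈ S, ‖Z t X (f h) h‖ ^ 2 ≤
      C * Ab.sz t ^ e * (X * Y * Ab.N c) ^ ε * (X * Ab.N c * (Y + Y ^ 2 * (Ab.N c : ℝ) ^ 2 / X))

/-- **the mean square for one fine class** -/
theorem cls_bound (A : SymA K) (hV : SymV A.sy fun x n => A.x6 n x) (hQ : Ab.QLSmod A.rhoM)
    (h1 : ShStmt A) (h4 : Left2 K) (h5 : SExp K) (h6 : RExp K) {k0 : ℕ} (hk0 : 1 ≤ k0)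
    (hα : ∀ u ∈ Ru K, u ∈ P K k0 → alp (u : K) = 1) {φ : R K} (hφ : φ ≠ 0) {θ : HK K → ℂ} {M0 : ℕ}
    {T : ℂ} {τ : SL2 K → K → ℂ} (hT0 : T ≠ 0) (hM : 1 ≤ M0)
    (haut : ∀ γ ∈ Gam K M0, ∀ w, θ (γ • w) = conj (A.sy.kub γ) * θ w)
    (hτ : ∀ g ∈ SLr K, IsExp (τ g) (fun w => θ (g • w)) ∧ ∃ j, Ex (τ g) j)
    (hcf : ∀ x : R K, Fine k0 (φ : K) (x : K) → cf (τ 1) x * alp (x : K) = T * conj (A.tauR x))
    {W : ℝ → ℂ} {α β : ℝ} (H : P006.KER.Nice W α β) {ε : ℝ} (hε : 0 < ε) :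
    ∃ C : ℝ, MS (fun t X f h => Cs A k0 φ f h W X t) ε C (8 * Fintype.card (io K)) := by
  classical
  have hπ := Real.pi_pos
  obtain ⟨ε', e1, e2, e3⟩ : ∃ ε' : ℝ, 0 < ε' ∧ ε' ≤ 1 / 2 ∧ 5 * ε' ≤ ε :=
    ⟨min (1 / 2) (ε / 5), by positivity, min_le_left _ _, by
      linarith [min_le_right (1 / 2) (ε / 5)]⟩
  obtain ⟨C', hC', hD⟩ := dual_ms (Fintype.card (io K)) e1 e2 H
  obtain ⟨j0, E0⟩ := (hτ 1 (one_mem _)).2
  obtain ⟨i1, hi1⟩ := exists_V (φ : K)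
  have E1 : Ex (τ 1) (j0 + i1) := E0.mono (by omega)
  have hφK := coe_ne_zero hφ
  obtain ⟨L, b, hL, hb⟩ := h5 φ k0 (j0 + i1) hφK
  obtain ⟨k1, j, l, i, N, F, τ', hF, hj, hN, hl, hi, hp⟩ := exists_setup hV hM haut hτ E1 hL
  obtain ⟨k, hk⟩ : ∃ k, k = k0 + j + l := ⟨_, rfl⟩
  obtain ⟨n0, hn0, hn⟩ := h4 k0 j k φ hk0 (by omega) hφ (hi1.mono (by omega))
  have hα' : ∀ u ∈ G0 K k, alp (u : K) = 1 := fun u hu =>
    hα u (G0_le k hu).1 (P_mono (by omega) (G0_le k hu).2)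
  have sa := (h1 hQ (τ 1) j k (E1.mono hj) (by omega)).1
  have key : ∀ p, ∃ C : ℝ, 0 < C ∧ (p ∈ L ×ˢ F ×ˢ F → ∀ (Y : ℝ) (S : Finset (M K)), 1 ≤ Y →
      (∀ h ∈ S, Ab.Sq h ∧ (Ab.N h : ℝ) ≤ Y) →
        LSh S (fun h (x : Ix (G0 K k) (TH.lv K j)) => A.rhoM h (mkM (rR x))) nn
          (fun x => ‖cf (τ' p) (rp x)‖) C ε' Y) := fun p => by
    by_cases h : p ∈ L ×ˢ F ×ˢ F
    · obtain ⟨C, h2, h3⟩ := (h1 hQ (τ' p) j k (hp p h).1 (by omega)).2 ε' e1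
      exact ⟨C, h2, fun _ => h3⟩
    · exact ⟨1, one_pos, fun h2 => absurd h2 h⟩
  choose Cp hCp hLS using key
  obtain ⟨B, hB, hBb⟩ := hF.exists_bound
  have hD0 := nm_pos' (lv_ne (K := K) j)
  obtain ⟨σ, hσ⟩ : ∃ σ : ℝ, σ = nm (TH.lv K j * φ) / Nr φ := ⟨_, rfl⟩
  have hσ0 : 0 < σ := by
    rw [hσ]
    exact div_pos (nm_pos' (mul_ne_zero (lv_ne j) hφK)) (by exact_mod_cast Nr_pos hφ)
  obtain ⟨κ, hκ⟩ : ∃ κ : ℝ, κ = ((2 * π) ^ 2) ^ Fintype.card (io K) / (nm (TH.lv K j) * B ^ 2) :=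
    ⟨_, rfl⟩
  have hκ0 : 0 < κ := by rw [hκ]; positivity
  obtain ⟨C1, hC1⟩ : ∃ C1 : ℝ, C1 = ∑ p ∈ L ×ˢ F ×ˢ F, Cp p := ⟨_, rfl⟩
  refine ⟨‖T‖⁻¹ ^ 2 * (∑ s ∈ L, ‖b s‖ ^ 2) * (L.card * F.card *
    (C' * C1 * (σ * ((σ * κ ^ 2)⁻¹ + 1) ^ 2))), fun t X Y c f S hX hY hc hf hR hS => ?_⟩
  have hc0 := rep_ne_zero.2 hc.ne_zero
  have := finite_Rs hc0
  have := Fintype.ofFinite (Rs (rep c))
  have := finite_G1 k hc0
  have := Fintype.ofFinite (G0 K k ⧸ G1 k (rep c))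
  have hm : (1 : ℝ) ≤ Ab.N c := Ab.one_le_N hc.ne_zero
  have hX0 : 0 < X := by linarith
  have k2 : ∀ h : M K, ∃ x f2 y : R K, h ∈ S → mkM x = h ∧ f2 ∈ F ∧ Fine k1 (f2 : K) (x : K) ∧
      rep c ∣ y * x ^ 2 - 1 := fun h => by
    by_cases hh : h ∈ S
    · obtain ⟨u, h2, f2, h3, h7⟩ := hF.2 _ (rep_ne_zero.2 (hS h hh).1.ne_zero)
      rw [mkM_rep] at h2
      have h8 : IsCoprime ((u : R K) * rep h) (rep c) := by
        rw [← isRelPrime_mkM, h2, mkM_rep]; exact (hS h hh).2.1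
      obtain ⟨y, z, h9⟩ := h8.pow_left (m := 2)
      exact ⟨_, f2, y, fun _ => ⟨h2, h3, h7, -z, by linear_combination h9⟩⟩
    · exact ⟨0, 0, 0, fun h2 => absurd h2 hh⟩
  choose ht f2 h' hh using k2
  choose c1 a1 d hc1 hc2 hc3 hc4 hc5 using fun x : Rs (rep c) => hF.lowest hc0 x.out N
  choose f1 hf1 hf1' using hc2
  have c1n : ∀ x, c1 x ≠ 0 := fun x => ne_zero_of_dvd_ne_zero hc0 (hc1 x)
  have c2 : ∀ x, V (-(i : ℤ)) (c1 x : K)⁻¹ := fun x =>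
    (hf1' x).V_inv (coe_ne_zero (hF.1 _ (hf1 x))) (hi _ (hf1 x))
  choose a ha1 ha2 using fun (h : M K) (x : Rs (rep c)) =>
    exists_deep (a1 x * h' h) (c1 x) (c1n x) N
  set U : ℝ → ℂ := fun x => P026Z.Poi.wt W t ((σ * X)⁻¹ * x) with hU
  set Z : M K → K × Rs (rep c) → ℝ := fun h p => ‖Sg j (G1 k (rep c)) (τ 1) (fun x n => A.x6 n x)
    (p.1 + a h p.2 / c1 p.2) (ht h) U‖ ^ 2 with hZ
  have s1 : ∀ h ∈ S, ‖Cs A k0 φ (f h) h W X t‖ ^ 2 ≤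
      ‖T‖⁻¹ ^ 2 * (∑ s ∈ L, ‖b s‖ ^ 2) * ∑ p ∈ L ×ˢ Finset.univ, Z h p := by
    intro h hS1
    obtain ⟨q1, q2, q3, z, q4⟩ := hh h hS1
    have h0 : ht h ≠ 0 := fun h0 => q3.ne (by rw [h0]; rfl)
    obtain ⟨g, g1, g2, g3⟩ := exists_per hk0 hc.ne_zero (hR h) (hf h) hφK
    obtain ⟨γ, hγ, g4⟩ := h6 (rep c) (h' h) g hc0 ⟨ht h ^ 2, -z, by linear_combination q4⟩ g1 g2
    have h7 := Cs_le A hφ hn0 hn hT0 hcf (f h) h0 H hX0 hσ t
    rw [q1] at h7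
    have h8 := prim_le hV E1 hj (by omega) (by omega) hα' hb (f := f h) hγ
      (x := fun x => (a h x : K) / c1 x) (fun x => by
        rw [div_eq_mul_inv]; exact (ha2 h x).mul' (c2 x) (by omega)) (fun ν hν => by
        rw [← g3 ν hν, g4]
        refine Finset.sum_congr rfl fun x _ => ?_
        rw [E]
        congr 1
        refine psi_congr ?_
        have h9 := (dvd_iff_div_mem (c1n x)).1 ((ha1 h x).mul_left (-ν))
        convert h9 using 1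
        push_cast
        rw [mul_comm ((x.out : R K) : K), ← mul_assoc, mul_div_assoc, hc3]
        ring) sa (G1 k (rep c)) h0 (nice_Wsc H t (mul_pos hσ0 hX0))
    rw [mul_assoc]
    refine (pow_le_pow_left₀ (norm_nonneg _) h7 2).trans ?_
    rw [mul_pow]
    exact mul_le_mul_of_nonneg_left h8 (by positivity)
  set Q0 : ℝ := C' * C1 * (σ * ((σ * κ ^ 2)⁻¹ + 1) ^ 2) * (Ab.sz t ^ (8 * Fintype.card (io K)) *
    ((X * Y * Ab.N c) ^ ε * (X * (Y + Y ^ 2 * (Ab.N c : ℝ) ^ 2 / X)))) with hQ0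
  have s2 : ∀ p ∈ L ×ˢ (Finset.univ : Finset (Rs (rep c))), ∀ g ∈ F,
      ∑ h ∈ S with f2 h = g, Z h p ≤ Q0 := by
    rintro ⟨s, x⟩ p1 g hg
    have p2 := (Finset.mem_product.1 p1).1
    have p3 : (s, f1 x, g) ∈ L ×ˢ F ×ˢ F :=
      Finset.mem_product.2 ⟨p2, Finset.mem_product.2 ⟨hf1 x, hg⟩⟩
    obtain ⟨E2, hC⟩ := hp _ p3
    have h7 := ms_one hV (E1.mono hj) E2 hC (by omega) hα' (hL s p2) (hl s p2) (i := i) (by omega) sa
      (h1 hQ _ j k E2 (by omega)).1 (hf1' x) (c2 x) (hc1 x) (hc5 x) (S.filter fun h => f2 h = g) ht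
      (fun h => a h x) (B := B ^ 2 * (Ab.N c * Y)) (by positivity) (fun h hS1 => ?_)
      (fun h hS1 y => ?_) (hCp _) (hLS _ p3 Y _ hY fun h hS1 =>
        ⟨(hS h (Finset.mem_filter.1 hS1).1).1, (hS h (Finset.mem_filter.1 hS1).1).2.2⟩) H hD
      (mul_pos hσ0 hX0) hY (q0 := κ / (Ab.N c * Y)) (by rw [hκ]; field_simp) t
    · refine h7.trans ?_
      have h8 := final_real e1 e2 e3 hX hY hm hσ0 hκ0
      have h9 : Cp (s, f1 x, g) ≤ C1 := by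
        rw [hC1]; exact Finset.single_le_sum (fun p _ => (hCp p).le) p3
      have h10 := (hCp (s, f1 x, g)).le
      calc _ ≤ C' * C1 * (1 + |(show ℝ from t)|) ^ (8 * Fintype.card (io K)) * _ :=
            mul_le_mul (mul_le_mul_of_nonneg_right (mul_le_mul_of_nonneg_left h9 hC')
              (by positivity)) h8 (by positivity)
              (mul_nonneg (mul_nonneg hC' (h10.trans h9)) (by positivity))
        _ = Q0 := by rw [hQ0, Ab.sz_rad]; ring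
    · obtain ⟨hS2, rfl⟩ := Finset.mem_filter.1 hS1
      obtain ⟨q1, q2, q3, q4⟩ := hh h hS2
      refine ⟨q3, by rw [← squarefree_mkM, q1]; exact (hS h hS2).1.2, ?_, ha2 h x, ?_⟩
      · have := dvd_add (dvd_add ((ha1 h x).mul_right (ht h ^ 2 * d x))
          (((hc1 x).trans q4).mul_right (a1 x * d x))) (hc4 x)
        convert this using 1
        ring
      · have b1 := (hBb _ (hf1 x) _ (hf1' x)).trans
          (mul_le_mul_of_nonneg_left (Nr_le_of_dvd hc0 (hc1 x)) hB.le)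
        have b2 := hBb _ q2 _ q3
        rw [← N_mkM, q1] at b2
        rw [nm_mul', ← N_eq] at *
        have b3 := b2.trans (mul_le_mul_of_nonneg_left (hS h hS2).2.2 hB.le)
        calc _ ≤ B * Ab.N c * (B * Y) :=
              mul_le_mul b1 b3 (nm_pos' q3.ne).le (by positivity)
          _ = _ := by ring
    · obtain ⟨q1, -, q3, -⟩ := hh h (Finset.mem_filter.1 hS1).1
      rw [← A.rhoM_mkM fun h0 => q3.ne (by rw [h0]; rfl), q1]
  have s3 : ∑ h ∈ S, ∑ p ∈ L ×ˢ Finset.univ, Z h p ≤ L.card * Ab.N c * (F.card * Q0) := by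
    rw [Finset.sum_comm]
    refine (Finset.sum_le_card_nsmul _ _ (F.card * Q0) fun p p1 => ?_).trans (le_of_eq ?_)
    · rw [← Finset.sum_fiberwise_of_maps_to (g := f2) (t := F) fun h hS1 => (hh h hS1).2.1,
        ← nsmul_eq_mul]
      exact Finset.sum_le_card_nsmul _ _ _ (s2 p p1)
    · rw [Finset.card_product, Finset.card_univ, ← Nat.card_eq_fintype_card, nsmul_eq_mul]
      push_cast
      rfl
  refine (Finset.sum_le_sum s1).trans ?_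
  rw [← Finset.mul_sum]
  refine (mul_le_mul_of_nonneg_left s3 (by positivity)).trans (le_of_eq ?_)
  rw [hQ0]
  ring

theorem thmT_of (A : SymA K) (hV : SymV A.sy fun x n => A.x6 n x) (hT : THETA A.sy)
    (hQ : Ab.QLSmod A.rhoM) (h1 : ShStmt A) (h2 : MainStmt A) (h3 : Left1 K) (h4 : Left2 K)
    (h5 : SExp K) (h6 : RExp K) : Ab.ThmT Ray A.tauM A.chiM := by
  classical
  refine Ab.ThmT.conj (fun c f h x y m a1 a2 a3 a4 a5 => congrArg conj (h x y m a1 a2 a3 a4 a5))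
    fun W hW ε hε => ?_
  obtain ⟨α, β, H⟩ := nice_of_isWt hW
  obtain ⟨k0, hk0, hα, hm⟩ := h2 hT
  obtain ⟨Φ, hΦ, hl⟩ := h3 k0 hk0
  have key : ∀ φ : R K, ∃ C : ℝ, φ ∈ Φ →
      MS (fun t X f h => Cs A k0 φ f h W X t) ε C (8 * Fintype.card (io K)) := fun φ => by
    by_cases h : φ ∈ Φ
    · obtain ⟨θ, M0, T, τ, b1, b2, b3, b4, b5⟩ := hm φ (hΦ φ h)
      obtain ⟨C, hC⟩ := cls_bound A hV hQ h1 h4 h5 h6 hk0 hα (hΦ φ h) b1 b2 b3 b4 b5 H hε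
      exact ⟨C, fun _ => hC⟩
    · exact ⟨0, fun h2 => absurd h2 h⟩
  choose C hC using key
  refine ⟨Φ.card * ∑ φ ∈ Φ, C φ, 8 * Fintype.card (io K), fun t X Y c f S hX hY hc hf hR hS => ?_⟩
  have s1 : ∀ h ∈ S, ‖Ab.Csum (fun m => conj (A.tauM m)) (f h) (fun m => conj (A.chiM h m)) W X t‖ ^ 2
      ≤ Φ.card * ∑ φ ∈ Φ, ‖Cs A k0 φ (f h) h W X t‖ ^ 2 := fun h _ => by
    have h7 := norm_sum_mul_sq_le Φ (fun _ => 1) fun φ => Cs A k0 φ (f h) h W X t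
    simp only [one_mul, norm_one, one_pow, Finset.sum_const, nsmul_eq_mul, mul_one] at h7
    rw [Ab.Csum, hl _ (finS_wt H (fun m => conj (A.tauM m) * f h m * conj (A.chiM h m)) t
      (by linarith))]
    exact h7
  refine (Finset.sum_le_sum s1).trans ?_
  rw [← Finset.mul_sum, Finset.sum_comm, mul_assoc, mul_assoc, mul_assoc, Finset.sum_mul]
  refine mul_le_mul_of_nonneg_left (Finset.sum_le_sum fun φ h => ?_) (Nat.cast_nonneg _)
  simpa only [mul_assoc] using hC φ h t X Y c f S hX hY hc hf hR hS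

end Vale.Agent.P016Z.Vor
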