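import Vale.Agent.P016Z.Vor.Defs2

/-!
P016, block VOR: the theta coefficients on a fine class.
-/

namespace Vale.Agent.P016Z.Vor

open NumberField Vale.Agent.P016Z.TH
open scoped ComplexConjugate

set_option linter.unusedSectionVars false

/-- an element without prime of exact exponent `2 mod 3` is a squarefree element times a cube -/
theorem exists_sqf_cube {A : Type} [CommRing A] [IsDomain A] [UniqueFactorizationMonoid A] (x : A) :
    x ≠ 0 → (∀ (p ν : A) (i : ℕ), Prime p → ¬ p ∣ ν → x ≠ p ^ (3 * i + 2) * ν) →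
      ∃ n b : A, Squarefree n ∧ b ≠ 0 ∧ x = n * b ^ 3 := by
  induction x using (wellFounded_dvdNotUnit (α := A)).induction with
  | _ x ih =>
  intro hx h
  by_cases hs : Squarefree x
  · exact ⟨x, 1, hs, one_ne_zero, by ring⟩
  rw [squarefree_iff_no_irreducibles hx] at hs
  push Not at hs
  obtain ⟨p, hp, hpx⟩ := hs
  have hp' := hp.prime
  obtain ⟨y, rfl⟩ := hpx
  by_cases hy : p ∣ y
  · obtain ⟨x', rfl⟩ := hy
    have hx' : x' ≠ 0 := by rintro rfl; exact hx (by ring)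
    obtain ⟨n, b, hn, hb, e⟩ := ih x' ⟨hx', p ^ 3, fun hu => hp.not_isUnit
      (isUnit_of_dvd_unit (dvd_pow_self p three_ne_zero) hu), by ring⟩ hx' (by
        intro q μ i hq hqμ e
        by_cases hqp : q ∣ p
        · obtain ⟨u, rfl⟩ := hqp
          have hu : IsUnit u := (hp.isUnit_or_isUnit rfl).resolve_left hq.not_isUnit
          refine h q (u ^ 3 * μ) (i + 1) hq (fun hd => hqμ ((hu.pow 3).dvd_mul_left.1 hd)) ?_
          rw [e]; ring
        · refine h q (p ^ 3 * μ) i hq (fun hd => ?_) (by rw [e]; ring)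
          exact (hq.dvd_or_dvd hd).elim (fun h1 => hqp (hq.dvd_of_dvd_pow h1)) hqμ)
    exact ⟨n, b * p, hn, mul_ne_zero hb hp.ne_zero, by rw [e]; ring⟩
  · exact (h p y 0 hp' hy (by ring)).elim

variable {K : Type} [Field K] [NumberField K] [Dat K]

theorem Ex.shape {τ : K → ℂ} {j : ℕ} (E : Ex τ j) {x : R K} (hx : x ≠ 0) (h : τ x ≠ 0) :
    ∃ n b : R K, Squarefree n ∧ b ≠ 0 ∧ x = n * b ^ 3 :=
  exists_sqf_cube x hx fun p ν i hp hν e => h (by
    have := E.zero p ν i hp hν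
    rw [e]; push_cast; exact this)

theorem Fine.ne_zero {k : ℕ} {φ x : K} (h : Fine k φ x) : x ≠ 0 := by
  have := (V.inv_of_sub_one h (by omega)).2
  exact left_ne_zero_of_mul (div_eq_mul_inv x φ ▸ this)

/-- a common multiplier which makes `φ` and `x` congruent to one -/
theorem Fine.exists_mul {k : ℕ} {φ x : R K} (hφ : φ ≠ 0) (h : Fine k (φ : K) (x : K)) :
    ∃ z : R K, V ((k : ℤ) + 1) (((φ * z : R K) : K) - 1) ∧
      V ((k : ℤ) + 1) (((x * z : R K) : K) - 1) := by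
  obtain ⟨y, ⟨z, hz⟩, hy⟩ := exists_R_near_mod 0 φ hφ 1 (TH.lv_ne (K := K) k)
  rw [sub_zero] at hz
  subst hz
  have h1 := V_lv_iff.2 hy
  refine ⟨z, h1, ?_⟩
  have h2 := V.mul_sub_one h h1 (by omega)
  have h3 := coe_ne_zero hφ
  rwa [show (x : K) / φ * ((φ * z : R K) : K) = ((x * z : R K) : K) by
    push_cast; field_simp] at h2

theorem nm_eq_Nr_of {n : ℤ} (hn : 1 ≤ n) {y : R K} (h : V n ((y : K) - 1)) :
    y ≠ 0 ∧ nm (y : K) = Nr y := by
  obtain ⟨h1, h2⟩ := h.inv_of_sub_one hn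
  have h3 : y ≠ 0 := fun h0 => h2 (by rw [h0]; rfl)
  exact ⟨h3, nm_eq_Nr h3 (V_zero_iff.1 (h.of_sub_one (by omega))) (V_zero_iff.1 h1)⟩

theorem Fine.nm_eq {k : ℕ} {φ x : R K} (hφ : φ ≠ 0) (h : Fine k (φ : K) (x : K)) :
    nm (x : K) = nm (φ : K) / Nr φ * Nr x := by
  obtain ⟨z, h1, h2⟩ := h.exists_mul hφ
  obtain ⟨h3, h4⟩ := nm_eq_Nr_of (by omega) h1
  obtain ⟨-, h5⟩ := nm_eq_Nr_of (by omega) h2
  have h6 : (0 : ℝ) < Nr z := by exact_mod_cast Nr_pos (right_ne_zero_of_mul h3)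
  have h7 : (0 : ℝ) < Nr φ := by exact_mod_cast Nr_pos hφ
  rw [Nr_mul] at h4 h5
  push_cast at h4 h5
  rw [nm_mul'] at h4 h5
  field_simp
  refine mul_right_cancel₀ h6.ne' ?_
  linear_combination nm (φ : K) * h5 - nm (x : K) * h4

theorem mainStmt (A : SymA K) : MainStmt A := by
  rintro ⟨M₀, hT⟩
  obtain ⟨k1, hk1⟩ := A.lam_alp
  set k0 := max (max M₀ k1) 1 with hk0
  have a1 : M₀ ≤ k0 := (le_max_left _ _).trans (le_max_left _ _)
  have a2 : k1 ≤ k0 := (le_max_right _ _).trans (le_max_left _ _)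
  have hl : ∀ z : R K, V ((k0 : ℤ) + 1) ((z : K) - 1) → A.lam z = alp (z : K) := fun z hz =>
    hk1 z (V_lv_iff.1 (hz.mono (by omega)))
  refine ⟨k0, le_max_right _ _, fun u hu hu' => ?_, fun φ hφ => ?_⟩
  · have := hl (ofK u hu) (mem_P_iff.1 hu')
    rw [A.lam_unit _ (Units.isUnit _)] at this
    exact this.symm
  obtain ⟨θ, M, T, τ, h1, h2, -, h3, h4, h5⟩ := hT φ (coe_ne_zero hφ)
  have hE : ∀ g ∈ SLr K, ∃ j, Ex (τ g) j := fun g hg => by
    obtain ⟨-, b1, j, b2, b3, b4⟩ := h4 g hg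
    exact ⟨j, b1, b2, b3, b4⟩
  have c1 : 0 < nm (φ : K) / Nr φ :=
    div_pos (nm_pos' (coe_ne_zero hφ)) (by exact_mod_cast Nr_pos hφ)
  have c2 : A.lam φ ≠ 0 := norm_ne_zero_iff.1 (by rw [A.norm_lam φ hφ]; exact one_ne_zero)
  have c3 : alp (φ : K) ≠ 0 :=
    norm_ne_zero_iff.1 (by rw [norm_alp (coe_ne_zero hφ)]; exact one_ne_zero)
  refine ⟨θ, M, T * (((nm (φ : K) / Nr φ) ^ (1 / 6 : ℝ) : ℝ) : ℂ) * (alp (φ : K) / A.lam φ), τ,
    mul_ne_zero (mul_ne_zero h1 (Complex.ofReal_ne_zero.2 (Real.rpow_pos_of_pos c1 _).ne'))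
      (div_ne_zero c3 c2), h2, h3, fun g hg => ⟨(h4 g hg).1, hE g hg⟩, fun x hx => ?_⟩
  have hx0 : x ≠ 0 := fun h0 => hx.ne_zero (by rw [h0]; rfl)
  by_cases hs : ∃ n b : R K, Squarefree n ∧ b ≠ 0 ∧ x = n * b ^ 3
  · have d1 : alp (x : K) = alp (φ : K) / A.lam φ * A.lam x := by
      obtain ⟨z, e1, e2⟩ := hx.exists_mul hφ
      have hz : z ≠ 0 := right_ne_zero_of_mul (nm_eq_Nr_of (by omega) e1).1
      have e3 := hl _ e1
      have e4 := hl _ e2
      rw [A.lam_mul _ _ hφ hz] at e3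
      rw [A.lam_mul _ _ hx0 hz] at e4
      push_cast at e3 e4
      rw [alp_mul] at e3 e4
      have e5 : A.lam z ≠ 0 := norm_ne_zero_iff.1 (by rw [A.norm_lam z hz]; exact one_ne_zero)
      field_simp
      refine mul_right_cancel₀ e5 ?_
      linear_combination alp (x : K) * e3 - alp (φ : K) * e4
    have d2 := hx.nm_eq hφ
    obtain ⟨n, b, hn, hb, rfl⟩ := hs
    have d3 := h5 n b hn hb (by
      have := V_lv_iff.1 (V.mono hx (m := (M₀ : ℤ) + 1) (by omega))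
      push_cast at this
      exact this)
    have f1 : (0 : ℝ) < Nr n := by exact_mod_cast Nr_pos hn.ne_zero
    have f2 : (0 : ℝ) < Nr b := by exact_mod_cast Nr_pos hb
    have f3 : (Nr n : ℝ) ^ (-(2 / 3) : ℝ) * nm ((n * b ^ 3 : R K) : K) ^ (1 / 6 : ℝ) =
        (nm (φ : K) / Nr φ) ^ (1 / 6 : ℝ) * (√(Nr b : ℝ) / √(Nr n : ℝ)) := by
      rw [d2, Nr_mul, Nr_pow]
      push_cast
      rw [Real.mul_rpow c1.le (by positivity), Real.mul_rpow f1.le (by positivity),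
        ← Real.rpow_natCast (Nr b : ℝ) 3, ← Real.rpow_mul f2.le, Real.sqrt_eq_rpow,
        Real.sqrt_eq_rpow, div_eq_mul_inv ((Nr b : ℝ) ^ (1 / 2 : ℝ)), ← Real.rpow_neg f1.le,
        show (-(1 / 2) : ℝ) = -(2 / 3) + 1 / 6 by norm_num, Real.rpow_add f1,
        show ((3 : ℕ) : ℝ) * (1 / 6) = 1 / 2 by norm_num]
      ring
    have f4 := congrArg (fun t : ℝ => (t : ℂ)) f3
    simp only [Complex.ofReal_mul, Complex.ofReal_div] at f4
    rw [cf, d1, A.tauR_eq hn hb, A.lam_mul _ _ hn.ne_zero (pow_ne_zero 3 hb), A.lam_pow hb,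
      SymA.gR, SymA.wR]
    rw [show ((n * b ^ 3 : R K) : K) = (n : K) * (b : K) ^ 3 by push_cast; rfl] at f4 ⊢
    rw [d3, A.sy_G hn.ne_zero]
    simp only [map_mul, map_div₀, map_pow, Complex.conj_conj, Complex.conj_ofReal]
    linear_combination T * conj (A.G3 n) * (alp (φ : K) / A.lam φ * (A.lam n * A.lam b ^ 3)) * f4
  · obtain ⟨j, E⟩ := hE 1 (one_mem _)
    rw [A.tauR_zero hs, cf, not_not.1 fun h => hs (E.shape hx0 h)]
    simp

end Vale.Agent.P016Z.Vor
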