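import Vale.Agent.P016Z.Vor.Defs2

/-!
P016, block VOR: normalised representatives, Voronoi summation at one cusp, and real inequalities.
-/

namespace Vale.Agent.P016Z.Vor

open NumberField Vale.Agent.P006 Vale.Agent.P016Z.TH Vale.Agent.P026Z.Vor
open scoped ComplexConjugate Real

set_option linter.unusedSectionVars false

variable {K : Type} [Field K] [NumberField K] [Dat K]

/-- a finite set of representatives of the fine classes -/
def IsFine (k : ℕ) (F : Finset (R K)) : Prop :=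
  (∀ f ∈ F, f ≠ 0) ∧ ∀ x : R K, x ≠ 0 → ∃ u : (R K)ˣ, mkM ((u : R K) * x) = mkM x ∧
    ∃ f ∈ F, Fine k (f : K) (((u : R K) * x : R K) : K)

theorem exists_isFine (k : ℕ) : ∃ F : Finset (R K), IsFine k F := by
  classical
  obtain ⟨F, h1, h2⟩ := exists_fine (K := K) k
  refine ⟨F.attach.image fun f => ⟨(f.1 : K), h1 f.1 f.2⟩, fun f hf => ?_, fun x hx => ?_⟩
  · obtain ⟨g, -, rfl⟩ := Finset.mem_image.1 hf
    exact fun h => g.1.ne_zero (congrArg Subtype.val h)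
  · obtain ⟨η, hη, f, hf, y, hy, h⟩ := h2 (Units.mk0 (x : K) (coe_ne_zero hx))
    have hU : (η ^ 6)⁻¹ ∈ U K := inv_mem (pow_six_mem_U hη)
    refine ⟨ofK _ hU.1, (mkM_eq.2 ⟨_, hU, rfl⟩).symm, _,
      Finset.mem_image.2 ⟨⟨f, hf⟩, Finset.mem_attach _ _, rfl⟩, ?_⟩
    have h3 : (x : K) = ((η ^ 6 * f * y : Kˣ) : K) := congrArg Units.val h
    have e : ((((η ^ 6)⁻¹ : Kˣ) : K) * x) / (f : K) = y := by
      rw [h3]; push_cast; field_simp
    change V _ (((((η ^ 6)⁻¹ : Kˣ) : K) * x) / (f : K) - 1)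
    rw [e]
    exact mem_P_iff.1 hy

theorem Fine.ne {k : ℕ} {f x : K} (h : Fine k f x) : x ≠ 0 := by
  rintro rfl
  exact (V.inv_of_sub_one h (by omega)).2 (zero_div f)

theorem Fine.V {k : ℕ} {f x : K} (h : Fine k f x) (hf : f ≠ 0) {n : ℤ} (h1 : V n f) : V n x := by
  have := h1.mul' (V.of_sub_one h (by omega)) (l := n) (by omega)
  rwa [mul_div_cancel₀ _ hf] at this

theorem Fine.V_inv {k : ℕ} {f x : K} (h : Fine k f x) (hf : f ≠ 0) {n : ℤ} (h1 : Vor.V n f⁻¹) :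
    Vor.V n x⁻¹ := by
  have := h1.mul' (V.inv_of_sub_one h (by omega)).1 (l := n) (by omega)
  rwa [← mul_inv, mul_div_cancel₀ _ hf] at this

theorem Fine.mul {k : ℕ} {f x g y : K} (h : Fine k f x) (h' : Fine k g y) :
    Fine k (f * g) (x * y) := by
  have := V.mul_sub_one h h' (by omega)
  rwa [div_mul_div_comm] at this

theorem Fine.unit_mul {k : ℕ} {f x : K} (h : Fine k f x) {u : Kˣ} (hu : u ∈ P K k) :
    Fine k f (u * x) := by
  have := V.mul_sub_one (mem_P_iff.1 hu) h (by omega)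
  rwa [← mul_div_assoc] at this

theorem fine_unit_mul_iff {k : ℕ} {f x : K} {u : Kˣ} (hu : u ∈ P K k) :
    Fine k f (u * x) ↔ Fine k f x :=
  ⟨fun h => by simpa using h.unit_mul (inv_mem hu), fun h => h.unit_mul hu⟩

theorem Fine.cl_eq {k : ℕ} (hk : 1 ≤ k) {f x : K} (h : Fine k f x) (hf : f ≠ 0) : cl x = cl f := by
  have h0 : x / f ≠ 0 := div_ne_zero h.ne hf
  have h1 : Units.mk0 (x / f) h0 ∈ H K := P_le_H hk (mem_P_iff.2 h)
  have := cl_H_mul h1 f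
  rwa [Units.val_mk0, div_mul_cancel₀ _ hf] at this

theorem Nr_lv_mul (j : ℕ) (x : R K) (h : IsIntegral ℤ (TH.lv K j * x)) :
    Nr (toR (⟨_, h⟩ : 𝓞 K)) = Nr x := by
  refine Nq_congr (associated_iff_Ru.2 ⟨Units.mk0 _ (lv_ne j), ?_, rfl⟩).symm
  exact ⟨pow_mem (natCast_mem _ _) _, by
    change (((Q K : ℕ) : K) ^ (j + 1))⁻¹ ∈ R K
    rw [← inv_pow]; exact pow_mem inv_Q_mem_R _⟩

/-- the ratio of the two norms is constant on a fine class -/
theorem Fine.nm_ratio {k : ℕ} {f x : R K} (h : Fine k (f : K) (x : K)) (hf : f ≠ 0) :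
    nm (x : K) * Nr f = nm (f : K) * Nr x := by
  have hfK := coe_ne_zero hf
  obtain ⟨j, hj⟩ := exists_V (f : K)
  have i1 := isIntegral_lv_of (k := j) f.2 (hj.mono (by omega))
  have i2 := isIntegral_lv_of (k := j) x.2 ((h.V hfK hj).mono (by omega))
  have hD := lv_ne (K := K) j
  have e1 := nm_eq_mul (x := ⟨_, i1⟩)
    fun h0 => mul_ne_zero hD hfK (congrArg (fun t : 𝓞 K => (t : K)) h0)
  have e2 := nm_eq_mul (x := ⟨_, i2⟩)
    fun h0 => mul_ne_zero hD h.ne (congrArg (fun t : 𝓞 K => (t : K)) h0)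
  rw [Nr_lv_mul] at e1 e2
  have e3 : Ns (toSi (⟨_, i2⟩ : 𝓞 K)) = Ns (toSi (⟨_, i1⟩ : 𝓞 K)) := by
    have y0 := V_zero_iff.1 (V.of_sub_one h (by omega))
    have y1 := V_zero_iff.1 (V.inv_of_sub_one h (by omega)).1
    have hx := h.ne
    refine Nq_congr (associated_of_dvd_dvd ⟨⟨_, y1⟩, Subtype.ext ?_⟩ ⟨⟨_, y0⟩, Subtype.ext ?_⟩)
    · change TH.lv K j * f = TH.lv K j * x * ((x : K) / f)⁻¹
      field_simp
    · change TH.lv K j * x = TH.lv K j * f * ((x : K) / f)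
      field_simp
  rw [e3] at e2
  change nm (TH.lv K j * f) = _ at e1
  change nm (TH.lv K j * x) = _ at e2
  rw [nm_mul'] at e1 e2
  refine mul_left_cancel₀ (nm_pos' hD).ne' ?_
  linear_combination (Nr f : ℝ) * e2 - (Nr x : ℝ) * e1

theorem IsFine.exists_bound {k : ℕ} {F : Finset (R K)} (hF : IsFine k F) : ∃ B : ℝ, 0 < B ∧
    ∀ f ∈ F, ∀ x : R K, Fine k (f : K) (x : K) → nm (x : K) ≤ B * Nr x := by
  refine ⟨1 + ∑ f ∈ F, nm (f : K), add_pos_of_pos_of_nonneg one_pos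
    (Finset.sum_nonneg fun f _ => (cmK K).nm_nonneg _), fun f hf x hx => ?_⟩
  have h1 := hx.nm_ratio (hF.1 f hf)
  have h2 : (1 : ℝ) ≤ Nr f := by exact_mod_cast Nr_pos (hF.1 f hf)
  have h3 : nm (f : K) ≤ ∑ f ∈ F, nm (f : K) :=
    Finset.single_le_sum (f := fun f : R K => nm (f : K)) (fun f _ => (cmK K).nm_nonneg _) hf
  have h4 := (nm_pos' hx.ne).le
  have h5 : (0 : ℝ) ≤ Nr x := Nat.cast_nonneg _
  nlinarith

/-- fractions in lowest terms, with normalised denominator -/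
theorem IsFine.lowest {k : ℕ} {F : Finset (R K)} (hF : IsFine k F) {c : R K} (hc : c ≠ 0)
    (x : R K) (N : ℤ) : ∃ c1 a1 d : R K, c1 ∣ c ∧ (∃ f ∈ F, Fine k (f : K) (c1 : K)) ∧
      (x : K) / c = a1 / c1 ∧ c1 ∣ a1 * d - 1 ∧ V N (d : K) := by
  obtain ⟨a', c', g, hcop, rfl, rfl⟩ := UniqueFactorizationMonoid.exists_reduced_factors' x c hc
  have hg : g ≠ 0 := left_ne_zero_of_mul hc
  have hc' : c' ≠ 0 := right_ne_zero_of_mul hc
  obtain ⟨u, -, hf⟩ := hF.2 c' hc'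
  have h1 : (u : R K) * c' ≠ 0 := mul_ne_zero u.ne_zero hc'
  obtain ⟨p, q, hpq⟩ := hcop.isCoprime
  obtain ⟨d, ⟨t, ht⟩, hd⟩ := exists_deep (((u⁻¹ : (R K)ˣ) : R K) * p) _ h1 N
  refine ⟨u * c', u * a', d, (Units.mul_left_dvd.2 dvd_rfl).mul_left g, hf, ?_,
    ⟨u * a' * t - ((u⁻¹ : (R K)ˣ) : R K) * q, ?_⟩, hd⟩
  · have := coe_ne_zero hg
    have := coe_ne_zero hc'
    have := coe_ne_zero u.ne_zero
    push_cast
    field_simp
  · have hu := u.mul_inv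
    linear_combination (u : R K) * a' * ht + hpq + (a' * p + q * c') * hu

/-- a function which is periodic on a fine class extends to a periodic function -/
theorem exists_per {k : ℕ} (hk : 1 ≤ k) {c : M K} (hc : c ≠ 0) {f : M K → ℂ} (hf : Ray c f)
    (h1 : ∀ m, ‖f m‖ ≤ 1) {φ : K} (hφ : φ ≠ 0) : ∃ g : R K → ℂ, PerM (rep c) g ∧
      (∀ x, ‖g x‖ ≤ 1) ∧ ∀ x : R K, Fine k φ (x : K) → g x = f (mkM x) := by
  have h0 := rep_ne_zero.2 hc
  have hQ := QK_ne K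
  have h2 : ∀ x : R K, ∃ y : R K, rep c ∣ y - x ∧ Fine k φ (y : K) := fun x => by
    obtain ⟨y, h3, h4⟩ := exists_R_near_mod x (rep c) h0 φ (c := φ * TH.lv K k)
      (mul_ne_zero hφ (lv_ne k))
    refine ⟨y, h3, V_lv_iff.2 ?_⟩
    have := lv_ne (K := K) k
    have e : ((y : K) / φ - 1) / TH.lv K k = (y - φ) / (φ * TH.lv K k) := by field_simp
    rwa [e]
  choose y h3 h4 using h2
  have key : ∀ x x' : R K, rep c ∣ x - x' → Fine k φ (x : K) → Fine k φ (x' : K) →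
      f (mkM x) = f (mkM x') := fun x x' h hx hx' =>
    hf x x' (rep c) (mkM_rep c) (fun h0 => hx.ne (by rw [h0]; rfl))
      (fun h0 => hx'.ne (by rw [h0]; rfl)) h ((hx.cl_eq hk hφ).trans (hx'.cl_eq hk hφ).symm)
  refine ⟨fun x => f (mkM (y x)), fun x x' h => key _ _ ?_ (h4 x) (h4 x'), fun x => h1 _,
    fun x hx => key _ _ (h3 x) (h4 x) hx⟩
  have := dvd_sub (dvd_add (h3 x) h) (h3 x')
  convert this using 1
  ring

/-! ### the subgroup of units congruent to `1` modulo `c` -/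

/-- reduction of the units modulo `c` -/
noncomputable def redU (k : ℕ) (c : R K) : G0 K k →* Rs c where
  toFun u := rs c ⟨((u : Kˣ) : K), (G0_le k u.2).1.1⟩
  map_one' := by rw [← map_one (rs c)]; rfl
  map_mul' u v := by rw [← map_mul]; rfl

/-- the units in `G0` which are congruent to `1` modulo `c` -/
noncomputable def G1 (k : ℕ) (c : R K) : Subgroup (G0 K k) := (redU k c).toHomUnits.ker

theorem finite_G1 (k : ℕ) {c : R K} (hc : c ≠ 0) : Finite (G0 K k ⧸ G1 k c) := by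
  have := finite_Rs hc
  have : (G1 k c).FiniteIndex := Subgroup.finiteIndex_ker _
  infer_instance

theorem G1_mem {k : ℕ} {c c1 : R K} (h1 : c1 ≠ 0) (hc : c1 ∣ c) {u : G0 K k} (hu : u ∈ G1 k c) :
    (((u : Kˣ) : K) - 1) / c1 ∈ R K := by
  have h2 : redU k c u = 1 := congrArg Units.val hu
  rw [← map_one (rs c)] at h2
  simpa using (dvd_iff_div_mem h1).1 (hc.trans (rs_eq.1 h2))

theorem inv_xt {S : Sy K} {s6 : R K → R K → ℂ} (hs : SymV S s6) {h : R K} (h0 : h ≠ 0) (k : ℕ)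
    (F : ℂ → ℂ) : Inv (G0 K k) (xt fun x => F (s6 x h)) := by
  intro u hu ν
  by_cases hν : ν ∈ R K
  · obtain ⟨w, hw, rfl⟩ := hu
    obtain ⟨ν, rfl⟩ : ∃ x : R K, (x : K) = ν := ⟨⟨ν, hν⟩, rfl⟩
    set v : R K := ((ofK w hw.1 : (R K)ˣ) : R K) with hv
    have e : ((powMonoidHom 6 w : Kˣ) : K) * ν = ((v * (v * (v * (v * (v * (v * ν))))) : R K) : K) := by
      simp only [powMonoidHom_apply, Units.val_pow_eq_pow_val, hv]
      push_cast
      rw [coe_ofK]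
      ring
    have h1 := hs.pow_six v h h0 (ofK w hw.1).isUnit.isRelPrime_left.isCoprime
    rw [e, xt_coe, xt_coe]
    simp only [hs.mul_left _ _ _ h0]
    congr 1
    linear_combination s6 ν h * h1
  · rw [xt_of_not _ hν, xt_of_not _ fun h1 => hν ((mul_mem_R_iff (G0_le k hu).1).1 h1)]

theorem eT_unit {τ : K → ℂ} {j : ℕ} (E : Ex τ j) {u x ν : K} (h1 : (u - 1) * x ∈ R K)
    (h2 : V ((j : ℤ) + 1) ((u - 1) * x)) (hν : cf τ ν ≠ 0) : eT (u * ν * x) = eT (ν * x) := by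
  have h3 := (E.cf_supp hν).2
  have e : u * ν * x = ν * x + ν * ((u - 1) * x) := by ring
  rw [e, eT_add, eT_of_int (((V_of_lv h3).mul' h2 (by omega)).isIntegral
    (mul_mem (mem_R_of_lv h3) h1)), mul_one]

theorem eT_neg (x : K) : eT (-x) = conj (eT x) := by rw [eT, trR_neg, ee_neg]; rfl

theorem inv1_aa {τ : K → ℂ} {j k : ℕ} (E : Ex τ j) (hjk : j ≤ k)
    (hα : ∀ u ∈ G0 K k, alp (u : K) = 1) {G : Subgroup (G0 K k)} {x : K}
    (h : ∀ u ∈ G, (((u : Kˣ) : K) - 1) * x ∈ R K ∧ V ((j : ℤ) + 1) ((((u : Kˣ) : K) - 1) * x)) :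
    Inv1 G (aa τ x) ∧ Inv1 G (bb τ x) := by
  constructor
  · intro u hu ν
    rw [aa, aa, E.inv_cf hjk _ u.2, alp_mul, hα _ u.2, one_mul]
    by_cases hν : cf τ ν = 0
    · simp [hν]
    · rw [eT_unit E (h u hu).1 (h u hu).2 hν]
  · intro u hu ν
    rw [bb, bb, E.inv_cf hjk _ u.2, alp_mul, hα _ u.2, one_mul, eT_neg, eT_neg]
    by_cases hν : cf τ ν = 0
    · simp [hν]
    · rw [eT_unit E (h u hu).1 (h u hu).2 hν]

theorem summable_wt {κ : Type} {a : κ → ℂ} {m n : κ → ℝ} (ha : ∀ y, ‖a y‖ ≤ m y)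
    (hn : ∀ y, 1 ≤ n y) (hs : Summable fun y => m y * n y ^ (-(3 / 2) : ℝ)) {W : ℝ → ℂ} {α β : ℝ}
    (H : P006.KER.Nice W α β) {q : ℝ} (hq : 0 < q) : Summable fun y => a y * W (q * n y) := by
  obtain ⟨B, hB⟩ := (isCompact_Icc (a := α) (b := β)).exists_bound_of_continuousOn
    H.smooth.continuous.continuousOn
  have hβ : 0 < β / q := div_pos (H.pos.trans_le H.le) hq
  refine Summable.of_norm_bounded (hs.mul_left (max B 0 * (β / q) ^ (3 / 2 : ℝ))) fun y => ?_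
  have h0 : 0 < n y := one_pos.trans_le (hn y)
  have hm : 0 ≤ m y := (norm_nonneg _).trans (ha y)
  by_cases hy : q * n y ∈ Set.Icc α β
  · have h1 : n y ≤ β / q := by rw [le_div_iff₀ hq, mul_comm]; exact hy.2
    have h2 : 1 ≤ (β / q) ^ (3 / 2 : ℝ) * n y ^ (-(3 / 2) : ℝ) := by
      rw [Real.rpow_neg h0.le, ← div_eq_mul_inv, one_le_div (by positivity)]
      exact Real.rpow_le_rpow h0.le h1 (by norm_num)
    rw [norm_mul]
    calc ‖a y‖ * ‖W (q * n y)‖ ≤ m y * max B 0 * 1 := by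
          rw [mul_one]
          exact mul_le_mul (ha y) ((hB _ hy).trans (le_max_left _ _)) (norm_nonneg _) hm
      _ ≤ m y * max B 0 * ((β / q) ^ (3 / 2 : ℝ) * n y ^ (-(3 / 2) : ℝ)) := by gcongr
      _ = _ := by ring
  · rw [H.supp _ hy, mul_zero, norm_zero]
    positivity

theorem final_real {ε ε' X Y m σ κ : ℝ} (hε' : 0 < ε') (h1 : ε' ≤ 1 / 2) (h5 : 5 * ε' ≤ ε)
    (hX : 1 ≤ X) (hY : 1 ≤ Y) (hm : 1 ≤ m) (hσ : 0 < σ) (hκ : 0 < κ) :
    σ * X * (Y ^ ε' * ((σ * X * (κ / (m * Y)) ^ 2)⁻¹) ^ (2 * ε') *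
      (Y + (σ * X * (κ / (m * Y)) ^ 2)⁻¹)) ≤
      σ * ((σ * κ ^ 2)⁻¹ + 1) ^ 2 * ((X * Y * m) ^ ε * (X * (Y + Y ^ 2 * m ^ 2 / X))) := by
  have hX0 : 0 < X := by linarith
  have hY0 : 0 < Y := by linarith
  have hm0 : 0 < m := by linarith
  set L : ℝ := (σ * κ ^ 2)⁻¹ + 1 with hL
  have hL0 : 0 ≤ (σ * κ ^ 2)⁻¹ := by positivity
  have hL1 : 1 ≤ L := by linarith
  set Z : ℝ := (σ * X * (κ / (m * Y)) ^ 2)⁻¹ with hZ
  have hZ0 : 0 < Z := by positivity
  have hZ1 : Z ≤ L * (Y ^ 2 * m ^ 2 / X) := by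
    have e : Z = (σ * κ ^ 2)⁻¹ * (Y ^ 2 * m ^ 2 / X) := by rw [hZ]; field_simp
    rw [e]
    gcongr
    linarith
  set P : ℝ := X * Y * m with hP
  have hP1 : 1 ≤ P := one_le_mul_of_one_le_of_one_le (one_le_mul_of_one_le_of_one_le hX hY) hm
  have hYP : Y ≤ P := by
    calc Y = 1 * Y * 1 := by ring
      _ ≤ X * Y * m := by gcongr
  have hZ2 : Z ≤ L * P ^ 2 := by
    refine hZ1.trans (mul_le_mul_of_nonneg_left ?_ (by linarith))
    calc Y ^ 2 * m ^ 2 / X ≤ Y ^ 2 * m ^ 2 / 1 := by gcongr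
      _ = (1 * Y * m) ^ 2 := by ring
      _ ≤ (X * Y * m) ^ 2 := by gcongr
  have h2 : Z ^ (2 * ε') ≤ L * P ^ (4 * ε') := by
    calc Z ^ (2 * ε') ≤ (L * P ^ 2) ^ (2 * ε') := by gcongr
      _ = L ^ (2 * ε') * P ^ (4 * ε') := by
          rw [Real.mul_rpow (by linarith) (by positivity), ← Real.rpow_natCast,
            ← Real.rpow_mul (by linarith)]
          congr 2
          push_cast
          ring
      _ ≤ L ^ (1 : ℝ) * P ^ (4 * ε') := by
          gcongr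
          linarith
      _ = _ := by rw [Real.rpow_one]
  have h3 : Y ^ ε' * Z ^ (2 * ε') ≤ L * P ^ ε := by
    calc Y ^ ε' * Z ^ (2 * ε') ≤ P ^ ε' * (L * P ^ (4 * ε')) := by gcongr
      _ = L * P ^ (5 * ε') := by
          rw [show 5 * ε' = ε' + 4 * ε' by ring, Real.rpow_add (by linarith)]; ring
      _ ≤ L * P ^ ε := by gcongr
  have h4 : Y + Z ≤ L * (Y + Y ^ 2 * m ^ 2 / X) := by
    have : Y ≤ L * Y := le_mul_of_one_le_left hY0.le hL1
    rw [mul_add]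
    linarith
  calc σ * X * (Y ^ ε' * Z ^ (2 * ε') * (Y + Z))
      ≤ σ * X * (L * P ^ ε * (L * (Y + Y ^ 2 * m ^ 2 / X))) := by gcongr
    _ = _ := by ring

end Vale.Agent.P016Z.Vor
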