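import Vale.Agent.P016Z.Vor.Lat

/-!
P016, block VOR: Voronoi summation over the frequencies modulo a group of units.
-/

namespace Vale.Agent.P016Z.Vor

open NumberField Vale.Agent.P006 Vale.Agent.P016Z.TH Vale.Agent.P026Z.Vor
open Vale.Agent.P006.KER (Nice)
open scoped ComplexConjugate Real

set_option linter.unusedSectionVars false

variable {K : Type} [Field K] [NumberField K] [Dat K]

theorem countable_K : Countable K := by
  have := Module.Finite.finite_basis (Module.finBasis ℚ K)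
  exact Countable.of_equiv _ (Module.finBasis ℚ K).equivFun.toEquiv.symm

theorem em_mul (x y : K) (j : io K) : em (x * y) j = em x j * em y j := map_mul ((cmK K).sig j) x y

theorem nm_mul' (x y : K) : nm (x * y) = nm x * nm y := (cmK K).nm_mul x y

theorem nm_pos' {x : K} (hx : x ≠ 0) : 0 < nm x := (cmK K).nm_pos hx

theorem nm_eq_one {u : Kˣ} (h1 : IsIntegral ℤ (u : K)) (h2 : IsIntegral ℤ ((u⁻¹ : Kˣ) : K)) :
    nm (u : K) = 1 := by
  have a1 := one_le_nm_of u.ne_zero h1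
  have a2 := one_le_nm_of (u⁻¹).ne_zero h2
  have a3 : nm (u : K) * nm ((u⁻¹ : Kˣ) : K) = 1 := by
    rw [← (cmK K).nm_mul, Units.mul_inv, (cmK K).nm_one]
  nlinarith

/-- the logarithms of the squared absolute values -/
noncomputable def lab (x : K) : io K → ℝ := fun j => Real.log (‖em x j‖ ^ 2)

theorem lab_mul {x y : K} (hx : x ≠ 0) (hy : y ≠ 0) : lab (x * y) = lab x + lab y := by
  funext j
  have h1 := norm_pos_iff.2 (em_ne hx j)
  have h2 := norm_pos_iff.2 (em_ne hy j)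
  rw [Pi.add_apply, lab, lab, lab, em_mul, norm_mul, mul_pow,
    Real.log_mul (by positivity) (by positivity)]

theorem lg_mul_left {u ν C : K} (hu : u ≠ 0) (hν : ν ≠ 0) (hC : C ≠ 0) :
    lg (em (u * ν)) (em C) = lg (em ν) (em C) + lab u := by
  funext j
  have h1 := norm_pos_iff.2 (em_ne hu j)
  have h2 := norm_pos_iff.2 (em_ne hν j)
  have h3 := norm_pos_iff.2 (em_ne hC j)
  have hπ := Real.pi_pos
  rw [Pi.add_apply, lg, lg, lab, em_mul, norm_mul,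
    ← Real.log_mul (by positivity) (by positivity)]
  congr 1
  ring

theorem exp_ln_lab {x : K} (hx : x ≠ 0) : Real.exp (ln (lab x)) = nm x := by
  rw [ln, Real.exp_sum, nm_eq_prod]
  exact Finset.prod_congr rfl fun j _ => Real.exp_log (pow_pos (norm_pos_iff.2 (em_ne hx j)) 2)

theorem exp_ln_lg {ν C : K} (hν : ν ≠ 0) (hC : C ≠ 0) :
    Real.exp (ln (lg (em ν) (em C))) = ((2 * π) ^ 2) ^ Fintype.card (io K) * nm ν / nm C := by
  have hπ := Real.pi_pos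
  rw [ln, Real.exp_sum, nm_eq_prod, nm_eq_prod, ← Finset.card_univ, ← Finset.prod_const,
    ← Finset.prod_mul_distrib, ← Finset.prod_div_distrib]
  refine Finset.prod_congr rfl fun j _ => ?_
  have h2 := norm_pos_iff.2 (em_ne hν j)
  have h3 := norm_pos_iff.2 (em_ne hC j)
  rw [lg, Real.exp_log (by positivity)]
  ring

variable (G : Subgroup Kˣ)

/-- `lab` on a group of units -/
noncomputable def labG : Additive G →+ (io K → ℝ) where
  toFun u := lab ((u.toMul : Kˣ) : K)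
  map_zero' := by funext j; simp [lab]
  map_add' u v := by
    rw [toMul_add, Subgroup.coe_mul, Units.val_mul, lab_mul (Units.ne_zero _) (Units.ne_zero _)]

variable {G}

theorem ln_lab (hG : ∀ u ∈ G, IsIntegral ℤ (u : K)) {u : Kˣ} (hu : u ∈ G) :
    ln (lab (u : K)) = 0 := by
  have h := exp_ln_lab u.ne_zero
  rw [nm_eq_one (hG u hu) (hG _ (inv_mem hu))] at h
  exact Real.exp_eq_one_iff _ |>.1 h

theorem countable_units : Countable Kˣ :=
  haveI := countable_K (K := K)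
  Units.val_injective.countable

theorem exists_pou (hG : ∀ u ∈ G, IsIntegral ℤ (u : K)) : ∃ ψ, Pou (labG G) ψ := by
  have := countable_units (K := K)
  have : Countable (Additive G) := inferInstanceAs (Countable G)
  set φ : (io K → ℝ) → ℝ := fun t => ∏ j, Real.exp (-Real.exp (t j / 2)) with hφ
  have hφ0 : ∀ t, 0 < φ t := fun t => Finset.prod_pos fun j _ => Real.exp_pos _
  have hs : ∀ t, Summable fun g : Additive G => φ (t + labG G g) := by
    intro t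
    obtain ⟨a, b, ha, hab⟩ := exists_box (v := fun j => Real.exp (t j / 2)) fun j => Real.exp_pos _
    have hinj : Function.Injective fun g : Additive G =>
        (⟨((g.toMul : Kˣ) : K), hG _ g.toMul.2⟩ : 𝓞 K) := by
      intro g g' h
      have h1 : ((g.toMul : Kˣ) : K) = ((g'.toMul : Kˣ) : K) := congrArg (fun t : 𝓞 K => (t : K)) h
      exact Additive.toMul.injective (Subtype.ext (Units.ext h1))
    refine Summable.of_nonneg_of_le (fun g => (hφ0 _).le) (fun g => ?_)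
      ((summable_exp (K := K) ha).comp_injective hinj)
    refine Finset.prod_le_prod (fun j _ => (Real.exp_pos _).le) fun j _ => ?_
    refine Real.exp_le_exp.2 (neg_le_neg ?_)
    change a * ‖em ((g.toMul : Kˣ) : K) j‖ ≤ Real.exp ((t j + lab ((g.toMul : Kˣ) : K) j) / 2)
    have h1 := norm_pos_iff.2 (em_ne (g.toMul : Kˣ).ne_zero j)
    rw [lab, Real.log_pow, add_div, Real.exp_add, show ((2 : ℕ) : ℝ) *
      Real.log ‖em ((g.toMul : Kˣ) : K) j‖ / 2 = Real.log ‖em ((g.toMul : Kˣ) : K) j‖ by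
        push_cast; ring, Real.exp_log h1]
    exact mul_le_mul_of_nonneg_right (hab j).1.le h1.le
  set Φ : (io K → ℝ) → ℝ := fun t => ∑' g : Additive G, φ (t + labG G g) with hΦ
  have hΦ0 : ∀ t, 0 < Φ t := fun t => (hs t).tsum_pos (fun g => (hφ0 _).le) 0 (hφ0 _)
  have hm : Measurable φ := by rw [hφ]; fun_prop
  refine ⟨fun t => φ t / Φ t, hm.div (Measurable.tsum fun g => hm.comp (measurable_add_const _)),
    fun t => div_nonneg (hφ0 t).le (hΦ0 t).le, fun t => ?_, fun g => ln_lab hG g.toMul.2⟩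
  have h1 : ∀ g, Φ (t + labG G g) = Φ t := fun g => by
    simp only [hΦ]
    rw [← (Equiv.addLeft g).tsum_eq fun g' : Additive G => φ (t + labG G g')]
    refine tsum_congr fun g' => ?_
    rw [Equiv.coe_addLeft, map_add, add_assoc]
  simp only [h1]
  have h2 := (hs t).hasSum.div_const (Φ t)
  rwa [div_self (hΦ0 t).ne'] at h2

variable (G) in
/-- the nonzero elements of `D⁻¹ O` modulo `G` -/
def Ix (D : K) : Type := {q : Kˣ ⧸ G // IsIntegral ℤ (D * ((q.out : Kˣ) : K))}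

variable {D : K}

instance : Countable (Ix G D) :=
  haveI := countable_units (K := K)
  haveI : Countable (Kˣ ⧸ G) := QuotientGroup.mk_surjective.countable
  inferInstanceAs (Countable {q : Kˣ ⧸ G // IsIntegral ℤ (D * ((q.out : Kˣ) : K))})

/-- the representative -/
noncomputable def rp (k : Ix G D) : K := ((k.1.out : Kˣ) : K)

theorem rp_ne (k : Ix G D) : rp k ≠ 0 := Units.ne_zero _

theorem rp_int (k : Ix G D) : IsIntegral ℤ (D * rp k) := k.2

/-- the normalised norm -/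
noncomputable def nn (k : Ix G D) : ℝ := nm (D * rp k)

theorem one_le_nn (hD : D ≠ 0) (k : Ix G D) : 1 ≤ nn k :=
  one_le_nm_of (mul_ne_zero hD (rp_ne k)) (rp_int k)

theorem eq_of_rp {k k' : Ix G D} {u : Kˣ} (hu : u ∈ G) (h : rp k = u * rp k') : k = k' := by
  refine Subtype.ext ?_
  rw [← QuotientGroup.out_eq' k.1, ← QuotientGroup.out_eq' k'.1, eq_comm, QuotientGroup.eq]
  have h1 : k.1.out = u * k'.1.out := Units.ext h
  rw [h1, mul_comm u, inv_mul_cancel_left]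
  exact hu

theorem exists_rp (hG : ∀ u ∈ G, IsIntegral ℤ (u : K)) {ν : K} (h0 : ν ≠ 0)
    (h : IsIntegral ℤ (D * ν)) : ∃ k : Ix G D, ∃ u ∈ G, rp k = u * ν := by
  obtain ⟨⟨u, hu⟩, h1⟩ := QuotientGroup.mk_out_eq_mul G (Units.mk0 ν h0)
  have h2 : (((QuotientGroup.mk (Units.mk0 ν h0) : Kˣ ⧸ G).out : Kˣ) : K) = u * ν := by
    rw [h1, mul_comm]; rfl
  exact ⟨⟨QuotientGroup.mk (Units.mk0 ν h0), by
    rw [h2, mul_left_comm]; exact (hG u hu).mul h⟩, u, hu, h2⟩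

theorem tsum_Ix (hG : ∀ u ∈ G, IsIntegral ℤ (u : K)) {F : K → ℂ}
    (hF : ∀ ν, F ν ≠ 0 → ν ≠ 0 ∧ IsIntegral ℤ (D * ν)) :
    ∑' z : Ix G D × Additive G, F (((z.2.toMul : Kˣ) : K) * rp z.1) = ∑' ν, F ν := by
  have hinj : Function.Injective
      fun z : Ix G D × Additive G => ((z.2.toMul : Kˣ) : K) * rp z.1 := by
    rintro ⟨k, g⟩ ⟨k', g'⟩ h
    simp only at h
    have h1 : k = k' := eq_of_rp (u := (g.toMul : Kˣ)⁻¹ * g'.toMul)
      (mul_mem (inv_mem g.toMul.2) g'.toMul.2) (by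
        rw [Units.val_mul, mul_assoc, ← h, Units.inv_mul_cancel_left])
    subst h1
    rw [Additive.toMul.injective (Subtype.ext (Units.ext (mul_right_cancel₀ (rp_ne k) h)))]
  refine hinj.tsum_eq fun ν hν => ?_
  obtain ⟨k, u, hu, h⟩ := exists_rp hG (hF ν hν).1 (hF ν hν).2
  exact ⟨(k, Additive.ofMul ⟨u⁻¹, inv_mem hu⟩), by
    change ((u⁻¹ : Kˣ) : K) * rp k = ν
    rw [h, Units.inv_mul_cancel_left]⟩

/-- invariance under a group of units -/
def Inv (G : Subgroup Kˣ) {α : Type} (a : K → α) : Prop := ∀ u ∈ G, ∀ ν, a (u * ν) = a ν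

theorem tsum_KK (hG : ∀ u ∈ G, IsIntegral ℤ (u : K)) {a : K → ℂ} (ha : Inv G a)
    (hs : ∀ ν, a ν ≠ 0 → ν ≠ 0 ∧ IsIntegral ℤ (D * ν)) {C : K} (hC : C ≠ 0) (t : io K → ℝ) :
    PhiT (labG G) (fun k : Ix G D => a (rp k)) (fun k => lg (em (rp k)) (em C)) t =
      ∑' ν, a ν * KK' C ν t := by
  rw [PhiT, ← tsum_Ix hG (D := D) fun ν hν => hs ν (left_ne_zero_of_mul hν)]
  refine tsum_congr fun z => ?_
  rw [ha _ z.2.toMul.2, KK', lg_mul_left (Units.ne_zero _) (rp_ne _) hC]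
  rfl

/-- Voronoi summation for invariant coefficients -/
theorem vor_inv (hG : ∀ u ∈ G, IsIntegral ℤ (u : K)) (hD : D ≠ 0) {a b : K → ℂ} (ha : Inv G a)
    (hb : Inv G b) (sa : ∀ ν, a ν ≠ 0 → ν ≠ 0 ∧ IsIntegral ℤ (D * ν))
    (sb : ∀ ν, b ν ≠ 0 → ν ≠ 0 ∧ IsIntegral ℤ (D * ν))
    (ma : Summable fun k : Ix G D => ‖a (rp k)‖ * nn k ^ (-(3 / 2) : ℝ))
    (mb : Summable fun k : Ix G D => ‖b (rp k)‖ * nn k ^ (-(3 / 2) : ℝ)) {C : K} (hC : C ≠ 0)
    (hfe : ∀ t, ∑' ν, a ν * KK' C ν t = Complex.exp (-(ln t : ℂ)) * ∑' ν, b ν * KK' C ν (-t))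
    {W : ℝ → ℂ} {α β : ℝ} (H : Nice W α β) {q : ℝ}
    (hq : q = ((2 * π) ^ 2) ^ Fintype.card (io K) / (nm D * nm C)) :
    HasSum (fun k : Ix G D => b (rp k) * Wh (Fintype.card (io K)) (-1 / 2) W (q * nn k))
      (∑' k : Ix G D, a (rp k) * W (q * nn k)) := by
  have := countable_units (K := K)
  have : Countable (Additive G) := inferInstanceAs (Countable G)
  obtain ⟨ψ, P⟩ := exists_pou hG
  have hπ := Real.pi_pos
  have h1 := nm_pos' hD
  have h2 := nm_pos' hC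
  have hq0 : 0 < q := by rw [hq]; positivity
  have e : ∀ k : Ix G D, Real.exp (ln (lg (em (rp k)) (em C))) = q * nn k := fun k => by
    rw [exp_ln_lg (rp_ne k) hC, hq, nn, nm_mul']
    field_simp
  have dat : ∀ a : K → ℂ, (Summable fun k : Ix G D => ‖a (rp k)‖ * nn k ^ (-(3 / 2) : ℝ)) →
      P026Z.Vor.Dat (fun k : Ix G D => a (rp k))
        (fun k => Real.exp (ln (lg (em (rp k)) (em C)))) q := fun a ma =>
    { m_pos := hq0
      le := fun k => by rw [e]; exact le_mul_of_one_le_right hq0.le (one_le_nn hD k)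
      summ := (ma.mul_left (q ^ (-(3 / 2) : ℝ))).congr fun k => by
        rw [e, Real.mul_rpow hq0.le (zero_le_one.trans (one_le_nn hD k))]; ring }
  have h := voronoi_torus P (dat a ma) (dat b mb) (fun t => by
    rw [tsum_KK hG ha sa hC, tsum_KK hG hb sb hC, hfe]) H
  simpa only [e] using h

/-! ### averaging -/

variable (G1 : Subgroup G) [Fintype (G ⧸ G1)]

/-- the average over `G / G1` -/
noncomputable def avg (a : K → ℂ) (ν : K) : ℂ :=
  (Fintype.card (G ⧸ G1) : ℂ)⁻¹ * ∑ w : G ⧸ G1, a (((w.out : G) : Kˣ) * ν)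

/-- invariance under the subgroup -/
def Inv1 (a : K → ℂ) : Prop := ∀ u ∈ G1, ∀ ν, a ((u : Kˣ) * ν) = a ν

variable {G1}

theorem Inv1.out {a : K → ℂ} (h : Inv1 G1 a) (g : G) (ν : K) :
    a ((((QuotientGroup.mk g : G ⧸ G1).out : G) : Kˣ) * ν) = a ((g : Kˣ) * ν) := by
  obtain ⟨⟨u, hu⟩, h1⟩ := QuotientGroup.mk_out_eq_mul G1 g
  rw [h1, Subgroup.coe_mul, Units.val_mul, mul_comm ((g : Kˣ) : K), mul_assoc, h u hu]

theorem Inv1.sum_comp {a : K → ℂ} (h : Inv1 G1 a) (e : G ⧸ G1 ≃ G ⧸ G1) (φ : G → G)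
    (he : ∀ g : G, e (QuotientGroup.mk g) = QuotientGroup.mk (φ g)) (ν : K) :
    ∑ w : G ⧸ G1, a ((φ w.out : Kˣ) * ν) = ∑ w : G ⧸ G1, a (((w.out : G) : Kˣ) * ν) := by
  rw [← e.sum_comp fun w : G ⧸ G1 => a (((w.out : G) : Kˣ) * ν)]
  refine Finset.sum_congr rfl fun w _ => ?_
  have h1 : e w = QuotientGroup.mk (φ w.out) := by rw [← he, QuotientGroup.out_eq']
  rw [h1, h.out]

theorem Inv1.inv_avg {a : K → ℂ} (h : Inv1 G1 a) : Inv G (avg G1 a) := by
  intro u hu ν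
  rw [avg, avg, ← h.sum_comp (Equiv.mulRight (QuotientGroup.mk ⟨u, hu⟩)) (fun g => g * ⟨u, hu⟩)
    (fun g => rfl) ν]
  simp only [Subgroup.coe_mul, Units.val_mul, mul_assoc]

theorem card_ne : (Fintype.card (G ⧸ G1) : ℂ) ≠ 0 := by exact_mod_cast Fintype.card_ne_zero

theorem avg_of_inv {a : K → ℂ} (h : Inv G a) (ν : K) : avg G1 a ν = a ν := by
  have e : ∀ w : G ⧸ G1, a (((w.out : G) : Kˣ) * ν) = a ν := fun w => h _ w.out.2 ν
  simp only [avg, e, Finset.sum_const, Finset.card_univ, nsmul_eq_mul]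
  rw [inv_mul_cancel_left₀ card_ne]

theorem avg_mul {a ρ : K → ℂ} (h : Inv G ρ) (ν : K) :
    avg G1 (fun ν => a ν * ρ ν) ν = avg G1 a ν * ρ ν := by
  have e : ∀ w : G ⧸ G1, ρ (((w.out : G) : Kˣ) * ν) = ρ ν := fun w => h _ w.out.2 ν
  simp only [avg, e, ← Finset.sum_mul, mul_assoc]

theorem avg_sum {ι : Type} (s : Finset ι) (c : ι → ℂ) (a : ι → K → ℂ) (ν : K) :
    avg G1 (fun ν => ∑ i ∈ s, c i * a i ν) ν = ∑ i ∈ s, c i * avg G1 (a i) ν := by
  simp only [avg, Finset.mul_sum]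
  rw [Finset.sum_comm]
  exact Finset.sum_congr rfl fun i _ => Finset.sum_congr rfl fun w _ => by ring

theorem norm_avg_le {a : K → ℂ} {m : K → ℝ} (hm : Inv G m) (h : ∀ ν, ‖a ν‖ ≤ m ν) (ν : K) :
    ‖avg G1 a ν‖ ≤ m ν := by
  have hc : (0 : ℝ) < Fintype.card (G ⧸ G1) := by exact_mod_cast Fintype.card_pos
  rw [avg, norm_mul, norm_inv, Complex.norm_natCast, inv_mul_le_iff₀ hc, ← nsmul_eq_mul,
    ← Finset.card_univ]
  exact (norm_sum_le _ _).trans (Finset.sum_le_card_nsmul _ _ _ fun w _ =>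
    (h _).trans (hm _ w.out.2 ν).le)

theorem tsum_shift (a : K → ℂ) (h0 : a 0 = 0) {C : K} (hC : C ≠ 0) (u : Kˣ) (t : io K → ℝ) :
    ∑' ν, a (u * ν) * KK' C ν t = ∑' ν, a ν * KK' C ν (t - lab (u : K)) := by
  rw [← (Units.mulLeft u).tsum_eq fun ν => a ν * KK' C ν (t - lab (u : K))]
  refine tsum_congr fun ν => ?_
  by_cases hν : ν = 0
  · simp [hν, h0]
  · rw [Units.mulLeft_apply, KK', KK', lg_mul_left u.ne_zero hν hC]
    congr 2
    abel

theorem avg_fe (hG : ∀ u ∈ G, IsIntegral ℤ (u : K)) {a b : K → ℂ} (hb : Inv1 G1 b) (a0 : a 0 = 0)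
    (b0 : b 0 = 0) {C : K} (hC : C ≠ 0)
    (sa : ∀ u ∈ G, ∀ t, Summable fun ν => a (u * ν) * KK' C ν t)
    (sb : ∀ u ∈ G, ∀ t, Summable fun ν => b (u * ν) * KK' C ν t)
    (hfe : ∀ t, ∑' ν, a ν * KK' C ν t = Complex.exp (-(ln t : ℂ)) * ∑' ν, b ν * KK' C ν (-t))
    (t : io K → ℝ) : ∑' ν, avg G1 a ν * KK' C ν t =
      Complex.exp (-(ln t : ℂ)) * ∑' ν, avg G1 b ν * KK' C ν (-t) := by
  have h1 : ∀ u : G, ∑' ν, a ((u : Kˣ) * ν) * KK' C ν t =
      Complex.exp (-(ln t : ℂ)) * ∑' ν, b (((u⁻¹ : G) : Kˣ) * ν) * KK' C ν (-t) := by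
    intro u
    have h2 : lab (((u⁻¹ : G) : Kˣ) : K) = -lab ((u : Kˣ) : K) := by
      rw [eq_neg_iff_add_eq_zero]
      exact (map_add (labG G) (Additive.ofMul u⁻¹) (Additive.ofMul u)).symm.trans (by
        rw [← ofMul_mul, inv_mul_cancel, ofMul_one, map_zero])
    rw [tsum_shift a a0 hC, tsum_shift b b0 hC, hfe, h2, sub_eq_add_neg t, ln_add, ln_neg,
      ln_lab hG u.2, neg_zero, add_zero]
    congr 1
    refine tsum_congr fun ν => ?_
    congr 2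
    abel
  have h3 : ∀ ν, avg G1 b ν = (Fintype.card (G ⧸ G1) : ℂ)⁻¹ *
      ∑ w : G ⧸ G1, b ((((w.out : G)⁻¹ : G) : Kˣ) * ν) := fun ν => by
    rw [hb.sum_comp (Equiv.inv _) (fun g => g⁻¹) (fun g => rfl) ν, avg]
  simp only [h3]
  simp only [avg, mul_assoc, tsum_mul_left, Finset.sum_mul]
  rw [Summable.tsum_finsetSum fun w _ => sa _ w.out.2 t,
    Summable.tsum_finsetSum fun w _ => sb _ (w.out⁻¹).2 (-t), mul_left_comm, Finset.mul_sum
      (a := Complex.exp _)]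
  simp only [h1]

/-! ### the group `G0` -/

theorem mem_G0 {k : ℕ} {u : Kˣ} : u ∈ G0 K k ↔ ∃ w : Kˣ, (w ∈ Ru K ∧ w ∈ P K k) ∧ w ^ 6 = u :=
  Iff.rfl

theorem G0_le (k : ℕ) : G0 K k ≤ Ru K ⊓ P K k := by
  rintro _ ⟨w, hw, rfl⟩
  exact pow_mem hw 6

theorem G0_le_U (k : ℕ) : G0 K k ≤ U K := by
  rintro _ ⟨w, hw, rfl⟩
  exact pow_six_mem_U hw.1

theorem G0_int (k : ℕ) : ∀ u ∈ G0 K k, IsIntegral ℤ (u : K) := fun _ hu =>
  isIntegral_of_mem (G0_le k hu).1.1 (P_le_Su k (G0_le k hu).2).1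

theorem nm_G0 {k : ℕ} {u : Kˣ} (hu : u ∈ G0 K k) : nm (u : K) = 1 :=
  nm_eq_one (G0_int k u hu) (G0_int k _ (inv_mem hu))

theorem mul_mem_R_iff {u : Kˣ} (hu : u ∈ Ru K) {ν : K} : (u : K) * ν ∈ R K ↔ ν ∈ R K :=
  ⟨fun h => by simpa using mul_mem hu.2 h, mul_mem hu.1⟩

theorem Ex.inv {τ : K → ℂ} {j k : ℕ} (E : Ex τ j) (hjk : j ≤ k) : Inv (G0 K k) τ := by
  intro u hu ν
  have hR := (G0_le k hu).1
  by_cases hν : ν ∈ R K
  · obtain ⟨w, hw, rfl⟩ := hu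
    have e : ((powMonoidHom 6 w : Kˣ) : K) = ((w ^ 2 : Kˣ) : K) ^ 3 := by
      simp [← pow_mul]
    have h1 := mul_mem hR.1 hν
    rw [e] at h1 ⊢
    exact E.cube _ (P_mono hjk (pow_mem hw.2 2)) ν hν h1
  · have h1 : τ ν = 0 := by
      by_contra h
      exact hν (mem_R_of_lv (E.supp ν h))
    have h2 : τ (u * ν) = 0 := by
      by_contra h
      exact hν ((mul_mem_R_iff hR).1 (mem_R_of_lv (E.supp _ h)))
    rw [h1, h2]

theorem Ex.inv_cf {τ : K → ℂ} {j k : ℕ} (E : Ex τ j) (hjk : j ≤ k) : Inv (G0 K k) (cf τ) := by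
  intro u hu ν
  rw [cf, cf, E.inv hjk u hu, nm_mul', nm_G0 hu, one_mul]

/-- **Voronoi summation** for coefficients dominated by theta coefficients -/
theorem vor_Ex {τ τ' : K → ℂ} {j k : ℕ} (E : Ex τ j) (E' : Ex τ' j) (hjk : j ≤ k)
    {G1 : Subgroup (G0 K k)} [Fintype (G0 K k ⧸ G1)] {a b : K → ℂ} (ia : Inv1 G1 a)
    (ib : Inv1 G1 b) (ha : ∀ ν, ‖a ν‖ ≤ ‖cf τ ν‖) (hb : ∀ ν, ‖b ν‖ ≤ ‖cf τ' ν‖)
    (sa : Summable fun x : Ix (G0 K k) (TH.lv K j) => ‖cf τ (rp x)‖ * nn x ^ (-(3 / 2) : ℝ))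
    (sb : Summable fun x : Ix (G0 K k) (TH.lv K j) => ‖cf τ' (rp x)‖ * nn x ^ (-(3 / 2) : ℝ))
    {C : K} (hC : C ≠ 0)
    (hfe : ∀ t, ∑' ν, a ν * KK' C ν t = Complex.exp (-(ln t : ℂ)) * ∑' ν, b ν * KK' C ν (-t))
    {W : ℝ → ℂ} {α β : ℝ} (H : Nice W α β) {q : ℝ}
    (hq : q = ((2 * π) ^ 2) ^ Fintype.card (io K) / (nm (TH.lv K j) * nm C)) :
    HasSum (fun x : Ix (G0 K k) (TH.lv K j) =>
        avg G1 b (rp x) * Wh (Fintype.card (io K)) (-1 / 2) W (q * nn x))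
      (∑' x : Ix (G0 K k) (TH.lv K j), avg G1 a (rp x) * W (q * nn x)) := by
  have key : ∀ {τ a : K → ℂ}, Ex τ j → (∀ ν, ‖a ν‖ ≤ ‖cf τ ν‖) →
      (∀ ν, ‖avg G1 a ν‖ ≤ ‖cf τ ν‖) ∧ a 0 = 0 ∧
        ∀ u ∈ G0 K k, ∀ t, Summable fun ν => a (u * ν) * KK' C ν t := fun {τ a} E ha =>
    ⟨norm_avg_le (m := fun ν => ‖cf τ ν‖) (fun u hu ν => congrArg norm (E.inv_cf hjk u hu ν)) ha,
      norm_le_zero_iff.1 (by simpa [cf_zero] using ha 0),
      fun u hu t => E.summable (fun ν => (ha _).trans (by rw [E.inv_cf hjk u hu])) hC t⟩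
  obtain ⟨a1, a2, a3⟩ := key E ha
  obtain ⟨b1, b2, b3⟩ := key E' hb
  have hD := lv_ne (K := K) j
  have hn : ∀ x : Ix (G0 K k) (TH.lv K j), 0 ≤ nn x ^ (-(3 / 2) : ℝ) := fun x =>
    Real.rpow_nonneg (zero_le_one.trans (one_le_nn hD x)) _
  exact vor_inv (G0_int k) hD ia.inv_avg ib.inv_avg
    (fun ν hν => E.cf_supp fun h => hν (norm_le_zero_iff.1 (by simpa [h] using a1 ν)))
    (fun ν hν => E'.cf_supp fun h => hν (norm_le_zero_iff.1 (by simpa [h] using b1 ν)))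
    (Summable.of_nonneg_of_le (fun x => mul_nonneg (norm_nonneg _) (hn x))
      (fun x => mul_le_mul_of_nonneg_right (a1 _) (hn x)) sa)
    (Summable.of_nonneg_of_le (fun x => mul_nonneg (norm_nonneg _) (hn x))
      (fun x => mul_le_mul_of_nonneg_right (b1 _) (hn x)) sb) hC
    (avg_fe (G0_int k) ib a2 b2 hC a3 b3 hfe) H hq

end Vale.Agent.P016Z.Vor
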